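import Vale.Agent.P301.H949.Flat

/-! P301, H949: isomorphisms between powers of line bundles; bundles with proportional curvature,
rational ratio. -/

open scoped Manifold ContDiff ComplexOrder Topology
open Filter Metric Set Complex

set_option linter.all false

noncomputable section

namespace Vale.Agent.P301.H949

open Vale.Agent.P272.K Vale.Agent.P301.H599

variable {d : ℕ} {X : Type} [TopologicalSpace X] [ChartedSpace (Cm d) X] {ι κ : Type}

/-- `P^q` and `L^a` are isomorphic. -/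
def IsoPow (P : LineBundle d X κ) (q : ℕ) (L : LineBundle d X ι) (a : ℤ) : Prop :=
  ∃ h : κ → ι → X → ℂ,
    (∀ k i x, x ∈ P.U k → x ∈ L.U i → Hol d (h k i) x ∧ h k i x ≠ 0) ∧
    ∀ k l i j x, x ∈ P.U k → x ∈ P.U l → x ∈ L.U i → x ∈ L.U j →
      h k i x = P.g k l x ^ q * (L.g i j x ^ a)⁻¹ * h l j x

variable [IsManifold 𝓘(ℂ, Cm d) ω X]

/-- `P^q ⊗ L^{-a}` -/
def tw (P : LineBundle d X κ) (q : ℕ) (L : LineBundle d X ι) (a : ℤ) :
    LineBundle d X (κ × ι) where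
  U k := P.U k.1 ∩ L.U k.2
  isOpen k := (P.isOpen k.1).inter (L.isOpen k.2)
  cover x := by
    obtain ⟨k, hk⟩ := P.cover x
    obtain ⟨i, hi⟩ := L.cover x
    exact ⟨(k, i), hk, hi⟩
  g k l x := P.g k.1 l.1 x ^ q * (L.g k.2 l.2 x ^ a)⁻¹
  holo k l e x he hk hl := by
    have h1 := L.holo k.2 l.2 e x he hk.2 hl.2
    have h2 : L.g k.2 l.2 (e.symm (e x)) ≠ 0 := by
      rw [he.left_inv]; exact L.ne_zero _ _ _ hk.2 hl.2
    exact ((P.holo k.1 l.1 e x he hk.1 hl.1).pow q).mul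
      ((h1.zpow h2).inv (zpow_ne_zero _ h2))
  ne_zero k l x hk hl := mul_ne_zero (pow_ne_zero _ (P.ne_zero _ _ _ hk.1 hl.1))
    (inv_ne_zero (zpow_ne_zero _ (L.ne_zero _ _ _ hk.2 hl.2)))
  cocycle k l m x hk hl hm := by
    rw [← P.cocycle k.1 l.1 m.1 x hk.1 hl.1 hm.1, ← L.cocycle k.2 l.2 m.2 x hk.2 hl.2 hm.2,
      mul_pow, mul_zpow, mul_inv]
    ring

variable {P : LineBundle d X κ} {L : LineBundle d X ι} {ρ : ι → X → ℝ} {ρ' : κ → X → ℝ}

lemma log_tw {α β : ℂ} (hα : α ≠ 0) (hβ : β ≠ 0) (q : ℕ) (a : ℤ) :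
    Real.log (‖α ^ q * (β ^ a)⁻¹‖ ^ 2) =
      q * Real.log (‖α‖ ^ 2) - a * Real.log (‖β‖ ^ 2) := by
  have h1 : ‖α‖ ≠ 0 := norm_ne_zero_iff.2 hα
  have h2 : ‖β‖ ≠ 0 := norm_ne_zero_iff.2 hβ
  rw [norm_mul, norm_inv, norm_pow, norm_zpow, mul_pow, inv_pow,
    Real.log_mul (by positivity) (by positivity), Real.log_inv, Real.log_pow, Real.log_pow,
    Real.log_pow, Real.log_pow, Real.log_zpow, Real.log_pow]
  push_cast
  ring

lemma isMetric_tw (hL : IsMetric L ρ) (hP : IsMetric P ρ') (q : ℕ) (a : ℤ) {v : X → ℝ}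
    (hv : Smooth (d := d) v) :
    IsMetric (tw P q L a) (fun k x => q * ρ' k.1 x - a * ρ k.2 x - v x) where
  smooth k e x he hk := ((contDiffAt_const.mul (hP.smooth k.1 e x he hk.1)).sub
    (contDiffAt_const.mul (hL.smooth k.2 e x he hk.2))).sub (hv e x he)
  change k l x hk hl := by
    show _ = _ + Real.log (‖P.g k.1 l.1 x ^ q * (L.g k.2 l.2 x ^ a)⁻¹‖ ^ 2)
    rw [log_tw (P.ne_zero _ _ _ hk.1 hl.1) (L.ne_zero _ _ _ hk.2 hl.2),
      hP.change k.1 l.1 x hk.1 hl.1, hL.change k.2 l.2 x hk.2 hl.2]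
    ring

lemma ddc_of_contDiff {f g : Cm d → ℝ} {z : Cm d} (hf : ContDiffAt ℝ ∞ f z)
    (hg : ContDiffAt ℝ ∞ g z) (a b : ℝ) :
    cHess (fun y => a * f y - b * g y) z = (a : ℂ) • cHess f z - (b : ℂ) • cHess g z := by
  have hf2 : ContDiffAt ℝ 2 f z := hf.of_le (by norm_cast)
  have hg2 : ContDiffAt ℝ 2 g z := hg.of_le (by norm_cast)
  have h1 : (fun y => a * f y - b * g y) = fun y => a * f y + (-b) * g y := by
    funext y; ring
  rw [h1, cHess_add (contDiffAt_const.mul hf2) (contDiffAt_const.mul hg2),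
    cHess_const_mul _ hf2, cHess_const_mul _ hg2]
  push_cast
  rw [neg_smul, sub_eq_add_neg]

/-- The rational case. -/
theorem isoPow_of_curvature [SimplyConnectedSpace X] (hL : IsMetric L ρ) (hP : IsMetric P ρ')
    {q : ℕ} {a : ℤ}
    (h : SameClass (fun e z => (q : ℂ) • curvature P ρ' e z)
      (fun e z => (a : ℂ) • curvature L ρ e z)) : IsoPow P q L a := by
  obtain ⟨v, hv, hvc⟩ := h
  have hm := isMetric_tw hL hP q a hv
  have h0 : ∀ e x, At e x → curvature (tw P q L a)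
      (fun k x => q * ρ' k.1 x - a * ρ k.2 x - v x) e (e x) = 0 := by
    intro e x he
    obtain ⟨k, hk⟩ := (tw P q L a).cover x
    rw [curvature_eq hm he hk]
    have h1 := hvc e x he
    simp only [curvature_eq hP he hk.1, curvature_eq hL he hk.2] at h1
    unfold ddc at h1 ⊢
    have hs1 := hP.smooth k.1 e x he hk.1
    have hs2 := hL.smooth k.2 e x he hk.2
    have hs3 := hv e x he
    have e1 : (fun y => (q : ℝ) * ρ' k.1 (e.symm y) - (a : ℝ) * ρ k.2 (e.symm y) - v (e.symm y)) =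
        fun y => 1 * ((q : ℝ) * ρ' k.1 (e.symm y) - (a : ℝ) * ρ k.2 (e.symm y)) -
          1 * v (e.symm y) := by
      funext y; ring
    rw [e1, ddc_of_contDiff ((contDiffAt_const.mul hs1).sub (contDiffAt_const.mul hs2)) hs3,
      ddc_of_contDiff hs1 hs2]
    push_cast
    rw [h1]
    simp
  obtain ⟨s, hs1, hs2, hs3, -⟩ := exists_flat_section hm h0
  refine ⟨fun k i => s (k, i), fun k i x hk hi => ⟨hs1 (k, i) x ⟨hk, hi⟩, hs3 (k, i) x ⟨hk, hi⟩⟩,
    fun k l i j x hk hl hi hj => ?_⟩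
  exact hs2 (k, i) (l, j) x ⟨hk, hi⟩ ⟨hl, hj⟩

end Vale.Agent.P301.H949
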