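import Vale.Agent.P301.H949.StepH
import Vale.Agent.P301.H951.PTAnn

/-!
# P301, C1: parallel forms with a common annihilator are linearly dependent
-/

open Filter Metric Set MeasureTheory Topology
open scoped ENNReal ComplexOrder Matrix ComplexConjugate Manifold ContDiff

set_option linter.all false

noncomputable section

namespace Vale.Agent.P301.H949

open Vale.Agent.P272.K Vale.Agent.P272.K.C2 Vale.Agent.P299.IX Vale.Agent.P299.IX.Fock
open Vale.Agent.P301.H85 Vale.Agent.P301.H599 Vale.Agent.P301.H862 Vale.Agent.P299.H954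
open Vale.Agent.P301.H395 (IntSec IntForm)
open Vale.Agent.P301.H897 (LamF)
open Vale.Agent.P301.H724 (Nz Homog Prop2)

section alg

variable {d : ℕ}

/-- A form of degree `p < d` with scalar Gram matrix has no annihilator. -/
theorem zero_of_gram {A : Matrix (Fin d) (Fin d) ℂ} (hA : A.PosDef) {p : ℕ} (hpd : p < d)
    {u : FI d → ℂ} (hu : ∀ I, I.card ≠ p → u I = 0) {c : ℂ}
    (hc : ∀ i j, pr (lam A⁻¹ *ᵥ (iot i *ᵥ u)) (iot j *ᵥ u) = c * A i j) {t : Fin d → ℂ}
    (ht : t ≠ 0) (h : epsV t *ᵥ u = 0) : u = 0 := by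
  classical
  have hR : (Matrix.vecMulVec t (star t)).IsHermitian := by
    rw [Matrix.IsHermitian, Matrix.conjTranspose_vecMulVec, star_star]
  obtain ⟨T, U, η, hUT, hTU, hAT, hRT⟩ := H724.exists_frame_herm hA hR
  set ξ : Fin d → ℂ := U *ᵥ t with hξ
  have hTξ : T *ᵥ ξ = t := by rw [hξ, Matrix.mulVec_mulVec, hTU, Matrix.one_mulVec]
  have h3 : Tᴴ * Uᴴ = 1 := by rw [← Matrix.conjTranspose_mul, hUT, Matrix.conjTranspose_one]
  -- only one component of `ξ` is not zero
  have h4 : ∀ i j, i ≠ j → ξ i * star (ξ j) = 0 := by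
    intro i j hij
    have h5 : U * Matrix.vecMulVec t (star t) * Uᴴ = Matrix.vecMulVec ξ (star ξ) := by
      rw [Matrix.mul_vecMulVec, Matrix.vecMulVec_mul, hξ, Matrix.star_mulVec]
    have h6 : U * Matrix.vecMulVec t (star t) * Uᴴ =
        Matrix.diagonal (fun k => ((η k : ℝ) : ℂ)) := by
      rw [hRT]
      calc U * (T * Matrix.diagonal (fun k => ((η k : ℝ) : ℂ)) * Tᴴ) * Uᴴ
          = (U * T) * Matrix.diagonal (fun k => ((η k : ℝ) : ℂ)) * (Tᴴ * Uᴴ) := by noncomm_ring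
        _ = _ := by rw [hUT, h3, Matrix.one_mul, Matrix.mul_one]
    have h7 := congrFun (congrFun (h5.symm.trans h6) i) j
    rw [Matrix.diagonal_apply_ne _ hij, Matrix.vecMulVec_apply] at h7
    exact h7
  obtain ⟨k, hk⟩ : ∃ k, ξ k ≠ 0 := by
    by_contra hcon
    push Not at hcon
    apply ht
    rw [← hTξ, show ξ = 0 from funext hcon, Matrix.mulVec_zero]
  have hξ0 : ∀ i, i ≠ k → ξ i = 0 := by
    intro i hi
    exact (mul_eq_zero.1 (h4 i k hi)).resolve_right (star_ne_zero.2 hk)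
  set v : FI d → ℂ := lam U *ᵥ u with hv
  have hv1 : ξ k • (eps k *ᵥ v) = 0 := by
    have h5 : epsV ξ *ᵥ v = lam U *ᵥ (epsV t *ᵥ u) := by
      rw [hv, hξ, H951.epsV_lam]
    rw [h, Matrix.mulVec_zero] at h5
    rw [← h5]
    unfold epsV
    rw [Matrix.sum_mulVec, Finset.sum_eq_single k]
    · rw [Matrix.smul_mulVec]
    · intro i _ hi
      rw [hξ0 i hi, zero_smul, Matrix.zero_mulVec]
    · intro hk'; exact absurd (Finset.mem_univ _) hk'
  have hv2 : ∀ I : FI d, k ∉ I → v I = 0 := fun I hI =>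
    H951.eps_eq_zero_iff ((smul_eq_zero.1 hv1).resolve_left hk) hI
  have hdeg : ∀ I, I.card ≠ p → v I = 0 := fun I hI => H724.lam_degree U hu I hI
  have hgr : ∀ l, ((∑ I, if l ∈ I then ‖v I‖ ^ 2 else 0 : ℝ) : ℂ) = c := by
    intro l
    rw [← H724.pr_iot_self, H724.gram_frame hUT hTU hAT hc l l, if_pos rfl]
  have hgr' : ∀ l, (∑ I : FI d, if l ∈ I then ‖v I‖ ^ 2 else 0) = c.re := by
    intro l
    have := congrArg Complex.re (hgr l)
    rwa [Complex.ofReal_re] at this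
  have h5 := (H724.jensen_aux (p := p) (by omega) (a := fun I => ‖v I‖ ^ 2) (fun I => sq_nonneg _)
    (fun I hI => by rw [hdeg I hI]; simp) hgr' (η := fun _ => 1) (fun _ => one_pos)).1
  have h6 : (∑ I : FI d, ‖v I‖ ^ 2) = c.re := by
    rw [← hgr' k]
    refine Finset.sum_congr rfl fun I _ => ?_
    split_ifs with hI
    · rfl
    · rw [hv2 I hI]; simp
  rw [h6] at h5
  have h7 : c.re = 0 := by
    have h8 : ((d : ℝ) - p) * c.re = 0 := by linear_combination -h5
    refine (mul_eq_zero.1 h8).resolve_left ?_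
    have : (p : ℝ) < d := by exact_mod_cast hpd
    exact (sub_pos.2 this).ne'
  rw [h7] at h6
  have h8 : v = 0 := by
    funext I
    have := (Finset.sum_eq_zero_iff_of_nonneg fun I _ => sq_nonneg ‖v I‖).1 h6 I (Finset.mem_univ _)
    simpa using this
  have h9 : lam T *ᵥ v = u := by
    rw [hv, Matrix.mulVec_mulVec, ← lam_mul, hTU, lam_one, Matrix.one_mulVec]
  rw [← h9, h8, Matrix.mulVec_zero]

end alg

variable {d : ℕ} {X : Type} [TopologicalSpace X] [ChartedSpace (Cm d) X]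
  [IsManifold 𝓘(ℂ, Cm d) ω X] [T2Space X] [CompactSpace X]

/-- A holomorphic form of degree `1 ≤ p < d` with an annihilator at a point vanishes there. -/
theorem isHolF_zero_of_ann [SimplyConnectedSpace X] {w s : Fm d X} (hs : IsSymplectic d X w s)
    {p : ℕ} (hp : 1 ≤ p) (hpd : p < d) {g : Frm d X} (hg : IsHolF p g) {e : Chart d X} {x : X}
    (hx : At e x) {t : Fin d → ℂ} (ht : t ≠ 0) (h : epsV t *ᵥ g e (e x) = 0) : g e (e x) = 0 := by
  obtain ⟨v, κ, hv, hk⟩ := H450.exists_rf hs hs.kahler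
  obtain ⟨q, rfl⟩ : ∃ q, p = q + 1 := ⟨p - 1, by omega⟩
  obtain ⟨c, hc⟩ := BE.gram_form hs hk.kahler hk.ric hg
  exact zero_of_gram (hk.kahler.posDef e x hx) hpd (hg.deg e x hx) (hc e x hx) ht h

/-! ### powers of `L` -/

variable {ι κ : Type} {L : LineBundle d X ι}

omit [IsManifold 𝓘(ℂ, Cm d) ω X] [T2Space X] [CompactSpace X] in
/-- Every line bundle `M` with a nonzero section of `Λ^p ⊗ M` is a power of `L`. -/
def NSLProp (L : LineBundle d X ι) : Prop :=
  ∀ (κ : Type) (M : LineBundle d X κ) (p : ℕ) (β : κ → Chart d X → Cm d → FI d → ℂ),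
    H724.IsSec M LamF 1 β → Homog M p β → (∃ x, Nz M β x) → ∃ k : ℕ, IsoPow M 1 L k

/-- If `L^m`, `m ≠ 0`, has a nowhere vanishing section, the curvature of `L` is exact. -/
theorem exact_of_ne_zero' [ConnectedSpace X] {ρ : ι → X → ℝ} (hρ : IsMetric L ρ) {m : ℤ}
    (hm : m ≠ 0) {f : ι → X → ℂ} (hf : IntSec L m f) (h0 : ∀ i x, x ∈ L.U i → f i x ≠ 0) :
    H450.IsExact (curvature L ρ) := by
  have hρm : IsMetric (powZ L m) (fun i x => (m : ℝ) * ρ i x) :=
    { smooth := fun i e x hx hi => contDiffAt_const.mul (hρ.smooth i e x hx hi)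
      change := fun i j x hi hj => by
        show (m : ℝ) * ρ i x = m * ρ j x + Real.log (‖L.g i j x ^ m‖ ^ 2)
        have h1 : ‖L.g i j x ^ m‖ ^ 2 = (‖L.g i j x‖ ^ 2) ^ m := by
          rw [norm_zpow, ← zpow_natCast, ← zpow_mul, mul_comm, zpow_mul, zpow_natCast]
        rw [hρ.change i j x hi hj, h1, Real.log_zpow, mul_add] }
  have hf1 : IntSec (powZ L m) 1 f :=
    { holo := hf.holo
      ch := fun i j x hi hj => by rw [zpow_one]; exact hf.ch i j x hi hj }
  obtain ⟨u, hu, hue⟩ := exact_of_ne_zero hρm hf1 h0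
  have hmR : (m : ℝ) ≠ 0 := by exact_mod_cast hm
  refine ⟨fun x => (m : ℝ)⁻¹ * u x, Smooth.const_mul _ hu, fun e x hx => ?_⟩
  obtain ⟨i, hi⟩ := L.cover x
  rw [ddc_const_mul _ hu e x hx]
  have h1 := hue e x hx
  rw [curvature_eq hρm hx hi] at h1
  rw [curvature_eq hρ hx hi]
  show _ = ((((m : ℝ)⁻¹ : ℝ)) : ℂ) • ddc u e (e x)
  have h2 : ddc (fun x => (m : ℝ) * ρ i x) e (e x) = ((m : ℝ) : ℂ) • ddc (ρ i) e (e x) :=
    P272.K.cHess_const_mul (m : ℝ) ((hρ.smooth i e x hx hi).of_le (by norm_cast))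
  rw [← h1, h2, smul_smul]
  have h3 : ((((m : ℝ)⁻¹ : ℝ)) : ℂ) * ((m : ℝ) : ℂ) = 1 := by
    rw [← Complex.ofReal_mul, inv_mul_cancel₀ hmR, Complex.ofReal_one]
  rw [h3, one_smul]

/-- The scalar section as a form of degree zero. -/
theorem isSec_form0 {k : ℤ} {f : ι → X → ℂ} (hf : IntSec L k f) :
    H724.IsSec (powZ L k) LamF 1 (fun i e z => f i (e.symm z) • (ev ∅ : FI d → ℂ)) where
  holo i e x hx hi a := by
    show AnalyticAt ℂ (fun z => f i (e.symm z) * (ev ∅ : FI d → ℂ) a) (e x)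
    exact (hf.holo i e x hx hi).mul analyticAt_const
  chL i j e x hx hi hj := by
    rw [hx.left_inv, hf.ch i j x hi hj, pow_one, smul_smul]
    rfl
  chV i e e' x hx hx' hi := by
    rw [hx.left_inv, hx'.left_inv, Matrix.mulVec_smul]
    congr 1
    exact (lam_ev_empty _).symm

variable [SimplyConnectedSpace X]

/-- `L^k` has no nonzero section for `k < 0`. -/
theorem intSec_neg {ρ : ι → X → ℝ} (hρ : IsMetric L ρ) (hne : ¬ H450.IsExact (curvature L ρ))
    (hN : NSLProp L) {k : ℤ} (hk : k < 0) {f : ι → X → ℂ} (hf : IntSec L k f) {i : ι} {x : X}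
    (hi : x ∈ L.U i) : f i x = 0 := by
  by_contra h0
  have hx := H724.at_chartAt (d := d) x
  have hsec := isSec_form0 hf
  obtain ⟨k', h, hh, hch⟩ := hN ι (powZ L k) 0 _ hsec (fun i e x hx hi I hI => by
      have : I ≠ ∅ := fun h => hI (by rw [h, Finset.card_empty])
      show f i (e.symm (e x)) * (ev ∅ : FI d → ℂ) I = 0
      rw [ev, Pi.single_eq_of_ne this, mul_zero])
    ⟨x, hsec.nz hx (i := i) hi fun h1 => by
      have h2 := congrFun h1 ∅
      have h3 : f i ((chartAt (Cm d) x).symm (chartAt (Cm d) x x)) * (ev ∅ : FI d → ℂ) ∅ = 0 := h2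
      rw [hx.left_inv, ev, Pi.single_eq_same, mul_one] at h3
      exact h0 h3⟩
  refine hne (exact_of_ne_zero' hρ (m := k - k') (by omega) (f := fun i x => h i i x)
    ⟨fun i e x hx hi => (hh i i x hi hi).1 e hx, fun i j x hi hj => ?_⟩
    fun i x hi => (hh i i x hi hi).2)
  rw [hch i j i j x hi hj hi hj, pow_one, zpow_sub₀ (L.ne_zero i j x hi hj), zpow_natCast]
  rfl

/-- **C1.** Two parallel sections of `Λ^p ⊗ L`, `1 ≤ p < d`, with a common annihilator at every
point, are linearly dependent. -/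
theorem dep_of_par {w s : Fm d X} (hs : IsSymplectic d X w s) {ρ : ι → X → ℝ}
    (hρ : IsMetric L ρ) (hne : ¬ H450.IsExact (curvature L ρ)) (hN : NSLProp L) {p : ℕ}
    (hp : 1 ≤ p) (hpd : p < d) {u : Fin 2 → ι → Chart d X → Cm d → FI d → ℂ}
    (hu : ∀ b, H724.IsSec L LamF 1 (u b)) (huh : ∀ b, Homog L p (u b))
    (hann : ∀ i e x, At e x → x ∈ L.U i → ∃ t : Fin d → ℂ, t ≠ 0 ∧
      ∀ b, epsV t *ᵥ u b i e (e x) = 0)
    (hpar : Prop2 L (u 0) (u 1)) : ¬ H724.LinInd L u := by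
  intro hli
  have hpar' : ∀ a b, Prop2 L (u a) (u b) := by
    intro a b
    fin_cases a <;> fin_cases b
    · intro i e x hx hi c c'; exact mul_comm _ _
    · exact hpar
    · intro i e x hx hi c c'
      have := hpar i e x hx hi c c'
      show u 1 i e (e x) c * u 0 i e (e x) c' = u 1 i e (e x) c' * u 0 i e (e x) c
      rw [mul_comm, mul_comm (u 1 i e (e x) c')]
      exact this.symm
    · intro i e x hx hi c c'; exact mul_comm _ _
  -- a nonzero value
  obtain ⟨b₀, i₀, e₀, x₀, hx₀, hi₀, hb₀⟩ : ∃ b i e x, At e x ∧ x ∈ L.U i ∧ u b i e (e x) ≠ 0 := by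
    by_contra hcon
    push Not at hcon
    have h1 := hli (fun _ => 1) fun i e x hx hi => by
      refine Finset.sum_eq_zero fun b _ => ?_
      rw [hcon b i e x hx hi, smul_zero]
    have h2 := congrFun h1 0
    exact one_ne_zero h2
  obtain ⟨P⟩ := H508.exists_movingPart L (Λ := LamF) (fun e e' x hx hx' a b =>
    H508.AnX.cont (d := d) (H395.anX_LamF hx hx' a b)) (fun _ => 1) u
    hu hpar' ⟨b₀, x₀, (hu b₀).nz hx₀ hi₀ hb₀⟩
  -- the degree of the fixed part
  have hτh : Homog (H508.invL P.W) p P.τ := by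
    intro x e y he hy I hI
    obtain ⟨k, hk⟩ := H508.ne_iff.1 (P.prim x y hy e he).ne
    have h1 := H508.zero_or (H508.an_comp (P.prim x y hy e he).an k) (P.sec.holo x e y he hy I) (by
      filter_upwards [H450.eventually_at' (L := P.W) he hy] with z hz
      have h2 := P.fac x e (e.symm z) hz.1 hz.2.2 k I
      rw [hz.2.1] at h2
      have h3 := huh k (P.i x) e (e.symm z) hz.1 (P.sub x hz.2.2) I hI
      rw [hz.2.1] at h3
      rw [← h2, h3])
    exact (h1.resolve_left hk).self_of_nhds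
  obtain ⟨k, h, hh, hch⟩ := hN X (H508.invL P.W) p P.τ P.sec hτh
    (H450.nz_tau P (k := b₀) ⟨x₀, (hu b₀).nz hx₀ hi₀ hb₀⟩)
  have hgs : ∀ i x, x ∈ L.U i → L.g i i x = 1 := fun i x hi => H450.g_self L hi
  have hgW : ∀ x y, y ∈ P.W.U x → P.W.g x x y = 1 := fun x y hy => H450.g_self P.W hy
  -- the sections of `L^(1 - k)`
  set f : Fin 2 → ι → X → ℂ := fun b i z => h z i z * L.g i (P.i z) z * P.t z z b with hf
  have key : ∀ b i x z, z ∈ L.U i → z ∈ P.W.U x →
      f b i z = h x i z * L.g i (P.i x) z * P.t x z b := by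
    intro b i x z hi hx
    have hz := P.mem z
    have h1 : h z i z = ((P.W.g z x z)⁻¹) ^ 1 * (L.g i i z ^ (k : ℤ))⁻¹ * h x i z :=
      hch z x i i z hz hx hi hi
    rw [pow_one, hgs i z hi, one_zpow, inv_one, mul_one] at h1
    have h2 := P.ch z x z hz hx b
    have h3 := L.cocycle i (P.i z) (P.i x) z hi (P.sub z hz) (P.sub x hx)
    have h4 := P.W.ne_zero z x z hz hx
    rw [hf]
    simp only
    rw [h1, h2, ← h3, pow_one]
    field_simp
  have hfs : ∀ b, IntSec L (1 - (k : ℤ)) (f b) := by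
    intro b
    refine ⟨fun i e x hx hi => ?_, fun i j x hi hj => ?_⟩
    · have hm := P.mem x
      refine AnalyticAt.congr ((((hh x i x hm hi).1 e hx).mul
        (L.holo i (P.i x) e x hx hi (P.sub x hm))).mul (H450.t_holo P b x hx hm)) ?_
      filter_upwards [H450.eventually_at' (L := P.W) hx hm,
        H450.eventually_at' (L := L) hx hi] with z hz hz'
      exact (key b i x (e.symm z) hz'.2.2 hz.2.2).symm
    · have hm := P.mem x
      have h1 : h x i x = ((P.W.g x x x)⁻¹) ^ 1 * (L.g i j x ^ (k : ℤ))⁻¹ * h x j x :=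
        hch x x i j x hm hm hi hj
      rw [pow_one, hgW x x hm, inv_one, one_mul] at h1
      have h3 := L.cocycle i j (P.i x) x hi hj (P.sub x hm)
      have h4 := L.ne_zero i j x hi hj
      show h x i x * L.g i (P.i x) x * P.t x x b =
        L.g i j x ^ (1 - (k : ℤ)) * (h x j x * L.g j (P.i x) x * P.t x x b)
      rw [h1, ← h3, zpow_sub₀ h4, zpow_one]
      field_simp
  -- `t` is not zero
  have htne : ∃ b i x, x ∈ L.U i ∧ f b i x ≠ 0 := by
    have hm := P.mem x₀
    refine ⟨b₀, i₀, x₀, hi₀, mul_ne_zero (mul_ne_zero (hh x₀ i₀ x₀ hm hi₀).2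
      (L.ne_zero _ _ _ hi₀ (P.sub x₀ hm))) fun h0 => hb₀ ?_⟩
    rw [(hu b₀).chL i₀ (P.i x₀) e₀ x₀ hx₀ hi₀ (P.sub x₀ hm)]
    have : u b₀ (P.i x₀) e₀ (e₀ x₀) = 0 := by
      funext I
      rw [P.fac x₀ e₀ x₀ hx₀ hm b₀ I, h0, zero_mul]
      rfl
    rw [this, smul_zero]
  rcases lt_trichotomy (1 - (k : ℤ)) 0 with hk | hk | hk
  · -- `k ≥ 2`
    obtain ⟨b, i, x, hi, hx⟩ := htne
    exact hx (intSec_neg hρ hne hN hk (hfs b) hi)
  · -- `k = 1`
    have h0 : ∀ b, IntSec L 0 (f b) := fun b => by rw [← hk]; exact hfs b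
    have h1 : ∀ b, ∃ c : ℂ, ∀ i x, x ∈ L.U i → f b i x = c := fun b => intSec_zero (h0 b)
    choose c hc using h1
    have h2 := hli ![c 1, -c 0] fun i e x hx hi => by
      have hm := P.mem x
      have hh2 := (hh x i x hm hi).2
      have hg2 := L.ne_zero _ _ _ hi (P.sub x hm)
      have e0 : h x i x * L.g i (P.i x) x * P.t x x 0 = c 0 := hc 0 i x hi
      have e1 : h x i x * L.g i (P.i x) x * P.t x x 1 = c 1 := hc 1 i x hi
      rw [Fin.sum_univ_two]
      funext I
      have f0 := P.fac x e x hx hm 0 I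
      have f1 := P.fac x e x hx hm 1 I
      have g0 := congrFun ((hu 0).chL i (P.i x) e x hx hi (P.sub x hm)) I
      have g1 := congrFun ((hu 1).chL i (P.i x) e x hx hi (P.sub x hm)) I
      simp only [Pi.smul_apply, smul_eq_mul, pow_one] at g0 g1
      show c 1 * u 0 i e (e x) I + -c 0 * u 1 i e (e x) I = 0
      rw [g0, g1, f0, f1, ← e0, ← e1]
      ring
    have h3 : c 1 = 0 := by simpa using congrFun h2 0
    have h4 : c 0 = 0 := by simpa using congrFun h2 1
    obtain ⟨b, i, x, hi, hx⟩ := htne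
    apply hx
    rw [hc b i x hi]
    fin_cases b
    · exact h4
    · exact h3
  · -- `k = 0`
    obtain rfl : k = 0 := by omega
    set γ : ι → Chart d X → Cm d → FI d → ℂ := fun i e w =>
      (h (e.symm w) i (e.symm w))⁻¹ • P.τ (e.symm w) e w with hγ
    have key2 : ∀ i e x y, At e y → y ∈ L.U i → y ∈ P.W.U x →
        γ i e (e y) = (h x i y)⁻¹ • P.τ x e (e y) := by
      intro i e x y hy hi hx
      have hm := P.mem y
      show (h (e.symm (e y)) i (e.symm (e y)))⁻¹ • P.τ (e.symm (e y)) e (e y) = _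
      rw [hy.left_inv]
      have h1 : h y i y = ((P.W.g y x y)⁻¹) ^ 1 * (L.g i i y ^ ((0 : ℕ) : ℤ))⁻¹ * h x i y :=
        hch y x i i y hm hx hi hi
      rw [pow_one, hgs i y hi, one_zpow, inv_one, mul_one] at h1
      have h2 : P.τ y e (e y) = ((P.W.g y x y)⁻¹) ^ 1 • P.τ x e (e y) :=
        P.sec.chL y x e y hy hm hx
      have h4 := P.W.ne_zero y x y hm hx
      have h5 := (hh x i y hx hi).2
      rw [h1, h2, pow_one, smul_smul]
      congr 1
      field_simp
    have hγf : IntForm L 0 γ := by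
      refine ⟨fun i e x hx hi a => ?_, fun i j e x hx hi hj => ?_, fun i e e' x hx hx' hi => ?_⟩
      · have hm := P.mem x
        refine AnalyticAt.congr ((((hh x i x hm hi).1 e hx).inv (by
          rw [hx.left_inv]; exact (hh x i x hm hi).2)).mul (P.sec.holo x e x hx hm a)) ?_
        filter_upwards [H450.eventually_at' (L := P.W) hx hm,
          H450.eventually_at' (L := L) hx hi] with z hz hz'
        have h1 := congrFun (key2 i e x (e.symm z) hz.1 hz'.2.2 hz.2.2) a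
        rw [hz.2.1] at h1
        exact h1.symm
      · have hm := P.mem x
        rw [key2 i e x x hx hi hm, key2 j e x x hx hj hm, zpow_zero, one_smul]
        have h1 : h x i x = ((P.W.g x x x)⁻¹) ^ 1 * (L.g i j x ^ ((0 : ℕ) : ℤ))⁻¹ * h x j x :=
          hch x x i j x hm hm hi hj
        rw [pow_one, hgW x x hm, inv_one, one_mul, Nat.cast_zero, zpow_zero, inv_one,
          one_mul] at h1
        rw [h1]
      · have hm := P.mem x
        rw [key2 i e x x hx hi hm, key2 i e' x x hx' hi hm, Matrix.mulVec_smul,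
          P.sec.chV x e e' x hx hx' hm]
    obtain ⟨g, hg, hge⟩ := exists_isHolF (p := p) hγf fun i e x hx hi I hI => by
      rw [key2 i e x x hx hi (P.mem x), Pi.smul_apply, hτh x e x hx (P.mem x) I hI, smul_zero]
    have hm := P.mem x₀
    obtain ⟨t, ht, hta⟩ := hann (P.i x₀) e₀ x₀ hx₀ (P.sub x₀ hm)
    have h1 : u b₀ (P.i x₀) e₀ (e₀ x₀) = P.t x₀ x₀ b₀ • P.τ x₀ e₀ (e₀ x₀) := by
      funext I
      rw [P.fac x₀ e₀ x₀ hx₀ hm b₀ I]
      rfl
    have h2 : u b₀ (P.i x₀) e₀ (e₀ x₀) ≠ 0 := by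
      intro h0
      apply hb₀
      rw [(hu b₀).chL i₀ (P.i x₀) e₀ x₀ hx₀ hi₀ (P.sub x₀ hm), h0, smul_zero]
    have h3 : P.t x₀ x₀ b₀ ≠ 0 := fun h0 => h2 (by rw [h1, h0, zero_smul])
    have h4 := hta b₀
    rw [h1, Matrix.mulVec_smul] at h4
    have h5 := (smul_eq_zero.1 h4).resolve_left h3
    have h6 := hge i₀ e₀ x₀ hx₀ hi₀
    rw [key2 i₀ e₀ x₀ x₀ hx₀ hi₀ hm] at h6
    have h7 := isHolF_zero_of_ann hs hp hpd hg hx₀ ht (by rw [h6, Matrix.mulVec_smul, h5, smul_zero])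
    rw [h6] at h7
    have h8 := (smul_eq_zero.1 h7).resolve_left (inv_ne_zero (hh x₀ i₀ x₀ hm hi₀).2)
    exact h2 (by rw [h1, h8, smul_zero])

end Vale.Agent.P301.H949
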