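import Vale.Agent.P301.H650.Abs2

/-! # P301, N3-CONST: a bounded integer sequence with vanishing `N`-th difference is constant -/

namespace Vale.Agent.P301.H949

open Finset Vale.Agent.P301.H650

/-- pigeonhole: `P` is a polynomial of degree less than `N` bounded by `m` on `1, …, (2m+1)N` -/
theorem const_of_bdd (P : ℕ → ℤ) (N : ℕ)
    (h : ∀ b, ∑ S : Finset (Fin N), (-1 : ℤ) ^ S.card * P (b + S.card) = 0) (m : ℕ)
    (hb : ∀ j, 1 ≤ j → j ≤ (2 * m + 1) * N → |P j| ≤ m) : ∀ j, P j = P 0 := by
  obtain ⟨q, hq, hqP⟩ := poly_of P N h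
  have key : ∃ c : ℚ, q = Polynomial.C c := by
    rcases Nat.eq_zero_or_pos N with rfl | hN
    · refine ⟨0, ?_⟩
      rw [map_zero]
      by_contra hne
      have := Polynomial.zero_le_degree_iff.2 hne
      exact absurd (this.trans_lt hq) (by simp)
    let s : Finset ℕ := Finset.Icc 1 ((2 * m + 1) * N)
    let t : Finset ℤ := Finset.Icc (-(m : ℤ)) (m : ℤ)
    have hst : ∀ j ∈ s, P j ∈ t := by
      intro j hj
      simp only [s, Finset.mem_Icc] at hj
      have := abs_le.1 (hb j hj.1 hj.2)
      simp only [t, Finset.mem_Icc]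
      exact this
    have ht : t.card = 2 * m + 1 := by
      simp only [t, Int.card_Icc]
      omega
    have hs : s.card = (2 * m + 1) * N := by simp [s]
    have htne : t.Nonempty := ⟨0, by simp [t]⟩
    obtain ⟨c, hc, hcc⟩ := Finset.exists_le_card_fiber_of_mul_le_card_of_maps_to hst htne
      (n := N) (by rw [ht, hs])
    refine ⟨(c : ℚ), ?_⟩
    rw [← sub_eq_zero]
    by_contra hne
    have hdeg : (q - Polynomial.C (c : ℚ)).degree < N := by
      refine (Polynomial.degree_sub_le _ _).trans_lt (max_lt hq ?_)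
      refine (Polynomial.degree_C_le).trans_lt ?_
      exact_mod_cast hN
    let Z : Finset ℚ := (s.filter (fun j => P j = c)).image (fun j : ℕ => (j : ℚ))
    have hZ : Z.card = (s.filter (fun j => P j = c)).card :=
      Finset.card_image_of_injective _ Nat.cast_injective
    have hroots : Z.val ⊆ (q - Polynomial.C (c : ℚ)).roots := by
      intro x hx
      have hx' : x ∈ Z := hx
      simp only [Z, Finset.mem_image, Finset.mem_filter] at hx'
      obtain ⟨j, ⟨_, hj⟩, rfl⟩ := hx'
      rw [Polynomial.mem_roots hne, Polynomial.IsRoot, Polynomial.eval_sub, hqP, hj]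
      simp
    have h1 := Polynomial.card_le_degree_of_subset_roots hroots
    have h2 : (q - Polynomial.C (c : ℚ)).natDegree < N :=
      (Polynomial.natDegree_lt_iff_degree_lt hne).mpr hdeg
    omega
  obtain ⟨c, rfl⟩ := key
  intro j
  have h1 := hqP j
  have h2 := hqP 0
  rw [Polynomial.eval_C] at h1 h2
  have h3 : (P j : ℚ) = P 0 := h1.symm.trans h2
  exact_mod_cast h3

end Vale.Agent.P301.H949
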