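import Vale.Agent.P301.H949.ConstEff
import Vale.Agent.P301.H450.EffStep

/-!
# P301: dependent sections and pencils of bounded fractional weight
-/

open scoped Manifold ContDiff ComplexOrder Topology Matrix
open MeasureTheory Set Filter
open Vale.Agent.P272.K Vale.Agent.P272.K.C2 Vale.Agent.P272.K.AMP
open Vale.Agent.P299 Vale.Agent.P299.H954 Vale.Agent.P299.H937 Vale.Agent.P301.H599
open Vale.Agent.P301.H724 (IsSec Nz Prop2 HasSec lamPow LinInd wedge)
open Vale.Agent.P301.H897 (LamF)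
open Vale.Agent.P301.H450

set_option linter.all false

noncomputable section

namespace Vale.Agent.P301.H949

variable {d : ℕ} {X : Type} [TopologicalSpace X] [ChartedSpace (Cm d) X]
  {w0 s : Chart d X → Cm d → Matrix (Fin d) (Fin d) ℂ} {ι : Type}
  {L : LineBundle d X ι} {ρ : ι → X → ℝ} {m p r : ℕ}
variable [IsManifold 𝓘(ℂ, Cm d) ω X] [T2Space X] [CompactSpace X] [ConnectedSpace X]

theorem hasFracPair_mono {M M' : ℝ} (h : HasFracPair L ρ M) (hM : M ≤ M') :
    HasFracPair L ρ M' := by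
  obtain ⟨κ, P, ρP, τ, f, h1, h2, h3, h4⟩ := h
  exact ⟨κ, P, ρP, τ, f, h1, h2, h3.trans hM, h4⟩

/-- If `r` independent sections of `Λ^p ⊗ L^m` are dependent at every point, then a line bundle
of class `τ c₁(L)`, `0 ≤ τ ≤ r' m`, `r' < r`, has a pencil without fixed divisor. -/
theorem kappa_frac (hd : 0 < d) (h : IsSymplectic d X w0 s) (hρ : IsMetric L ρ)
    (hn : IsNef w0 (curvature L ρ)) (hq : q s (curvature L ρ) (curvature L ρ) = 0)
    (hnex : ¬ IsExact (curvature L ρ)) {u : Fin r → ι → Chart d X → Cm d → Finset (Fin d) → ℂ}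
    (hu : ∀ b, IsSec L LamF m (u b))
    (hom : ∀ b i e x, At e x → x ∈ L.U i → ∀ K : Finset (Fin d), K.card ≠ p → u b i e (e x) K = 0)
    (hind : LinInd L u) (hw : ∀ i e x, At e x → x ∈ L.U i → wedge u i e (e x) = 0) :
    ∃ r', 1 ≤ r' ∧ r' < r ∧ HasFracPair L ρ ((r' * m : ℕ) : ℝ) := by
  obtain ⟨r', σ₀, σ₁, hr1, hr2, h0, h1, n0, n1, hp, hC⟩ :=
    H724.exists_prop_pair (u := fun b => tenS p (u b)) (fun b => isSec_tenS (hu b) p)
      (linInd_tenS hom hind) fun i e x hx hi => wedge_tenS (hw i e x hx hi) p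
  refine ⟨r', hr1, hr2, ?_⟩
  refine special_class_two (mm := fun _ => r' * m) (σ := ![σ₀, σ₁]) hd h
    ((isNeg_ten p).lamPow r') hρ hn hq hnex (fun k => ?_) (fun k l => ?_) (fun k => ?_) rfl
    fun α β hαβ => ?_
  · fin_cases k
    · exact h0
    · exact h1
  · fin_cases k <;> fin_cases l
    · exact fun i e x he hi c c' => mul_comm _ _
    · exact fun i e x he hi c c' => by
        have := hp i e x he hi c c'
        show σ₀ i e (e x) c * σ₁ i e (e x) c' = σ₀ i e (e x) c' * σ₁ i e (e x) c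
        linear_combination -this
    · exact hp
    · exact fun i e x he hi c c' => mul_comm _ _
  · fin_cases k
    · exact n0
    · exact n1
  · have hβ : β = 0 := by
      by_contra hβ
      obtain ⟨i, e, x, he, hi, hne⟩ := hC (-α / β)
      apply hne
      have h2 := hαβ i e x he hi
      have h3 : β • σ₁ i e (e x) = -(α • σ₀ i e (e x)) := by
        rw [eq_neg_iff_add_eq_zero, add_comm]; exact h2
      have h4 : σ₁ i e (e x) = β⁻¹ • (β • σ₁ i e (e x)) := by
        rw [smul_smul, inv_mul_cancel₀ hβ, one_smul]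
      rw [h4, h3, smul_neg, smul_smul, ← neg_smul]
      congr 1
      field_simp
    subst hβ
    refine ⟨?_, rfl⟩
    by_contra hα
    obtain ⟨x, hx⟩ := n0
    obtain ⟨i, hi⟩ := L.cover x
    have he := AMP.at_chartAt (n := d) x
    have h2 := hαβ i _ x he hi
    rw [zero_smul, add_zero] at h2
    exact hx i _ he hi ((smul_eq_zero.1 h2).resolve_left hα)

/-- **The effective source of `NoDep`.** -/
theorem noDep_of_frac (hd : 0 < d) (h : IsSymplectic d X w0 s) (hρ : IsMetric L ρ)
    (hn : IsNef w0 (curvature L ρ)) (hq : q s (curvature L ρ) (curvature L ρ) = 0)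
    (hnex : ¬ IsExact (curvature L ρ)) {M R : ℕ}
    (hno : ¬ HasFracPair L ρ ((R * M : ℕ) : ℝ)) : NoDep L M (R + 1) := by
  intro q h1 h2 p r hr v v1 v2 v3 v4
  obtain ⟨r', a1, a2, a3⟩ := kappa_frac hd h hρ hn hq hnex v1
    (fun b i e x hx hi => v2 b i e x hx hi) v3 v4
  refine hno (hasFracPair_mono a3 ?_)
  exact_mod_cast Nat.mul_le_mul (by omega : r' ≤ R) h2

/-- a pencil of fractional weight gives a pencil of a power of `L` if `L` has no roots -/
theorem noDep_of_frac_of_le (hd : 0 < d) (h : IsSymplectic d X w0 s) (hρ : IsMetric L ρ)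
    (hn : IsNef w0 (curvature L ρ)) (hq : q s (curvature L ρ) (curvature L ρ) = 0)
    (hnex : ¬ IsExact (curvature L ρ)) {M R : ℕ} {T : ℝ} (hT : ((R * M : ℕ) : ℝ) ≤ T)
    (hno : ¬ HasFracPair L ρ T) : NoDep L M (R + 1) :=
  noDep_of_frac hd h hρ hn hq hnex fun hc => hno (hasFracPair_mono hc hT)

end Vale.Agent.P301.H949
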