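import Vale.Agent.P299.H720.FlatLoc
import Vale.Agent.P211.HK.LocSys
import Vale.Agent.P301.H599.Iter

/-! P301, H949: a holomorphic line bundle with a flat metric on a simply connected manifold has a
holomorphic section of length `1`. -/

open scoped Manifold ContDiff ComplexOrder Topology
open Filter Metric Set Complex

set_option linter.all false

noncomputable section

namespace Vale.Agent.P301.H949

open Vale.Agent.P272.K Vale.Agent.P301.H599

variable {d : ℕ} {X : Type} [TopologicalSpace X] [ChartedSpace (Cm d) X] {ι : Type}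

/-- `f` is holomorphic at `x`. -/
def Hol (d : ℕ) {X : Type} [TopologicalSpace X] [ChartedSpace (Cm d) X] (f : X → ℂ) (x : X) :
    Prop :=
  ∀ e : Chart d X, At e x → AnalyticAt ℂ (fun z => f (e.symm z)) (e x)

lemma nhds_symm {e : Chart d X} {x : X} (hx : At e x) {p : X → Prop} (h : ∀ᶠ y in 𝓝 x, p y) :
    ∀ᶠ z in 𝓝 (e x), p (e.symm z) := by
  have hc : ContinuousAt e.symm (e x) := e.continuousAt_symm hx.mem_target
  refine hc.eventually (p := p) ?_
  rwa [hx.left_inv]

lemma nhds_chart {e : Chart d X} {x : X} (hx : At e x) {p : Cm d → Prop}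
    (h : ∀ᶠ z in 𝓝 (e x), p z) : ∀ᶠ y in 𝓝 x, p (e y) :=
  (e.continuousAt hx.2).eventually h

lemma Hol.congr {f g : X → ℂ} {x : X} (hf : Hol d f x) (h : f =ᶠ[𝓝 x] g) : Hol d g x := by
  intro e he
  refine (hf e he).congr ?_
  exact nhds_symm he h

lemma Hol.mul {f g : X → ℂ} {x : X} (hf : Hol d f x) (hg : Hol d g x) :
    Hol d (fun y => f y * g y) x := fun e he => (hf e he).mul (hg e he)

lemma Hol.const (c : ℂ) (x : X) : Hol d (fun _ => c) x := fun e he => analyticAt_const

variable [IsManifold 𝓘(ℂ, Cm d) ω X]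

/-- it is enough to check one chart -/
lemma Hol.of_chart {f : X → ℂ} {e : Chart d X} {x : X} (he : At e x)
    (h : AnalyticAt ℂ (fun z => f (e.symm z)) (e x)) : Hol d f x := by
  intro e' he'
  have h1 : (fun z => f (e'.symm z)) =ᶠ[𝓝 (e' x)] fun z => f (e.symm (e (e'.symm z))) := by
    filter_upwards [he'.nhds_at he] with z hz
    rw [hz.2.2.left_inv]
  refine AnalyticAt.congr ?_ h1.symm
  have h2 : AnalyticAt ℂ (fun z => e (e'.symm z)) (e' x) := (transition he' he).analyticAt
  have h3 : e (e'.symm (e' x)) = e x := by rw [he'.left_inv]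
  have h4 : AnalyticAt ℂ (fun z => f (e.symm z)) (e (e'.symm (e' x))) := by rwa [h3]
  exact AnalyticAt.comp (g := fun z => f (e.symm z)) (f := fun z => e (e'.symm z)) h4 h2

section flat

variable (L : LineBundle d X ι) (ρ : ι → X → ℝ)

/-- the index of the reference frame at `x` -/
def idx (x : X) : ι := (L.cover x).choose

lemma idx_mem (x : X) : x ∈ L.U (idx L x) := (L.cover x).choose_spec

/-- the coefficient of a section in the frame `i` -/
def sec (s : X → ℂ) (i : ι) (x : X) : ℂ := L.g i (idx L x) x * s x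

variable {L ρ}

lemma g_self (i : ι) {x : X} (hi : x ∈ L.U i) : L.g i i x = 1 := by
  have h := L.cocycle i i i x hi hi hi
  exact mul_left_cancel₀ (L.ne_zero i i x hi hi) (h.trans (mul_one _).symm)

lemma sec_change (s : X → ℂ) {i j : ι} {x : X} (hi : x ∈ L.U i) (hj : x ∈ L.U j) :
    sec L s i x = L.g i j x * sec L s j x := by
  unfold sec
  rw [← mul_assoc, L.cocycle i j _ x hi hj (idx_mem L x)]

lemma sec_congr {s s' : X → ℂ} {x : X} (h : s =ᶠ[𝓝 x] s') (i : ι) :
    sec L s i =ᶠ[𝓝 x] sec L s' i := by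
  filter_upwards [h] with y hy
  unfold sec
  rw [hy]

variable (L ρ)

/-- `s` is at `y` a holomorphic section with `|s|² = C` -/
def Gd (C : ℝ) (s : X → ℂ) (y : X) : Prop :=
  ∀ i, y ∈ L.U i → Hol d (sec L s i) y ∧ ‖sec L s i y‖ ^ 2 = C * Real.exp (ρ i y)

/-- parallel sections -/
def Par (p : X) (s : X → ℂ) : Prop := ∃ C : ℝ, ∀ᶠ y in 𝓝 p, Gd L ρ C s y

variable {L ρ}

lemma Gd.congr {C : ℝ} {s s' : X → ℂ} {y : X} (h : Gd L ρ C s y) (hs : s =ᶠ[𝓝 y] s') :
    Gd L ρ C s' y := by
  intro i hi
  obtain ⟨h1, h2⟩ := h i hi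
  have h3 := sec_congr (L := L) hs i
  exact ⟨h1.congr h3, by rw [← h3.self_of_nhds]; exact h2⟩

/-- local comparison of two parallel sections -/
lemma Par.compare {p : X} {s s' : X → ℂ} (h : Par L ρ p s) (h' : Par L ρ p s') :
    (s p = s' p → s =ᶠ[𝓝 p] s') ∧ ((∃ᶠ q in 𝓝 p, s q = s' q) → s p = s' p) := by
  obtain ⟨C, hC⟩ := h
  obtain ⟨C', hC'⟩ := h'
  set i := idx L p with hi
  have hpi : p ∈ L.U i := idx_mem L p
  set e : Chart d X := chartAt (Cm d) p with he
  have hat : At e p := ⟨chart_mem_atlas (Cm d) p, mem_chart_source (Cm d) p⟩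
  have hne : ∀ y ∈ L.U i, ∀ a b : ℂ, L.g i (idx L y) y * a = L.g i (idx L y) y * b → a = b :=
    fun y hy a b hab => mul_left_cancel₀ (L.ne_zero i _ y hy (idx_mem L y)) hab
  constructor
  · intro hp
    have hev : ∀ᶠ y in 𝓝 p, Gd L ρ C s y ∧ Gd L ρ C' s' y ∧ y ∈ L.U i :=
      hC.and (hC'.and ((L.isOpen i).mem_nhds hpi))
    obtain ⟨r, hr, hB⟩ := Metric.mem_nhds_iff.1 ((nhds_symm hat hev).and hat.nhds_target)
    have hatB : ∀ z ∈ ball (e p) r, At e (e.symm z) := fun z hz => At.of_target hat.1 (hB hz).2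
    have hri : ∀ z ∈ ball (e p) r, e (e.symm z) = z := fun z hz => e.right_inv (hB hz).2
    set f : Cm d → ℂ := fun z => sec L s i (e.symm z) with hf
    set f' : Cm d → ℂ := fun z => sec L s' i (e.symm z) with hf'
    have hfd : DifferentiableOn ℂ f (ball (e p) r) := by
      intro z hz
      have := ((hB hz).1.1 i (hB hz).1.2.2).1 e (hatB z hz)
      rw [hri z hz] at this
      exact this.differentiableAt.differentiableWithinAt
    have hfd' : DifferentiableOn ℂ f' (ball (e p) r) := by
      intro z hz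
      have := ((hB hz).1.2.1 i (hB hz).1.2.2).1 e (hatB z hz)
      rw [hri z hz] at this
      exact this.differentiableAt.differentiableWithinAt
    have hn : ∀ z ∈ ball (e p) r, ‖f z‖ ^ 2 = C * Real.exp (ρ i (e.symm z)) := fun z hz =>
      ((hB hz).1.1 i (hB hz).1.2.2).2
    have hn' : ∀ z ∈ ball (e p) r, ‖f' z‖ ^ 2 = C' * Real.exp (ρ i (e.symm z)) := fun z hz =>
      ((hB hz).1.2.1 i (hB hz).1.2.2).2
    have hz0 : e p ∈ ball (e p) r := mem_ball_self hr
    have hpp : f (e p) = f' (e p) := by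
      simp only [hf, hf', hat.left_inv, sec, hp]
    have hCC : C = C' := by
      have h1 := hn _ hz0
      rw [hpp, hn' _ hz0] at h1
      exact (mul_right_cancel₀ (Real.exp_pos _).ne' h1).symm
    have hff : ∀ z ∈ ball (e p) r, f z = f' z := by
      by_cases hC0 : C = 0
      · intro z hz
        have h1 := hn z hz
        have h2 := hn' z hz
        rw [hC0, zero_mul] at h1
        rw [← hCC, hC0, zero_mul] at h2
        rw [norm_eq_zero.1 (pow_eq_zero_iff two_ne_zero |>.1 h1),
          norm_eq_zero.1 (pow_eq_zero_iff two_ne_zero |>.1 h2)]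
      · have h0 : ∀ z ∈ ball (e p) r, f z ≠ 0 := by
          intro z hz h
          have h1 := hn z hz
          rw [h, norm_zero, zero_pow two_ne_zero] at h1
          exact hC0 ((mul_eq_zero.1 h1.symm).resolve_right (Real.exp_pos _).ne')
        have h1 := Vale.Agent.P299.H720.eq_const_mul_of_norm_eq (s := f) (s' := f') isOpen_ball
          (convex_ball (e p) r).isPreconnected hfd hfd' h0 (fun z hz => by
            have h5 : ‖f' z‖ ^ 2 = ‖f z‖ ^ 2 := by rw [hn z hz, hn' z hz, hCC]
            exact (pow_left_inj₀ (norm_nonneg _) (norm_nonneg _) two_ne_zero).1 h5) hz0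
        intro z hz
        rw [h1 z hz, ← hpp, div_self (h0 _ hz0), one_mul]
    have hfin : ∀ᶠ y in 𝓝 p, e y ∈ ball (e p) r ∧ y ∈ e.source ∧ y ∈ L.U i :=
      (nhds_chart hat (isOpen_ball.eventually_mem hz0)).and
        ((e.open_source.eventually_mem hat.2).and ((L.isOpen i).eventually_mem hpi))
    filter_upwards [hfin] with y hy
    have h1 := hff _ hy.1
    simp only [hf, hf', e.left_inv hy.2.1] at h1
    exact hne y hy.2.2 _ _ h1
  · intro hq
    by_contra hpne
    have hc : ContinuousAt (fun z => sec L s i (e.symm z)) (e p) :=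
      ((hC.self_of_nhds i hpi).1 e hat).continuousAt
    have hc' : ContinuousAt (fun z => sec L s' i (e.symm z)) (e p) :=
      ((hC'.self_of_nhds i hpi).1 e hat).continuousAt
    have hne' : sec L s i (e.symm (e p)) ≠ sec L s' i (e.symm (e p)) := by
      rw [hat.left_inv]
      exact fun h => hpne (hne p hpi _ _ h)
    have hev := nhds_chart hat ((hc.sub hc').eventually_ne (sub_ne_zero.2 hne'))
    refine hq ?_
    filter_upwards [hev, e.open_source.mem_nhds hat.2] with y hy hys hyq
    apply hy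
    show sec L s i (e.symm (e y)) - sec L s' i (e.symm (e y)) = 0
    rw [e.left_inv hys, sec, sec, hyq, sub_self]

/-- existence of parallel sections -/
lemma exists_par (hρ : IsMetric L ρ) (h0 : ∀ e x, At e x → curvature L ρ e (e x) = 0) (p : X) :
    ∃ U ∈ 𝓝 p, ∀ q ∈ U, ∀ v : ℂ, ∃ s : X → ℂ, s q = v ∧ ∀ q' ∈ U, Par L ρ q' s := by
  set i := idx L p with hi
  have hpi : p ∈ L.U i := idx_mem L p
  set e : Chart d X := chartAt (Cm d) p with he
  have hat : At e p := ⟨chart_mem_atlas (Cm d) p, mem_chart_source (Cm d) p⟩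
  obtain ⟨r, hr, hB⟩ := Metric.mem_nhds_iff.1
    ((nhds_symm hat ((L.isOpen i).eventually_mem hpi)).and hat.nhds_target)
  have hatB : ∀ z ∈ ball (e p) r, At e (e.symm z) := fun z hz => At.of_target hat.1 (hB hz).2
  have hri : ∀ z ∈ ball (e p) r, e (e.symm z) = z := fun z hz => e.right_inv (hB hz).2
  obtain ⟨σ, hσ, hσρ⟩ := Vale.Agent.P299.H720.exists_local_section
    (φ := fun z => ρ i (e.symm z)) isOpen_ball (convex_ball (e p) r)
    (fun z hz => by
      have := hρ.smooth i e _ (hatB z hz) (hB hz).1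
      rw [hri z hz] at this
      exact this.of_le (by norm_cast))
    (fun z hz => by
      have h1 := curvature_eq hρ (hatB z hz) (hB hz).1
      rw [h0 e _ (hatB z hz)] at h1
      rw [hri z hz] at h1
      exact h1.symm)
  have hσ0 : ∀ z ∈ ball (e p) r, σ z ≠ 0 := by
    intro z hz h
    have := hσρ z hz
    rw [h, norm_zero] at this
    have h2 := Real.exp_pos (ρ i (e.symm z))
    rw [← this] at h2
    norm_num at h2
  set U : Set X := e.source ∩ e ⁻¹' ball (e p) r with hU
  have hUo : IsOpen U := e.isOpen_inter_preimage isOpen_ball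
  have hUi : ∀ y ∈ U, y ∈ L.U i := fun y hy => by
    have := (hB hy.2).1
    rwa [e.left_inv hy.1] at this
  have hg0 : ∀ y ∈ U, L.g i (idx L y) y ≠ 0 := fun y hy =>
    L.ne_zero i _ y (hUi y hy) (idx_mem L y)
  have key : ∀ c : ℂ, ∀ q' ∈ U, Gd L ρ (‖c‖ ^ 2) (fun y => c * σ (e y) / L.g i (idx L y) y) q' := by
    intro c q' hq' j hj
    have hat' : At e q' := ⟨hat.1, hq'.1⟩
    have hev : (fun y => L.g j i y * (c * σ (e y))) =ᶠ[𝓝 q']
        sec L (fun y => c * σ (e y) / L.g i (idx L y) y) j := by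
      filter_upwards [hUo.mem_nhds hq', (L.isOpen j).mem_nhds hj] with y hy hyj
      unfold sec
      rw [← L.cocycle j i _ y hyj (hUi y hy) (idx_mem L y)]
      field_simp [hg0 y hy]
    constructor
    · refine Hol.congr ?_ hev
      refine Hol.of_chart hat' ?_
      refine (L.holo j i e q' hat' hj (hUi q' hq')).mul (analyticAt_const.mul ?_)
      have h1 : (fun z => σ (e (e.symm z))) =ᶠ[𝓝 (e q')] σ := by
        filter_upwards [hat'.nhds_target] with z hz
        rw [e.right_inv hz]
      exact (Vale.Agent.P299.H720.contDiffAt_of_diffOn isOpen_ball hσ hq'.2).analyticAt.congr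
        h1.symm
    · rw [← hev.self_of_nhds]
      show ‖L.g j i q' * (c * σ (e q'))‖ ^ 2 = _
      have h1 := hσρ (e q') hq'.2
      rw [e.left_inv hq'.1] at h1
      have h2 := L.ne_zero j i q' hj (hUi q' hq')
      rw [norm_mul, norm_mul, mul_pow, mul_pow, h1, hρ.change j i q' hj (hUi q' hq'),
        Real.exp_add, Real.exp_log (by positivity)]
      ring
  refine ⟨U, hUo.mem_nhds ⟨hat.2, mem_ball_self hr⟩, fun q hq v => ?_⟩
  refine ⟨fun y => (v * L.g i (idx L q) q / σ (e q)) * σ (e y) / L.g i (idx L y) y, ?_, ?_⟩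
  · have h1 := hσ0 (e q) hq.2
    have h2 := hg0 q hq
    field_simp
  · intro q' hq'
    refine ⟨‖v * L.g i (idx L q) q / σ (e q)‖ ^ 2, ?_⟩
    filter_upwards [hUo.mem_nhds hq'] with y hy
    exact key _ y hy

/-- The local system of parallel sections. -/
theorem locSys (hρ : IsMetric L ρ) (h0 : ∀ e x, At e x → curvature L ρ e (e x) = 0) :
    Vale.Agent.P211.HK.LocSys (F := fun _ : X => ℂ) (fun p s => Par L ρ p s) where
  opn := by
    rintro p s ⟨C, hC⟩
    filter_upwards [hC.eventually_nhds] with q hq using ⟨C, hq⟩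
  uniq := fun p s s' h h' hp => (h.compare h').1 hp
  clo := fun p s s' h h' hq => (h.compare h').2 hq
  loc := by
    rintro p s s' ⟨C, hC⟩ hs
    refine ⟨C, ?_⟩
    have hs' : s =ᶠ[𝓝 p] s' := hs
    filter_upwards [hC, hs'.eventuallyEq_nhds] with y hy hy'
    exact hy.congr hy'
  ext := exists_par hρ h0

/-- **A flat line bundle on a simply connected manifold** has a holomorphic section with
`|s|² = 1`, in particular a nowhere vanishing one. -/
theorem exists_flat_section [SimplyConnectedSpace X] (hρ : IsMetric L ρ)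
    (h0 : ∀ e x, At e x → curvature L ρ e (e x) = 0) :
    ∃ s : ι → X → ℂ, (∀ i x, x ∈ L.U i → Hol d (s i) x) ∧
      (∀ i j x, x ∈ L.U i → x ∈ L.U j → s i x = L.g i j x * s j x) ∧
      (∀ i x, x ∈ L.U i → s i x ≠ 0) ∧
      ∀ i x, x ∈ L.U i → ‖s i x‖ ^ 2 = Real.exp (ρ i x) := by
  have hlp : LocallyPathConnectedSpace X := ChartedSpace.locallyPathConnectedSpace (Cm d) X
  obtain ⟨p⟩ := (inferInstance : Nonempty X)
  -- normalise at `p`
  have hpi := idx_mem L p
  obtain ⟨s, ⟨hs1, hs2⟩, -⟩ := (locSys hρ h0).existsUnique p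
    ((Real.exp (ρ (idx L p) p / 2) : ℝ) : ℂ)
  choose C hC using hs2
  -- the constant is locally constant
  have hloc : ∀ x, ∀ᶠ y in 𝓝 x, C y = C x := by
    intro x
    filter_upwards [(hC x).eventually_nhds] with y hy
    have h1 := (hy.self_of_nhds _ (idx_mem L y)).2
    have h2 := ((hC y).self_of_nhds _ (idx_mem L y)).2
    rw [h1] at h2
    exact (mul_right_cancel₀ (Real.exp_pos _).ne' h2).symm
  have hconst : ∀ x, C x = C p := by
    have hlc : IsLocallyConstant C := (IsLocallyConstant.iff_eventually_eq C).2 hloc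
    intro x
    exact hlc.apply_eq_of_preconnectedSpace x p
  have hCp : C p = 1 := by
    have h2 := ((hC p).self_of_nhds _ hpi).2
    unfold sec at h2
    rw [g_self _ hpi, one_mul, hs1, norm_real, Real.norm_eq_abs, sq_abs, ← Real.exp_nat_mul] at h2
    have h3 : ((2 : ℕ) : ℝ) * (ρ (idx L p) p / 2) = ρ (idx L p) p := by push_cast; ring
    rw [h3] at h2
    have h4 := Real.exp_pos (ρ (idx L p) p)
    exact (mul_right_cancel₀ h4.ne' ((one_mul _).trans h2)).symm
  have hall : ∀ i x, x ∈ L.U i → Hol d (sec L s i) x ∧ ‖sec L s i x‖ ^ 2 = Real.exp (ρ i x) := by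
    intro i x hi
    have h := (hC x).self_of_nhds i hi
    rw [hconst, hCp, one_mul] at h
    exact h
  refine ⟨fun i => sec L s i, fun i x hi => (hall i x hi).1, fun i j x hi hj => sec_change s hi hj,
    fun i x hi h => ?_, fun i x hi => (hall i x hi).2⟩
  have h1 := (hall i x hi).2
  have h' : sec L s i x = 0 := h
  rw [h', norm_zero, zero_pow two_ne_zero] at h1
  exact (Real.exp_pos _).ne h1

end flat

end Vale.Agent.P301.H949
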