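import Vale.Agent.P301.H949.Core6

/-!
# P301, N3: pencils on sixfolds with a uniform exponent
-/

open Filter Metric Set MeasureTheory Topology
open scoped ENNReal ComplexOrder Matrix ComplexConjugate Manifold ContDiff

set_option linter.all false

noncomputable section

namespace Vale.Agent.P301.H949

open Vale.Agent.P272.K Vale.Agent.P301.H599
open Vale.Agent.P301.H794
open Vale.Agent.P301.H450 (IsRoot HasFracPair HasFrac HasMobilePair)

variable {X : Type} [TopologicalSpace X] [ChartedSpace (Cm 6) X] [T2Space X] [CompactSpace X]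
  [SimplyConnectedSpace X] [IsManifold 𝓘(ℂ, Cm 6) ω X]
variable {ι : Type} {L : LineBundle 6 X ι}
variable {w s : Chart 6 X → Cm 6 → Matrix (Fin 6) (Fin 6) ℂ} {ρ : ι → X → ℝ}

/-- **Fractional pencils on sixfolds**, for bundles which may have roots. -/
theorem frac_six {F : X → X} (hs : IsSymplectic 6 X w s) (hρ : IsMetric L ρ)
    (hn : H450.IsNef w (curvature L ρ)) (hq : H450.q s (curvature L ρ) (curvature L ρ) = 0)
    (hne : ¬ H450.IsExact (curvature L ρ))
    (hCY : ∀ (r : ℕ) (κ : Type) (Q : LineBundle 6 X κ) (ρQ : κ → X → ℝ), IsRoot L ρ r Q ρQ →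
      ∀ p : ℝ, 0 ≤ p → CYStatement F Q ρQ w 3 1 p) {M₀ : ℕ}
    (hfr : ∀ (r : ℕ) (κ : Type) (Q : LineBundle 6 X κ) (ρQ : κ → X → ℝ), IsRoot L ρ r Q ρQ →
      HasFrac Q ρQ M₀)
    (ho : OnlyL L ρ) : HasFracPair L ρ ((357 : ℕ) : ℝ) := by
  obtain ⟨B, hB⟩ := H450.bounded_roots (by norm_num) hs hρ hn hne hfr (H450.ordBound hs hρ)
  obtain ⟨r, κ, Q, ρQ, hQ, hmax⟩ := H450.exists_max_root hρ hB
  exact fracPair_root hQ (frac_six_core hs hQ.met (hQ.nef hn) (hQ.iso hs hρ hq)
    (hQ.not_exact hne) (hCY r κ Q ρQ hQ) (onlyL_root hQ ho)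
    (intClass_of_max (by norm_num) hs hρ hn hne hQ hmax))

/-- the parabolic case -/
theorem frac_six_par (hs : IsSymplectic 6 X w s) (hρ : IsMetric L ρ) (F : Auto 6 X) {c : ℝ}
    (hc : 0 < c) (hθ : SameClass (pull F (curvature L ρ)) (curvature L ρ))
    (hdd : SameClass (fun e z => pull F (pull F w) e z - (2 : ℂ) • pull F w e z + w e z)
      (fun e z => (c : ℂ) • curvature L ρ e z)) (hne : ¬ H450.IsExact (curvature L ρ))
    (ho : OnlyL L ρ) : HasFracPair L ρ ((357 : ℕ) : ℝ) := by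
  have hn := H450.nef_par hs hρ F hc hθ hdd
  have hq := H450.q_par hs hρ F hc hθ hdd
  have hpos : ∀ r : ℕ, 0 < r → (0 : ℝ) < c * r := fun r hr =>
    mul_pos hc (by exact_mod_cast hr)
  refine frac_six (F := F) (M₀ := H450.Mb 6) hs hρ hn hq hne (fun r κ Q ρQ hQ p hp => ?_)
    (fun r κ Q ρQ hQ => ?_) ho
  · obtain ⟨u, h, D⟩ := H450.exists_dat hs hQ.met F (hpos r hQ.pos) (hQ.par_one F hθ)
      (hQ.par_two hdd)
    exact exists_cy_symplectic hs D (n := 3) (by norm_num) (by norm_num) (hQ.not_exact hne)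
      le_rfl hp
  · exact H450.exists_frac (by norm_num) hs hQ.met (hQ.nef hn) (hQ.iso hs hρ hq)
      (hQ.not_exact hne) (H450.formsFor_par hs hQ.met F (hpos r hQ.pos)
        (hQ.par_one F hθ) (hQ.par_two hdd) (hQ.not_exact hne))

/-- **Pencils without fixed divisor in `|L^{357!}|`** for the line bundle of a parabolic
automorphism of a sixfold, if all effective classes are multiples of `c₁(L)`. -/
theorem mobile_six_eff (hs : IsSymplectic 6 X w s) (hρ : IsMetric L ρ) (F : Auto 6 X) {c : ℝ}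
    (hc : 0 < c) (hθ : SameClass (pull F (curvature L ρ)) (curvature L ρ))
    (hdd : SameClass (fun e z => pull F (pull F w) e z - (2 : ℂ) • pull F w e z + w e z)
      (fun e z => (c : ℂ) • curvature L ρ e z)) (hne : ¬ H450.IsExact (curvature L ρ))
    (ho : OnlyL L ρ) : HasMobilePair L (Nat.factorial 357) := by
  have hn := H450.nef_par hs hρ F hc hθ hdd
  refine H450.mobile_of_fracPair (M := 357) (by norm_num) hs hρ hn hne fun r κ Q ρQ hQ => ?_
  exact frac_six_par hs hQ.met F (mul_pos hc (by exact_mod_cast hQ.pos : (0 : ℝ) < r))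
    (hQ.par_one F hθ) (hQ.par_two hdd) (hQ.not_exact hne) (onlyL_root hQ ho)

end Vale.Agent.P301.H949
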