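import Vale.Agent.P301.H949.Loc
import Mathlib.NumberTheory.Real.Irrational

/-! P301, H949: two line bundles with proportional curvature classes. -/

open scoped Manifold ContDiff ComplexOrder Topology
open Filter Metric Set Complex

set_option linter.all false

noncomputable section

namespace Vale.Agent.P301.H949

open Vale.Agent.P272.K Vale.Agent.P301.H599

variable {d : ℕ} {X : Type} [TopologicalSpace X] [ChartedSpace (Cm d) X] {ι κ : Type}

/-- `L^m` is given by a cocycle with additive holomorphic logarithms. -/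
def LogCocycle (L : LineBundle d X ι) (m : ℕ) : Prop :=
  ∃ (n : ℕ) (U : Fin n → Set X) (i : Fin n → ι) (μ : Fin n → Fin n → X → ℂ),
    (∀ a, IsOpen (U a)) ∧ (∀ x, ∃ a, x ∈ U a) ∧ (∀ a, U a ⊆ L.U (i a)) ∧
    (∀ a b, ∀ x ∈ U a ∩ U b, Hol d (μ a b) x ∧ exp (μ a b x) = L.g (i a) (i b) x ^ m) ∧
    ∀ a b c x, x ∈ U a → x ∈ U b → x ∈ U c → μ a b x + μ b c x = μ a c x

/-- a rational functional which separates an irrational number from the rationals -/
theorem exists_functional {t : ℝ} (ht : Irrational t) :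
    ∃ ψ : ℝ →ₗ[ℚ] ℚ, ψ 1 = 0 ∧ ψ t = -1 := by
  have h1 : t ∉ Submodule.span ℚ {(1 : ℝ)} := by
    intro h
    obtain ⟨r, hr⟩ := Submodule.mem_span_singleton.1 h
    apply ht
    refine ⟨r, ?_⟩
    rw [← hr, Rat.smul_def, mul_one]
  obtain ⟨f, hf, hf0⟩ := Submodule.exists_le_ker_of_notMem h1
  have h2 : f 1 = 0 := hf0 (Submodule.mem_span_singleton_self 1)
  refine ⟨(-(f t)⁻¹) • f, by simp [h2], ?_⟩
  simp only [LinearMap.smul_apply, smul_eq_mul, neg_mul]
  rw [inv_mul_cancel₀ hf]

/-- common denominators -/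
theorem exists_den {n : ℕ} (r : Fin n → Fin n → ℚ) :
    ∃ m : ℕ, 0 < m ∧ ∃ k : Fin n → Fin n → ℤ, ∀ a b, (m : ℚ) * r a b = k a b := by
  refine ⟨∏ a, ∏ b, (r a b).den, Finset.prod_pos fun a _ => Finset.prod_pos fun b _ => (r a b).pos,
    ?_⟩
  have h : ∀ a b, ∃ k : ℤ, ((∏ a, ∏ b, (r a b).den : ℕ) : ℚ) * r a b = k := by
    intro a b
    have h1 : (r a b).den ∣ ∏ a, ∏ b, (r a b).den :=
      (Finset.dvd_prod_of_mem (fun b => (r a b).den) (Finset.mem_univ b)).trans
        (Finset.dvd_prod_of_mem (fun a => ∏ b, (r a b).den) (Finset.mem_univ a))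
    obtain ⟨c, hc⟩ := h1
    refine ⟨c * (r a b).num, ?_⟩
    rw [hc]
    have h2 : ((r a b).den : ℚ) * r a b = (r a b).num := by
      rw [mul_comm]; exact Rat.mul_den_eq_num _
    push_cast
    rw [← h2]
    ring
  choose k hk using h
  exact ⟨k, hk⟩

variable [IsManifold 𝓘(ℂ, Cm d) ω X]
variable {P : LineBundle d X κ} {L : LineBundle d X ι} {ρ : ι → X → ℝ} {ρ' : κ → X → ℝ}

lemma re_of_exp {l g : ℂ} (h : exp l = g) : 2 * l.re = Real.log (‖g‖ ^ 2) := by
  rw [← h, norm_exp, ← Real.exp_nat_mul, Real.log_exp]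
  push_cast
  ring

lemma exists_log_pair [CompactSpace X] (L : LineBundle d X ι) {U U' : Set X} {i j : ι}
    (hi : U ⊆ L.U i) (hj : U' ⊆ L.U j) {e : Chart d X}
    (hc : (U ∩ U').Nonempty → Cvx e (U ∩ U')) :
    ∃ l : X → ℂ, ∀ x ∈ U ∩ U', Hol d l x ∧ exp (l x) = L.g i j x := by
  by_cases hne : (U ∩ U').Nonempty
  · obtain ⟨l, hl1, hl2⟩ := (hc hne).exists_log (g := L.g i j)
      (fun x hx e he => L.holo i j e x he (hi hx.1) (hj hx.2))
      (fun x hx => L.ne_zero i j x (hi hx.1) (hj hx.2))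
    exact ⟨l, fun x hx => ⟨hl1 x hx, hl2 x hx⟩⟩
  · exact ⟨fun _ => 0, fun x hx => absurd ⟨x, hx⟩ hne⟩

/-- The irrational case: the curvature classes can only be proportional with an irrational factor
if `L` is trivial in real cohomology. -/
theorem logCocycle_of_irrational [CompactSpace X] [T2Space X] (hL : IsMetric L ρ)
    (hP : IsMetric P ρ') {t : ℝ} (ht : Irrational t)
    (h : SameClass (curvature P ρ') (fun e z => (t : ℂ) • curvature L ρ e z)) :
    ∃ m, 0 < m ∧ LogCocycle L m := by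
  obtain ⟨u, hu, huc⟩ := h
  obtain ⟨n, U, k, e, hUo, hUc, hUk, hcv, hcv2⟩ := exists_cover (d := d) (X := X) (K := κ × ι)
    (fun k => P.U k.1 ∩ L.U k.2) (fun k => (P.isOpen _).inter (L.isOpen _)) (fun x => by
      obtain ⟨k, hk⟩ := P.cover x
      obtain ⟨i, hi⟩ := L.cover x
      exact ⟨(k, i), hk, hi⟩)
  -- conjugate functions
  have hF : ∀ a, ∃ F : X → ℂ, (∀ x ∈ U a, Hol d F x) ∧
      ∀ x ∈ U a, (F x).re = ρ' (k a).1 x - t * ρ (k a).2 x - u x := by
    intro a
    have hs : ∀ x ∈ U a,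
        ContDiffAt ℝ ∞ (fun z => ρ' (k a).1 ((e a).symm z)) ((e a) x) ∧
        ContDiffAt ℝ ∞ (fun z => ρ (k a).2 ((e a).symm z)) ((e a) x) ∧
        ContDiffAt ℝ ∞ (fun z => u ((e a).symm z)) ((e a) x) := fun x hx =>
      ⟨hP.smooth _ _ x ((hcv a).at_ hx) (hUk a hx).1, hL.smooth _ _ x ((hcv a).at_ hx) (hUk a hx).2,
        hu _ x ((hcv a).at_ hx)⟩
    refine (hcv a).exists_re (φ := fun x => ρ' (k a).1 x - t * ρ (k a).2 x - u x)
      (fun x hx => ?_) (fun x hx => ?_)
    · obtain ⟨h1, h2, h3⟩ := hs x hx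
      exact (((h1.sub (contDiffAt_const.mul h2)).sub h3)).of_le (by norm_cast)
    · obtain ⟨h1, h2, h3⟩ := hs x hx
      have h4 := huc (e a) x ((hcv a).at_ hx)
      simp only [curvature_eq hP ((hcv a).at_ hx) (hUk a hx).1,
        curvature_eq hL ((hcv a).at_ hx) (hUk a hx).2] at h4
      unfold ddc at h4
      have e1 : (fun z => ρ' (k a).1 ((e a).symm z) - t * ρ (k a).2 ((e a).symm z) -
          u ((e a).symm z)) = fun z => 1 * (1 * ρ' (k a).1 ((e a).symm z) -
            t * ρ (k a).2 ((e a).symm z)) - 1 * u ((e a).symm z) := by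
        funext z; ring
      show cHess (fun z => ρ' (k a).1 ((e a).symm z) - t * ρ (k a).2 ((e a).symm z) -
          u ((e a).symm z)) _ = 0
      rw [e1, ddc_of_contDiff ((contDiffAt_const.mul h1).sub (contDiffAt_const.mul h2)) h3,
        ddc_of_contDiff h1 h2]
      push_cast
      rw [one_smul, h4]
      simp
  choose F hF1 hF2 using hF
  -- logarithms
  have hl := fun a b => exists_log_pair L (fun x hx => (hUk a hx).2) (fun x hx => (hUk b hx).2)
    (hcv2 a b)
  have hl' := fun a b => exists_log_pair P (fun x hx => (hUk a hx).1) (fun x hx => (hUk b hx).1)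
    (hcv2 a b)
  choose l hl using hl
  choose l' hl' using hl'
  -- the constants
  have hβ : ∀ a b, ∃ β : ℝ, ∀ x ∈ U a ∩ U b,
      l' a b x - t * l a b x - (F a x - F b x) / 2 = 2 * Real.pi * I * β := by
    intro a b
    by_cases hne : (U a ∩ U b).Nonempty
    · obtain ⟨x₀, hx₀⟩ := hne
      have hc := hcv2 a b ⟨x₀, hx₀⟩
      set D : X → ℂ := fun x => l' a b x - t * l a b x - (F a x - F b x) / 2 with hD
      have hDh : ∀ x ∈ U a ∩ U b, Hol d D x := by
        intro x hx e' he'
        exact (((hl' a b x hx).1 e' he').sub (analyticAt_const.mul ((hl a b x hx).1 e' he'))).sub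
          (((hF1 a x hx.1 e' he').sub (hF1 b x hx.2 e' he')).div analyticAt_const two_ne_zero)
      have hDr : ∀ x ∈ U a ∩ U b, (D x).re = 0 := by
        intro x hx
        have h1 := re_of_exp (hl' a b x hx).2
        have h2 := re_of_exp (hl a b x hx).2
        have h3 := hP.change (k a).1 (k b).1 x (hUk a hx.1).1 (hUk b hx.2).1
        have h4 := hL.change (k a).2 (k b).2 x (hUk a hx.1).2 (hUk b hx.2).2
        have h5 := hF2 a x hx.1
        have h6 := hF2 b x hx.2
        have h7 : ((F a x - F b x) / 2).re = ((F a x).re - (F b x).re) / 2 := by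
          rw [show (F a x - F b x) / 2 = (((2 : ℝ)⁻¹ : ℝ) : ℂ) * (F a x - F b x) by
            push_cast; ring, re_ofReal_mul, sub_re]
          ring
        simp only [hD, sub_re, re_ofReal_mul] at h7 ⊢
        rw [h7, h5, h6]
        rw [← h1] at h3
        rw [← h2] at h4
        rw [h3, h4]
        ring
      refine ⟨(D x₀).im / (2 * Real.pi), fun x hx => ?_⟩
      show D x = _
      rw [hc.const_of_re_zero hDh hDr hx hx₀]
      have h8 : D x₀ = ((D x₀).im : ℂ) * I := by
        refine Complex.ext ?_ ?_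
        · rw [hDr x₀ hx₀]; simp
        · simp
      have hpi : (Real.pi : ℂ) ≠ 0 := by exact_mod_cast Real.pi_ne_zero
      rw [h8]
      push_cast
      simp only [mul_im, ofReal_re, I_im, ofReal_im, I_re, mul_one, mul_zero, add_zero]
      field_simp
    · exact ⟨0, fun x hx => absurd ⟨x, hx⟩ hne⟩
  choose β hβ using hβ
  obtain ⟨ψ, hψ1, hψt⟩ := exists_functional ht
  obtain ⟨m, hm, q, hq⟩ := exists_den (fun a b => ψ (β a b))
  have h2pi : (2 * Real.pi * I : ℂ) ≠ 0 := by
    simp [Real.pi_ne_zero]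
  -- the integers
  have hint : ∀ {K : Type} (M : LineBundle d X K) (f : Fin n → K) (r : Fin n → Fin n → X → ℂ),
      (∀ a, U a ⊆ M.U (f a)) →
      (∀ a b, ∀ x ∈ U a ∩ U b, exp (r a b x) = M.g (f a) (f b) x) →
      ∀ a b c x, x ∈ U a → x ∈ U b → x ∈ U c → ∃ N : ℤ,
        r a b x + r b c x - r a c x = N * (2 * Real.pi * I) := by
    intro K M f r hf hr a b c x ha hb hc
    apply Complex.exp_eq_one_iff.1
    rw [exp_sub, exp_add, hr a b x ⟨ha, hb⟩, hr b c x ⟨hb, hc⟩, hr a c x ⟨ha, hc⟩,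
      M.cocycle _ _ _ x (hf a ha) (hf b hb) (hf c hc)]
    exact div_self (M.ne_zero _ _ x (hf a ha) (hf c hc))
  refine ⟨m, hm, n, U, fun a => (k a).2, fun a b x => m * l a b x - 2 * Real.pi * I * q a b, hUo,
    hUc, fun a x hx => (hUk a hx).2, ?_, ?_⟩
  · intro a b x hx
    refine ⟨fun e' he' => (analyticAt_const.mul ((hl a b x hx).1 e' he')).sub analyticAt_const, ?_⟩
    rw [exp_sub, exp_nat_mul, (hl a b x hx).2]
    have : exp (2 * Real.pi * I * q a b) = 1 := by
      rw [Complex.exp_eq_one_iff]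
      exact ⟨q a b, by ring⟩
    rw [this, div_one]
  · intro a b c x ha hb hc
    obtain ⟨N, hN⟩ := hint L (fun a => (k a).2) l (fun a x hx => (hUk a hx).2)
      (fun a b x hx => (hl a b x hx).2) a b c x ha hb hc
    obtain ⟨N', hN'⟩ := hint P (fun a => (k a).1) l' (fun a x hx => (hUk a hx).1)
      (fun a b x hx => (hl' a b x hx).2) a b c x ha hb hc
    have h1 := hβ a b x ⟨ha, hb⟩
    have h2 := hβ b c x ⟨hb, hc⟩
    have h3 := hβ a c x ⟨ha, hc⟩
    have h4 : ((N' : ℂ) - t * N) * (2 * Real.pi * I) =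
        (β a b + β b c - β a c) * (2 * Real.pi * I) := by
      rw [sub_mul, ← hN', mul_assoc, ← hN]
      linear_combination h1 + h2 - h3
    have h5 : (N' : ℂ) - t * N = β a b + β b c - β a c := mul_right_cancel₀ h2pi h4
    have h6 : (N' : ℝ) - t * N = β a b + β b c - β a c := by exact_mod_cast h5
    have h7 : (N : ℚ) = ψ (β a b) + ψ (β b c) - ψ (β a c) := by
      have h8 := congrArg ψ h6
      rw [map_sub, map_sub, map_add] at h8
      have h9 : ψ (N' : ℝ) = 0 := by
        have : (N' : ℝ) = (N' : ℚ) • (1 : ℝ) := by rw [Rat.smul_def]; simp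
        rw [this, map_smul, hψ1, smul_zero]
      have h10 : ψ (t * N) = -N := by
        have : t * (N : ℝ) = (N : ℚ) • t := by rw [Rat.smul_def]; push_cast; ring
        rw [this, map_smul, hψt]
        simp
      rw [h9, h10] at h8
      linarith
    have h11 : (m : ℚ) * N = q a b + q b c - q a c := by
      rw [h7, ← hq a b, ← hq b c, ← hq a c]; ring
    have h12 : (m : ℂ) * N = q a b + q b c - q a c := by exact_mod_cast h11
    show m * l a b x - 2 * Real.pi * I * q a b + (m * l b c x - 2 * Real.pi * I * q b c) =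
      m * l a c x - 2 * Real.pi * I * q a c
    linear_combination (m : ℂ) * hN + (2 * Real.pi * I) * h12

/-- **Line bundles with proportional curvature classes on a simply connected manifold**: the ratio
is rational and powers are isomorphic, unless the class of `L` in real cohomology is zero. -/
theorem ratio [CompactSpace X] [T2Space X] [SimplyConnectedSpace X] (hL : IsMetric L ρ)
    (hP : IsMetric P ρ') {t : ℝ}
    (h : SameClass (curvature P ρ') (fun e z => (t : ℂ) • curvature L ρ e z)) :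
    (∃ (q : ℕ) (a : ℤ), 0 < q ∧ (a : ℝ) = q * t ∧ IsoPow P q L a) ∨
      ∃ m, 0 < m ∧ LogCocycle L m := by
  by_cases ht : Irrational t
  · exact Or.inr (logCocycle_of_irrational hL hP ht h)
  · left
    rw [Irrational, not_not] at ht
    obtain ⟨r, rfl⟩ := ht
    have hr : ((r.num : ℤ) : ℝ) = (r.den : ℝ) * (r : ℝ) := by
      have := Rat.mul_den_eq_num r
      have h2 : ((r * r.den : ℚ) : ℝ) = ((r.num : ℚ) : ℝ) := by rw [this]
      push_cast at h2
      rw [← h2]; ring
    refine ⟨r.den, r.num, r.pos, hr, ?_⟩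
    obtain ⟨u, hu, huc⟩ := h
    refine isoPow_of_curvature hL hP ⟨fun x => r.den * u x, hu.const_mul _, fun e x he => ?_⟩
    have h1 := ddc_const_mul (d := d) (r.den : ℝ) hu e x he
    have h2 := huc e x he
    simp only at h1 h2 ⊢
    rw [h1, h2, smul_add, smul_smul]
    congr 2
    · have h3 : (r.den : ℂ) * ((r : ℝ) : ℂ) = ((r.num : ℤ) : ℂ) := by exact_mod_cast hr.symm
      rw [h3]

end Vale.Agent.P301.H949
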