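import Vale.Agent.P301.H949.Stokes01
import Vale.Agent.P301.H949.Ratio

/-! P301, H949: intersection numbers of a line bundle with vanishing real Chern class. -/

open scoped Manifold ContDiff ComplexOrder Topology
open Filter Metric Set Complex

set_option linter.all false

noncomputable section

namespace Vale.Agent.P301.H949

open Vale.Agent.P272.K Vale.Agent.P272.K.INT Vale.Agent.P301.H599

variable {d : ℕ} {X : Type} [TopologicalSpace X] [ChartedSpace (Cm d) X] {ι κ : Type}
  [IsManifold 𝓘(ℂ, Cm d) ω X]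

/-- the form `∂̄F` for a family of local functions `F a` on `U a` -/
def dbl {N : ℕ} (sel : X → Fin N) (F : Fin N → X → ℂ) : Chart d X → Cm d → Fin d → ℂ :=
  fun e z l => dzb l (fun y => F (sel (e.symm z)) (e.symm y)) z

section dbl

variable {N : ℕ} {sel : X → Fin N} {F : Fin N → X → ℂ} {U : Fin N → Set X}
  (hU : ∀ a, IsOpen (U a)) (hsel : ∀ x, x ∈ U (sel x))
  (hF : ∀ a, ∀ x ∈ U a, ∀ e : Chart d X, At e x → ContDiffAt ℝ ∞ (fun z => F a (e.symm z)) (e x))
  (hd : ∀ a b, ∀ x ∈ U a ∩ U b, Hol d (fun y => F a y - F b y) x)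

include hF hd in
omit [IsManifold 𝓘(ℂ, Cm d) ω X] in
lemma dzb_loc {a b : Fin N} {x : X} (hx : x ∈ U a ∩ U b) {e : Chart d X} (he : At e x)
    (l : Fin d) : dzb l (fun y => F a (e.symm y)) (e x) = dzb l (fun y => F b (e.symm y)) (e x) := by
  have h1 := (hd a b x hx e he).differentiableAt
  have h2 := Vale.Agent.P272.K.dzb_of_holo h1 (i := l)
  rw [INT.dzb_sub ((hF a x hx.1 e he).differentiableAt (by simp))
    ((hF b x hx.2 e he).differentiableAt (by simp))] at h2
  exact sub_eq_zero.1 h2

include hU hsel hF hd in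
omit [IsManifold 𝓘(ℂ, Cm d) ω X] in
lemma dbl_ev {a : Fin N} {x : X} (hx : x ∈ U a) {e : Chart d X} (he : At e x) :
    dbl sel F e =ᶠ[𝓝 (e x)] fun z l => dzb l (fun y => F a (e.symm y)) z := by
  filter_upwards [nhds_symm he ((hU a).mem_nhds hx), he.nhds_target] with z hz hz2
  funext l
  have := dzb_loc (e := e) hF hd ⟨hsel (e.symm z), hz⟩ (At.of_target he.1 hz2) l
  rw [e.right_inv hz2] at this
  exact this

include hU hsel hF hd in
/-- it is a form of type `(0,1)` -/
lemma is01_dbl : Is01 (dbl (d := d) sel F) where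
  smooth e x h l := by
    have h1 : (fun z => dbl sel F e z l) =ᶠ[𝓝 (e x)]
        fun z => dzb l (fun y => F (sel x) (e.symm y)) z := by
      filter_upwards [dbl_ev hU hsel hF hd (hsel x) h] with z hz
      rw [hz]
    exact (smooth_dzb (hF _ x (hsel x) e h)).congr_of_eventuallyEq h1
  change e e' x h h' l := by
    have h1 := congrFun (dbl_ev hU hsel hF hd (hsel x) h).self_of_nhds l
    have h1' := fun q => congrFun (dbl_ev hU hsel hF hd (hsel x) h').self_of_nhds q
    simp only at h1 h1'
    rw [h1]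
    simp only [h1']
    have h2 : (fun y => F (sel x) (e.symm y)) =ᶠ[𝓝 (e x)]
        fun y => F (sel x) (e'.symm (e' (e.symm y))) := by
      filter_upwards [h.nhds_at h'] with z hz
      rw [hz.2.2.left_inv]
    have h3 : e' (e.symm (e x)) = e' x := by rw [h.left_inv]
    rw [INT.dzb_congr h2]
    have := dzb_comp_holo (f := fun y => F (sel x) (e'.symm y)) (τ := fun z => e' (e.symm z))
      (z := e x) (i := l)
      (by rw [h3]; exact (hF _ x (hsel x) e' h').differentiableAt (by simp))
      ((Vale.Agent.P272.K.transition h h').differentiableAt (by simp))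
    rw [this, h3]
    rfl

include hU hsel hF hd in
omit [IsManifold 𝓘(ℂ, Cm d) ω X] in
lemma del_dbl {a : Fin N} {x : X} (hx : x ∈ U a) {e : Chart d X} (he : At e x) (k l : Fin d) :
    del (dbl sel F) e (e x) k l = dz k (dzb l (fun y => F a (e.symm y))) (e x) := by
  show dz k (fun y => dbl sel F e y l) (e x) = _
  refine INT.dz_congr ?_
  filter_upwards [dbl_ev hU hsel hF hd hx he] with z hz
  rw [hz]

end dbl

variable {P : LineBundle d X κ} {L : LineBundle d X ι} {ρ : ι → X → ℝ} {ρ' : κ → X → ℝ}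

lemma isClosedForm_curvature (hρ : IsMetric L ρ) : IsClosedForm (curvature L ρ) where
  smooth e x h i j := by
    obtain ⟨k, hk⟩ := L.cover x
    have h1 : (fun z => curvature L ρ e z i j) =ᶠ[𝓝 (e x)] fun z => ddc (ρ k) e z i j := by
      filter_upwards [curvature_ev hρ h hk] with z hz
      rw [hz]
    exact (smooth_cHess (hρ.smooth k e x h hk) i j).congr_of_eventuallyEq h1
  form := isForm_curvature hρ
  closed e x h i k l := by
    obtain ⟨a, ha⟩ := L.cover x
    have h1 : ∀ p q, (fun z => curvature L ρ e z p q) =ᶠ[𝓝 (e x)] fun z => ddc (ρ a) e z p q := by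
      intro p q
      filter_upwards [curvature_ev hρ h ha] with z hz
      rw [hz]
    rw [INT.dz_congr (h1 k l), INT.dz_congr (h1 i l)]
    exact cHess_closed (hρ.smooth a e x h ha) i k l

lemma curvature_isHermitian (hρ : IsMetric L ρ) {e : Chart d X} {x : X} (h : At e x) :
    (curvature L ρ e (e x)).IsHermitian := by
  obtain ⟨a, ha⟩ := L.cover x
  rw [curvature_eq hρ h ha]
  exact cHess_isHermitian ((hρ.smooth a e x h ha).of_le (by norm_cast))

/-- the curvature of a line bundle with vanishing real Chern class is exact: `m θ = ∂γ + ∂̄γ̄` -/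
theorem exists_primitive [CompactSpace X] [T2Space X] (hL : IsMetric L ρ) {m : ℕ}
    (h : LogCocycle L m) : ∃ γ : Chart d X → Cm d → Fin d → ℂ, Is01 γ ∧
      ∀ e x, At e x → (m : ℂ) • curvature L ρ e (e x) =
        del γ e (e x) + (del γ e (e x)).conjTranspose := by
  classical
  obtain ⟨n, U, i, μ, hU, hUc, hUi, hμ, hcoc⟩ := h
  have hreal := isManifold_real d X
  obtain ⟨f, hf⟩ := SmoothPartitionOfUnity.exists_isSubordinate 𝓘(ℝ, Cm d)
    isClosed_univ U hU (fun x _ => mem_iUnion.2 (hUc x))
  have hfs : ∀ c, SmoothFn (n := d) (f c) := fun c => smoothFn_of_contMDiff (f c).contMDiff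
  have hsum : ∀ x, ∑ c, f c x = 1 := by
    intro x
    have := f.sum_eq_one (mem_univ x)
    rwa [finsum_eq_sum_of_fintype] at this
  set G : Fin n → X → ℂ := fun a x => ∑ c, (f c x : ℂ) * μ a c x with hG
  -- smoothness
  have hGs : ∀ a, ∀ x ∈ U a, ∀ e : Chart d X, At e x →
      ContDiffAt ℝ ∞ (fun z => G a (e.symm z)) (e x) := by
    intro a x hx e he
    refine ContDiffAt.sum fun c _ => ?_
    by_cases hc : x ∈ U c
    · have h1 : ContDiffAt ℝ ∞ (fun z => μ a c (e.symm z)) (e x) :=
        (((hμ a c x ⟨hx, hc⟩).1 e he).contDiffAt (n := ω)).restrict_scalars ℝ |>.of_le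
          (by exact le_top)
      exact (INT.ofReal_contDiffAt (hfs c e x he)).mul h1
    · have h1 : x ∉ tsupport (f c) := fun h => hc (hf c h)
      have h2 : ∀ᶠ y in 𝓝 x, f c y = 0 := by
        have := notMem_tsupport_iff_eventuallyEq.1 h1
        filter_upwards [this] with y hy
        exact hy
      refine contDiffAt_const (c := (0 : ℂ)) |>.congr_of_eventuallyEq ?_
      filter_upwards [nhds_symm he h2] with z hz
      rw [hz]; simp
  -- differences
  have hGd : ∀ a b, ∀ x ∈ U a ∩ U b, G a x - G b x = μ a b x := by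
    intro a b x hx
    have h1 : ∀ c, (f c x : ℂ) * μ a c x - (f c x : ℂ) * μ b c x = (f c x : ℂ) * μ a b x := by
      intro c
      by_cases hc : x ∈ U c
      · have := hcoc a b c x hx.1 hx.2 hc
        rw [← this]; ring
      · have h1 : f c x = 0 := by
          by_contra hne
          exact hc (hf c (subset_tsupport _ hne))
        rw [h1]; simp
    simp only [hG]
    rw [← Finset.sum_sub_distrib, Finset.sum_congr rfl fun c _ => h1 c, ← Finset.sum_mul]
    have h3 : ∑ c, (f c x : ℂ) = 1 := by exact_mod_cast hsum x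
    rw [h3, one_mul]
  choose sel hsel using hUc
  have hnear : ∀ a b, ∀ x ∈ U a ∩ U b, ∀ᶠ y in 𝓝 x, y ∈ U a ∩ U b := fun a b x hx =>
    ((hU a).inter (hU b)).mem_nhds hx
  have hGh : ∀ a b, ∀ x ∈ U a ∩ U b, Hol d (fun y => G a y - G b y) x := by
    intro a b x hx
    refine (hμ a b x hx).1.congr ?_
    filter_upwards [hnear a b x hx] with y hy
    exact (hGd a b y hy).symm
  -- the global function
  set v : X → ℝ := fun x => m * ρ (i (sel x)) x - 2 * (G (sel x) x).re with hv
  have hv' : ∀ a, ∀ x ∈ U a, v x = m * ρ (i a) x - 2 * (G a x).re := by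
    intro a x hx
    have h1 := hL.change (i (sel x)) (i a) x (hUi _ (hsel x)) (hUi a hx)
    have h2 := (hμ (sel x) a x ⟨hsel x, hx⟩).2
    have h3 := re_of_exp h2
    have h4 := hGd (sel x) a x ⟨hsel x, hx⟩
    have h5 : (G (sel x) x).re - (G a x).re = (μ (sel x) a x).re := by
      rw [← h4, sub_re]
    have h6 : Real.log (‖L.g (i (sel x)) (i a) x ^ m‖ ^ 2) =
        m * Real.log (‖L.g (i (sel x)) (i a) x‖ ^ 2) := by
      rw [norm_pow, ← pow_mul, mul_comm m 2, pow_mul, Real.log_pow]
    simp only [hv]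
    rw [h6] at h3
    rw [h1]
    linarith
  have hvs : SmoothFn (n := d) v := by
    intro e x he
    have h1 : (fun z => v (e.symm z)) =ᶠ[𝓝 (e x)]
        fun z => m * ρ (i (sel x)) (e.symm z) - 2 * (G (sel x) (e.symm z)).re := by
      filter_upwards [nhds_symm he ((hU (sel x)).mem_nhds (hsel x))] with z hz
      exact hv' _ _ hz
    refine ContDiffAt.congr_of_eventuallyEq ?_ h1
    refine (contDiffAt_const.mul (hL.smooth _ e x he (hUi _ (hsel x)))).sub
      (contDiffAt_const.mul ?_)
    exact Complex.reCLM.contDiff.contDiffAt.comp (e x) (hGs _ x (hsel x) e he)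
  -- the family `v / 2 + G a`
  set F : Fin n → X → ℂ := fun a x => (1 / 2 : ℂ) * (v x : ℂ) + G a x with hFdef
  have hFs : ∀ a, ∀ x ∈ U a, ∀ e : Chart d X, At e x →
      ContDiffAt ℝ ∞ (fun z => F a (e.symm z)) (e x) := fun a x hx e he =>
    (contDiffAt_const.mul (INT.ofReal_contDiffAt (hvs e x he))).add (hGs a x hx e he)
  have hFh : ∀ a b, ∀ x ∈ U a ∩ U b, Hol d (fun y => F a y - F b y) x := by
    intro a b x hx
    have : (fun y => F a y - F b y) = fun y => G a y - G b y := by
      funext y; simp only [hFdef]; ring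
    rw [this]; exact hGh a b x hx
  refine ⟨dbl sel F, is01_dbl hU hsel hFs hFh, fun e x he => ?_⟩
  rw [curvature_eq hL he (hUi _ (hsel x))]
  ext k l
  rw [Matrix.add_apply, Matrix.conjTranspose_apply, del_dbl hU hsel hFs hFh (hsel x) he,
    del_dbl hU hsel hFs hFh (hsel x) he, Matrix.smul_apply, smul_eq_mul]
  have hFx := hFs _ x (hsel x) e he
  set φ : Cm d → ℂ := fun y => F (sel x) (e.symm y) with hφ
  have h2 : ContDiffAt ℝ 2 φ (e x) := hFx.of_le (by norm_cast)
  have hev2 : ∀ᶠ y in 𝓝 (e x), ContDiffAt ℝ 2 φ y := h2.eventually (by simp)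
  have hev : (fun y => (m : ℂ) * ((ρ (i (sel x)) (e.symm y) : ℝ) : ℂ)) =ᶠ[𝓝 (e x)]
      fun y => φ y + (starRingEnd ℂ) (φ y) := by
    filter_upwards [nhds_symm he ((hU (sel x)).mem_nhds (hsel x))] with z hz
    have h3 := hv' _ _ hz
    have h4 : (2 : ℂ) * ((G (sel x) (e.symm z)).re : ℂ) =
        G (sel x) (e.symm z) + (starRingEnd ℂ) (G (sel x) (e.symm z)) := by
      rw [Complex.add_conj]; push_cast; ring
    have h5 : (m : ℂ) * ((ρ (i (sel x)) (e.symm z) : ℝ) : ℂ) =
        (v (e.symm z) : ℂ) + 2 * ((G (sel x) (e.symm z)).re : ℂ) := by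
      rw [h3]; push_cast; ring
    rw [h5, h4]
    simp only [hφ, hFdef, map_add, map_mul, conj_ofReal, map_div₀, map_one, map_ofNat]
    ring
  have hρ2 : ContDiffAt ℝ 2 (fun y => ((ρ (i (sel x)) (e.symm y) : ℝ) : ℂ)) (e x) :=
    (INT.ofReal_contDiffAt (hL.smooth _ e x he (hUi _ (hsel x)))).of_le (by norm_cast)
  have hρev : ∀ᶠ y in 𝓝 (e x), ContDiffAt ℝ 2 (fun y => ((ρ (i (sel x)) (e.symm y) : ℝ) : ℂ)) y :=
    hρ2.eventually (by simp)
  have e1 : (m : ℂ) * ddc (ρ (i (sel x))) e (e x) k l =
      dz k (dzb l (fun y => (m : ℂ) * ((ρ (i (sel x)) (e.symm y) : ℝ) : ℂ))) (e x) := by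
    have h6 : (dzb l (fun y => (m : ℂ) * ((ρ (i (sel x)) (e.symm y) : ℝ) : ℂ))) =ᶠ[𝓝 (e x)]
        fun y => (m : ℂ) * dzb l (fun y => ((ρ (i (sel x)) (e.symm y) : ℝ) : ℂ)) y := by
      filter_upwards [hρev] with y hy
      exact INT.dzb_const_mul _ (hy.differentiableAt (by norm_num))
    rw [INT.dz_congr h6, INT.dz_const_mul _ (differentiableAt_dzb hρ2)]
    rfl
  have e2 : dz k (dzb l (fun y => φ y + (starRingEnd ℂ) (φ y))) (e x) =
      dz k (dzb l φ) (e x) + (starRingEnd ℂ) (dz l (dzb k φ) (e x)) := by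
    have h6 : (dzb l (fun y => φ y + (starRingEnd ℂ) (φ y))) =ᶠ[𝓝 (e x)]
        fun y => dzb l φ y + (starRingEnd ℂ) (dz l φ y) := by
      filter_upwards [hev2] with y hy
      have hy1 := hy.differentiableAt (by norm_num)
      have hy2 : DifferentiableAt ℝ (fun y => (starRingEnd ℂ) (φ y)) y :=
        Complex.conjCLE.differentiableAt.comp y hy1
      rw [INT.dzb_add hy1 hy2, INT.dzb_conj]
    have h7 : DifferentiableAt ℝ (fun y => (starRingEnd ℂ) (dz l φ y)) (e x) :=
      Complex.conjCLE.differentiableAt.comp (e x) (differentiableAt_dz h2)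
    rw [INT.dz_congr h6, INT.dz_add (differentiableAt_dzb h2) h7, INT.dz_conj,
      ← INT.dz_dzb_comm h2]
  rw [e1, INT.dz_congr (INT.dzb_congr' hev), e2]
  rfl

variable [CompactSpace X] [T2Space X]

/-- **the intersection numbers of `L` with a closed form vanish** if the real Chern class of `L`
vanishes: `∫ c₁(L) ∧ b ^ (d - 1) = 0`. -/
theorem intX_mix_curvature (hL : IsMetric L ρ) {m : ℕ} (hm : 0 < m) (h : LogCocycle L m)
    {b : Chart d X → Cm d → Matrix (Fin d) (Fin d) ℂ} (hb : IsClosedForm b)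
    (hh : ∀ e x, At e x → (b e (e x)).IsHermitian) :
    intX (fun e z => (mix (b e z) (curvature L ρ e z)).re) = 0 := by
  obtain ⟨γ, hγ, hγ2⟩ := exists_primitive hL h
  have hm' : (m : ℂ) ≠ 0 := by exact_mod_cast hm.ne'
  have hD1 := isDensity_mix hb.form (del_form hγ) hb.smooth (del_smooth hγ)
  have hD3 := isDensity_mix hb.form (isForm_curvature hL) hb.smooth
    (isClosedForm_curvature hL).smooth
  have h1 : intX (fun e z => (m : ℝ) * (mix (b e z) (curvature L ρ e z)).re) =
      intX (fun e z => (mix (b e z) (del γ e z)).re + (mix (b e z) (del γ e z)).re) := by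
    refine intX_congr fun e x hx => ?_
    have h2 : (m : ℂ) * mix (b e (e x)) (curvature L ρ e (e x)) =
        mix (b e (e x)) (del γ e (e x)) +
          (starRingEnd ℂ) (mix (b e (e x)) (del γ e (e x))) := by
      rw [← mix_smul, hγ2 e x hx, mix_add, ← mix_conj, (hh e x hx).eq]
    have h3 := congrArg Complex.re h2
    rw [add_re, conj_re] at h3
    have h4 : ((m : ℂ) * mix (b e (e x)) (curvature L ρ e (e x))).re =
        (m : ℝ) * (mix (b e (e x)) (curvature L ρ e (e x))).re := by
      have : (m : ℂ) = ((m : ℝ) : ℂ) := by push_cast; rfl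
      rw [this, re_ofReal_mul]
    rw [h4] at h3
    exact h3
  rw [intX_const_mul, intX_add hD1 hD1, intX_mix_del hb hγ, add_zero] at h1
  have hm2 : (m : ℝ) ≠ 0 := by exact_mod_cast hm.ne'
  exact (mul_eq_zero.1 h1).resolve_left hm2

/-- `∫ (b + s c₁(L)) ^ d` does not depend on `s` if the real Chern class of `L` vanishes -/
theorem intX_det_curvature (hL : IsMetric L ρ) {m : ℕ} (hm : 0 < m) (h : LogCocycle L m)
    {b : Chart d X → Cm d → Matrix (Fin d) (Fin d) ℂ} (hb : IsClosedForm b)
    (hh : ∀ e x, At e x → (b e (e x)).IsHermitian) (s : ℝ) :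
    intX (fun e z => (b e z + (s : ℂ) • curvature L ρ e z).det.re) =
      intX (fun e z => (b e z).det.re) := by
  have hc := isClosedForm_curvature hL
  have hbs : ∀ s : ℝ, IsClosedForm fun e z => b e z + (s : ℂ) • curvature L ρ e z := fun s =>
    hb.add (hc.smul _)
  have hhs : ∀ s : ℝ, ∀ e x, At e x →
      (b e (e x) + (s : ℂ) • curvature L ρ e (e x)).IsHermitian := by
    intro s e x hx
    refine (hh e x hx).add ?_
    have h1 := (curvature_isHermitian hL hx).eq
    unfold Matrix.IsHermitian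
    rw [Matrix.conjTranspose_smul, h1]
    simp
  set D : ℝ → Chart d X → Cm d → ℝ := fun s e z => (b e z + (s : ℂ) • curvature L ρ e z).det.re
    with hD
  have hDd : ∀ s, IsDensity (D s) := fun s => (hbs s).isDensity
  set q : ℝ → ℝ := fun s => intX (D s) with hq
  have hpoly : ∀ e z, IsPolyN d fun s => D s e z := fun e z => isPolyN_det _ _
  have hqs : q = fun s => ∑ j : Fin (d + 1), lag d j s * q j := by
    funext s
    simp only [hq]
    have h1 : D s = fun e z => ∑ j : Fin (d + 1), lag d j s * D j e z := by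
      funext e z
      exact (hpoly e z).eq_sum s
    rw [h1, intX_sum Finset.univ fun j _ => (hDd _).const_mul _]
    exact Finset.sum_congr rfl fun j _ => intX_const_mul _ _
  have hqd : Differentiable ℝ q := by
    rw [hqs]
    exact Differentiable.fun_sum fun j _ => (lag_differentiable d j).mul_const _
  have hq' : ∀ s, deriv q s = 0 := by
    intro s
    have h2 : deriv q s = ∑ j : Fin (d + 1), deriv (lag d j) s * q j := by
      conv_lhs => rw [hqs]
      rw [deriv_fun_sum fun j _ => ((lag_differentiable d j).mul_const _) s]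
      exact Finset.sum_congr rfl fun j _ => deriv_mul_const (lag_differentiable d j s) _
    have h3 := intX_mix_curvature hL hm h (hbs s) (hhs s)
    rw [h2, ← h3]
    have h4 : (fun (e : Chart d X) (z : Cm d) =>
        (mix (b e z + (s : ℂ) • curvature L ρ e z) (curvature L ρ e z)).re) =
        fun e z => ∑ j : Fin (d + 1), deriv (lag d j) s * D j e z := by
      funext e z
      rw [← (hpoly e z).deriv s]
      exact (hasDerivAt_det_line _ _ s).deriv.symm
    rw [h4, intX_sum Finset.univ fun j _ => (hDd _).const_mul _]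
    exact (Finset.sum_congr rfl fun j _ => (intX_const_mul _ _).symm)
  have h5 : q s = q 0 := is_const_of_deriv_eq_zero hqd hq' s 0
  have h6 : q 0 = intX (fun e z => (b e z).det.re) := by
    simp only [hq, hD]
    congr 1
    funext e z
    simp
  rw [← h6]
  exact h5

/-- **Line bundles with proportional Chern classes** on a compact simply connected manifold: if
`∫ (w + s c₁(L)) ^ d` depends on `s`, the ratio is rational and powers are isomorphic. -/
theorem ratio_of_intX [SimplyConnectedSpace X] (hL : IsMetric L ρ)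
    (hP : IsMetric P ρ') {t : ℝ}
    (h : SameClass (curvature P ρ') (fun e z => (t : ℂ) • curvature L ρ e z))
    {b : Chart d X → Cm d → Matrix (Fin d) (Fin d) ℂ} (hb : IsClosedForm b)
    (hh : ∀ e x, At e x → (b e (e x)).IsHermitian) {s : ℝ}
    (hs : intX (fun e z => (b e z + (s : ℂ) • curvature L ρ e z).det.re) ≠
      intX (fun e z => (b e z).det.re)) :
    ∃ (q : ℕ) (a : ℤ), 0 < q ∧ (a : ℝ) = q * t ∧ IsoPow P q L a := by
  refine (ratio hL hP h).resolve_right ?_
  rintro ⟨m, hm, hlog⟩
  exact hs (intX_det_curvature hL hm hlog hb hh s)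

/-- the same with the intersection number `∫ c₁(L) ∧ w ^ (d - 1)` -/
theorem ratio_of_mix [SimplyConnectedSpace X] (hL : IsMetric L ρ)
    (hP : IsMetric P ρ') {t : ℝ}
    (h : SameClass (curvature P ρ') (fun e z => (t : ℂ) • curvature L ρ e z))
    {b : Chart d X → Cm d → Matrix (Fin d) (Fin d) ℂ} (hb : IsClosedForm b)
    (hh : ∀ e x, At e x → (b e (e x)).IsHermitian)
    (hs : intX (fun e z => (mix (b e z) (curvature L ρ e z)).re) ≠ 0) :
    ∃ (q : ℕ) (a : ℤ), 0 < q ∧ (a : ℝ) = q * t ∧ IsoPow P q L a := by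
  refine (ratio hL hP h).resolve_right ?_
  rintro ⟨m, hm, hlog⟩
  exact hs (intX_mix_curvature hL hm hlog hb hh)

end Vale.Agent.P301.H949
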