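import Vale.Agent.P301.H949.ConstAbs
import Vale.Agent.P301.H794.KapFour
import Vale.Agent.P301.H599.BE.End4

/-!
# P301, N3-CONST: dimensions of the kernels for the Calabi-Yau approximations
-/

open Filter Metric Set MeasureTheory Topology UniformSpace
open scoped ENNReal ComplexOrder Matrix ComplexConjugate Manifold ContDiff

set_option linter.all false

noncomputable section

namespace Vale.Agent.P301.H949

open Vale.Agent.P272.K Vale.Agent.P299.IX Vale.Agent.P299.IX.Fock Vale.Agent.P301.H85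
open Vale.Agent.P301.H599 Vale.Agent.P301.H862 Vale.Agent.P299.H954 Vale.Agent.P301.H103
open Vale.Agent.P301.H794

variable {d : ℕ} {X : Type} [TopologicalSpace X] [ChartedSpace (Cm d) X]
variable {ι : Type} {L : LineBundle d X ι}
variable [IsManifold 𝓘(ℂ, Cm d) ω X] [CompactSpace X] [T2Space X]

/-! ### the index at level zero -/

theorem finite_HolF (B : HB d X ι) (h : ∀ s, FiniteDimensional ℂ ((B.pow 0).ell.sk s)) {p : ℕ}
    (hp : p ∈ Finset.range (d + 1)) : Module.Finite ℂ (HolF d X p) := by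
  have := h ((-1) ^ p)
  have h1 : Module.Finite ℂ (skd (B.pow 0).grading p) :=
    Submodule.finiteDimensional_of_le (skd_le (B.pow 0).grading (mem_dgs.2 ⟨hp, rfl⟩))
  have h2 : Module.Finite ℂ ((B.pow 0).kerd p) := by
    rw [HB.skd_eq] at h1
    exact Module.Finite.equiv (Submodule.equivMapOfInjective _
      (Completion.toComplₗᵢ : (B.pow 0).S →ₗᵢ[ℂ] Completion (B.pow 0).S).injective _).symm
  exact Module.Finite.equiv (LinearEquiv.ofBijective (HB.toHol B p) (HB.toHol_bijective B p))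

theorem one_le_finrank_HolF {w s : Fm d X} (hs : IsSymplectic d X w s) {n : ℕ} (hd : d = 2 * n)
    [Nonempty X] {k : ℕ} (hk : k ≤ n) (hfin : Module.Finite ℂ (HolF d X (2 * k))) :
    1 ≤ Module.finrank ℂ (HolF d X (2 * k)) := by
  obtain ⟨x₀⟩ : Nonempty X := inferInstance
  have hx₀ : At (chartAt (Cm d) x₀ : Chart d X) x₀ := ⟨chart_mem_atlas _ _, mem_chart_source _ _⟩
  have h1 := isHolF_sPow hs.form k
  rw [Nat.one_le_iff_ne_zero]
  intro h0
  have h2 : (⟨_, cutF_mem h1⟩ : HolF d X (2 * k)) = 0 := by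
    have := Module.finrank_zero_iff.1 h0
    exact Subsingleton.elim _ _
  have h3 := congrArg Subtype.val h2
  refine sPow_ne_zero hd (hs.form.alt _ _ hx₀) (hs.nondeg _ _ hx₀) hk ?_
  have h4 := cutF_at (fun (e : Chart d X) z => sPow (s e z) k) hx₀
  rw [← h4]
  show cutF (fun (e : Chart d X) z => sPow (s e z) k) _ _ = 0
  rw [show cutF (fun (e : Chart d X) z => sPow (s e z) k) = 0 from h3]
  rfl

/-- `χ(𝒪) ≥ n + 1` -/
theorem chi0_ge [SimplyConnectedSpace X] {w w0 s : Fm d X} (hs : IsSymplectic d X w0 s)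
    {θ : Fm d X} {n : ℕ} (hd : d = 2 * n) (hw : IsKahler w) (hθ : H450.IsReal11 θ)
    (hqq : H450.q s θ θ = 0) (hqw : H450.q s w θ ≠ 0)
    (hfin : ∀ p ∈ Finset.range (d + 1), Module.Finite ℂ (HolF d X p)) :
    (n : ℤ) + 1 ≤ HB.chi0 d X := by
  have hN : Nonempty X := inferInstance
  have hodd : ∀ p, Odd p → Module.finrank ℂ (HolF d X p) = 0 := fun p hp => by
    rw [HolF_eq_bot fun g hg e x hx => BE.odd_zero hs hw hθ hqq hqw hp hg hx, finrank_bot]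
  have h1 : ∀ k ∈ Finset.range (n + 1), 1 ≤ Module.finrank ℂ (HolF d X (2 * k)) := fun k hk => by
    have hk' : k ≤ n := Nat.lt_succ_iff.1 (Finset.mem_range.1 hk)
    exact one_le_finrank_HolF hs hd hk' (hfin _ (Finset.mem_range.2 (by omega)))
  have h2 : ∑ k ∈ Finset.range (n + 1), (Module.finrank ℂ (HolF d X (2 * k)) : ℤ) ≤
      HB.chi0 d X := by
    unfold HB.chi0
    have h3 : ∑ k ∈ Finset.range (n + 1), (Module.finrank ℂ (HolF d X (2 * k)) : ℤ) =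
        ∑ p ∈ (Finset.range (n + 1)).image (fun k => 2 * k),
          (-1 : ℤ) ^ p * (Module.finrank ℂ (HolF d X p) : ℤ) := by
      rw [Finset.sum_image (fun a _ b _ h => by
        have : 2 * a = 2 * b := h
        omega)]
      refine Finset.sum_congr rfl fun k _ => ?_
      rw [pow_mul]; norm_num
    rw [h3]
    refine Finset.sum_le_sum_of_subset_of_nonneg (fun p hp => ?_) fun p _ _ => ?_
    · obtain ⟨k, hk, rfl⟩ := Finset.mem_image.1 hp
      have := Finset.mem_range.1 hk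
      exact Finset.mem_range.2 (by omega)
    · rcases Nat.even_or_odd p with hp | hp
      · rw [hp.neg_one_pow, one_mul]
        positivity
      · rw [hodd p hp]; simp
  calc (n : ℤ) + 1 = ∑ k ∈ Finset.range (n + 1), (1 : ℤ) := by simp
    _ ≤ ∑ k ∈ Finset.range (n + 1), (Module.finrank ℂ (HolF d X (2 * k)) : ℤ) :=
        Finset.sum_le_sum fun k hk => by exact_mod_cast h1 k hk
    _ ≤ _ := h2

/-! ### strong kernels and approximate kernel elements -/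

theorem good_of_finrank (B : HB d X ι) (q : ℕ) {p r : ℕ}
    [FiniteDimensional ℂ (skd (B.pow q).grading p)]
    (hr : r ≤ Module.finrank ℂ (skd (B.pow q).grading p)) {ε : ℝ} (hε : 0 < ε) :
    Good B.L B.w B.ρ q p r ε := by
  have : FiniteDimensional ℂ (skOn (B.pow q).ell.D (LinearMap.range ((B.pow q).grading.dg p))) :=
    ‹FiniteDimensional ℂ (skd (B.pow q).grading p)›
  obtain ⟨g, h1, h2, h3⟩ := approx (D := (B.pow q).ell.D)
    (K := LinearMap.range ((B.pow q).grading.dg p)) hε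
  have hG : Good B.L B.w B.ρ q p (Module.finrank ℂ (skOn (B.pow q).ell.D
      (LinearMap.range ((B.pow q).grading.dg p)))) ε := by
    refine ⟨fun a => (g a).f, fun a => (g a).isSec, fun a i e x hx hi I hI =>
      HB.deg_of_dg (dg_of_mem (B.pow q).grading (h1 a)) hx hi hI, fun a b => ?_, fun a => ?_⟩
    · have h4 := h2 b a
      simp only [eq_comm (a := b) (b := a)] at h4
      exact h4
    · refine le_trans (le_of_eq ?_) (h3 a)
      show _ = ‖(B.pow q).D (g a)‖ ^ 2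
      rw [HB.norm_D_sq, HB.norm_sq_eq, HB.norm_sq_eq,
        HB.ipB_congr (g := (HB.Dp _ (g a)).f) (h := (HB.Dp _ (g a)).f)
          (fun i e x hx hi => HB.Dp_at (g a) hx hi) (fun i e x hx hi => HB.Dp_at (g a) hx hi),
        HB.ipB_congr (g := (HB.Dd _ (g a)).f) (h := (HB.Dd _ (g a)).f)
          (fun i e x hx hi => HB.Dd_at (g a) hx hi) (fun i e x hx hi => HB.Dd_at (g a) hx hi)]
      rfl
  exact hG.mono hr

/-! ### the upper bound -/

variable {w s : Fm d X} {ρ : ι → X → ℝ} {F : Auto d X} {c : ℝ} {u h : X → ℝ}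

/-- **Upper bound.** If no power of `L` has two independent sections, then for small `ε` there are
no `cnt d n p + 1` almost orthonormal approximate kernel elements of degree `p`. -/
theorem exists_small [SimplyConnectedSpace X] (hs : IsSymplectic d X w s)
    (D : Dat F w L ρ c u h) {n : ℕ} (hd : d = 2 * n) (hn : 0 < n)
    (hne : ¬ H450.IsExact (curvature L ρ)) (hno : ∀ k, 0 < k → ¬ H450.HasTwoSec L k)
    {δ C C₁ c₀ K P : ℝ} (hδ : 0 < δ) (hC : 0 ≤ C) (hc₀ : 0 < c₀) {φ : ℝ → X → ℝ}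
    {τ : ℝ → Fm d X}
    (hA : ∀ ε : ℝ, 0 < ε → ε ≤ 1 → CYApprox F L ρ w n 1 δ C C₁ c₀ K ε (φ ε) (τ ε))
    (hexp : ∀ e ∈ atlas (Cm d) X, ∀ S : Set (Cm d), IsCompact S → S ⊆ e.target →
      ∃ B : ℝ≥0∞, B ≠ ⊤ ∧ ∀ ε : ℝ, 0 < ε → ε ≤ 1 →
        ∫⁻ z in S, ENNReal.ofReal (Real.exp (-(P * φ ε (e.symm z)))) ≤ B)
    (M : ℕ) (hP : (2 * d + 1) * (M : ℝ) ≤ P) :
    ∃ ε₀ : ℝ, 0 < ε₀ ∧ ε₀ ≤ 1 ∧ ∀ ε, 0 < ε → ε ≤ ε₀ → ∀ q, 1 ≤ q → q ≤ M →
      ∀ p ∈ Finset.range (d + 1), ¬ Good L w (fun i x => ρ i x + φ ε x) q p (cnt d n p + 1) ε := by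
  by_contra hcon
  push Not at hcon
  set η : ℕ → ℝ := fun N => 1 / ((N : ℝ) + 1) with hη
  have hη0 : ∀ N, 0 < η N := fun N => by positivity
  have hη1 : ∀ N, η N ≤ 1 := fun N => by
    rw [hη]
    simp only
    rw [div_le_one (by positivity)]
    have : (0 : ℝ) ≤ N := Nat.cast_nonneg _
    linarith
  have hηm : ∀ {N N' : ℕ}, N ≤ N' → η N' ≤ η N := fun {N N'} h => by
    have : (N : ℝ) ≤ N' := by exact_mod_cast h
    exact one_div_le_one_div_of_le (by positivity) (by linarith)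
  choose ε hε0 hεη q hq1 hqM p hp hG using fun N => hcon (η N) (hη0 N) (hη1 N)
  obtain ⟨⟨q₀, p₀⟩, ψ, hψ, hψc⟩ := exists_const_sub (β := Fin (M + 1) × Fin (d + 1))
    fun N => (⟨q N, Nat.lt_succ_of_le (hqM N)⟩, ⟨p N, Finset.mem_range.1 (hp N)⟩)
  have e1 : ∀ K, q (ψ K) = q₀ := fun K => congrArg (fun y => (y.1 : ℕ)) (hψc K)
  have e2 : ∀ K, p (ψ K) = p₀ := fun K => congrArg (fun y => (y.2 : ℕ)) (hψc K)
  have hq0M : (q₀ : ℕ) ≤ M := Nat.le_of_lt_succ q₀.2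
  have hq01 : 1 ≤ (q₀ : ℕ) := by rw [← e1 0]; exact hq1 _
  have hε1 : ∀ N, ε N ≤ 1 := fun N => (hεη N).trans (hη1 N)
  obtain ⟨v, hv1, hv2, hv3, hv4⟩ := good_limit (F := F) D.kahler D.metric
    (ε := fun K => ε (ψ K)) (fun K => hε0 _) (fun K => hε1 _) (by
      refine squeeze_zero (fun K => (hε0 _).le) (fun K => (hεη _).trans (hηm (hψ K))) ?_
      exact tendsto_one_div_add_atTop_nhds_zero_nat)
    (φ := fun K => φ (ε (ψ K))) (τ := fun K => τ (ε (ψ K))) (n := n)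
    (by omega) (by omega) hδ hC hc₀ (fun K => hA _ (hε0 _) (hε1 _))
    (P := P) (fun e he S hS hSe => by
      obtain ⟨B, hB, hB'⟩ := hexp e he S hS hSe
      exact ⟨B, hB, fun K => hB' _ (hε0 _) (hε1 _)⟩) (q := q₀) hq01 (by
      refine le_trans ?_ hP
      have : ((q₀ : ℕ) : ℝ) ≤ M := by exact_mod_cast hq0M
      exact mul_le_mul_of_nonneg_left this (by positivity))
    (p := p₀) (r := cnt d n p₀ + 1) fun K => by
      have h1 := hG (ψ K)
      rw [e1 K, e2 K] at h1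
      exact h1
  obtain ⟨k, hk, hk'⟩ := H450.kappa_one (by omega) hs D.metric D.isNef (Dat_q_zero hs D) hne
    hv1 (fun b i e x hx hi => hv2 b i e x hx hi) hv3
    fun i e x hx hi => hv4 id (Nat.lt_succ_self _) i e x hx hi
  exact hno k hk hk'

/-- the metric `ρ + φ` -/
def cyB (L : LineBundle d X ι) (ρ : ι → X → ℝ) (w : Fm d X) (φ : X → ℝ)
    (hm : IsMetric L fun i x => ρ i x + φ x) (hw : IsKahler w) : HB d X ι :=
  ⟨L, fun i x => ρ i x + φ x, w, hm, hw⟩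

theorem finrank_sk_eq (B : HB d X ι) (q : ℕ) (σ : ℤˣ)
    [FiniteDimensional ℂ ((B.pow q).ell.sk σ)] :
    Module.finrank ℂ ((B.pow q).ell.sk σ) = ∑ p ∈ Finset.range (d + 1),
      if ((-1 : ℤˣ) ^ p = σ) then Module.finrank ℂ (skd (B.pow q).grading p) else 0 := by
  have h1 : ∀ p : dgs d σ, Module.Finite ℂ (skd (B.pow q).grading (p : ℕ)) := fun p =>
    Submodule.finiteDimensional_of_le (skd_le (B.pow q).grading p.2)
  rw [(skEquiv (B.pow q).grading σ).finrank_eq, Module.finrank_pi_fintype,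
    Finset.sum_coe_sort (dgs d σ) fun p => Module.finrank ℂ (skd (B.pow q).grading p), dgs,
    Finset.sum_filter]

/-- the sum of the bounds in one parity -/
def bnd (d n : ℕ) : ℕ := ∑ p ∈ Finset.range (d + 1), cnt d n p

/-- **Constancy.** For small `ε` all indices are `χ(𝒪)` and the kernels in degree `p` have
dimension at most `cnt d n p`. -/
theorem index_const [SimplyConnectedSpace X] (L : LineBundle d X ι) (n : ℕ) :
    ∃ N : ℕ, ∀ {w s : Fm d X} {ρ : ι → X → ℝ} {F : Auto d X} {c : ℝ} {u h : X → ℝ}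
      (hs : IsSymplectic d X w s) (D : Dat F w L ρ c u h) (hd : d = 2 * n) (hn : 0 < n)
      (hne : ¬ H450.IsExact (curvature L ρ)) (hno : ∀ k, 0 < k → ¬ H450.HasTwoSec L k)
      {δ C C₁ c₀ K P : ℝ} (hδ : 0 < δ) (hC : 0 ≤ C) (hc₀ : 0 < c₀) {φ : ℝ → X → ℝ}
      {τ : ℝ → Fm d X}
      (hA : ∀ ε : ℝ, 0 < ε → ε ≤ 1 → CYApprox F L ρ w n 1 δ C C₁ c₀ K ε (φ ε) (τ ε))
      (hexp : ∀ e ∈ atlas (Cm d) X, ∀ S : Set (Cm d), IsCompact S → S ⊆ e.target →
        ∃ B : ℝ≥0∞, B ≠ ⊤ ∧ ∀ ε : ℝ, 0 < ε → ε ≤ 1 →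
          ∫⁻ z in S, ENNReal.ofReal (Real.exp (-(P * φ ε (e.symm z)))) ≤ B)
      (M : ℕ) (hNM : N ≤ M) (hP : (2 * d + 1) * (M : ℝ) ≤ P),
      ∃ ε₀ : ℝ, 0 < ε₀ ∧ ε₀ ≤ 1 ∧ ∀ ε, 0 < ε → ε ≤ ε₀ →
        ∀ (hm : IsMetric L fun i x => ρ i x + φ ε x),
        (∀ q σ, FiniteDimensional ℂ (((cyB L ρ w (φ ε) hm D.kahler).pow q).ell.sk σ)) ∧
        (∀ q, ((cyB L ρ w (φ ε) hm D.kahler).pow q).ell.P = HB.chi0 d X) ∧
        ∀ q, 1 ≤ q → q ≤ M → ∀ p ∈ Finset.range (d + 1),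
          Module.finrank ℂ (skd ((cyB L ρ w (φ ε) hm D.kahler).pow q).grading p) ≤ cnt d n p := by
  obtain ⟨N, hN⟩ := exists_KS L
  refine ⟨(2 * bnd d n + 1) * N, ?_⟩
  intro w s ρ F c u h hs D hd hn hne hno δ C C₁ c₀ K P hδ hC hc₀ φ τ hA hexp M hNM hP
  obtain ⟨ε₀, h0, h1, hε₀⟩ := exists_small hs D hd hn hne hno hδ hC hc₀ hA hexp M hP
  refine ⟨ε₀, h0, h1, fun ε hε hεε hm => ?_⟩
  set B : HB d X ι := cyB L ρ w (φ ε) hm D.kahler with hB
  obtain ⟨KK⟩ := hN 1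
  have hKK : KS B.L 1 N := KK
  have hfin : ∀ q σ, FiniteDimensional ℂ ((B.pow q).ell.sk σ) := by
    intro q σ
    have := (HB.index_rel hKK q).1 ∅ σ
    rwa [Finset.card_empty, add_zero, mul_one] at this
  have hle : ∀ q, 1 ≤ q → q ≤ M → ∀ p ∈ Finset.range (d + 1),
      Module.finrank ℂ (skd (B.pow q).grading p) ≤ cnt d n p := by
    intro q hq1 hq2 p hp
    by_contra hlt
    push Not at hlt
    have := hfin q ((-1) ^ p)
    have hf : FiniteDimensional ℂ (skd (B.pow q).grading p) :=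
      Submodule.finiteDimensional_of_le (skd_le (B.pow q).grading (mem_dgs.2 ⟨hp, rfl⟩))
    exact hε₀ ε hε hεε q hq1 hq2 p hp (good_of_finrank B q (Nat.succ_le_of_lt hlt) hε)
  refine ⟨hfin, ?_, hle⟩
  have hP0 : (B.pow 0).ell.P = HB.chi0 d X := HB.P_zero B fun σ => hfin 0 σ
  have hbd : ∀ q, 1 ≤ q → q ≤ M → ∀ σ, Module.finrank ℂ ((B.pow q).ell.sk σ) ≤ bnd d n := by
    intro q hq1 hq2 σ
    have := hfin q σ
    rw [finrank_sk_eq B q σ, bnd]
    refine Finset.sum_le_sum fun p hp => ?_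
    split_ifs with hps
    · exact hle q hq1 hq2 p hp
    · exact Nat.zero_le _
  have e1 : ∀ q : ℕ, (B.pow (q * 1)).ell.P = (B.pow q).ell.P := fun q => by rw [mul_one]
  have hc := const_of_bdd (fun q => (B.pow q).ell.P) N (fun b => by
    have := (HB.index_rel hKK b).2
    simpa only [e1] using this) (bnd d n) (fun q hq1 hq2 => by
      have a1 := hbd q hq1 (hq2.trans hNM) 1
      have a2 := hbd q hq1 (hq2.trans hNM) (-1)
      show |(B.pow q).ell.P| ≤ _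
      unfold Ell.P
      rw [abs_le]
      omega)
  intro q
  exact (hc q).trans hP0

theorem sum_even (f : ℕ → ℕ) : (∑ p ∈ Finset.range (6 + 1),
    if ((-1 : ℤˣ) ^ p = 1) then f p else 0) = f 0 + f 2 + f 4 + f 6 := by
  have h : ∀ p, ((-1 : ℤˣ) ^ p = 1) ↔ Even p := fun p => by
    rcases Nat.even_or_odd p with hp | hp
    · simp [hp, hp.neg_one_pow]
    · simp [hp.neg_one_pow, Nat.not_even_iff_odd.2 hp]
  simp only [h]
  rw [← Finset.sum_filter]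
  have h2 : (Finset.range (6 + 1)).filter Even = {0, 2, 4, 6} := by decide
  rw [h2]
  simp
  ring

section six

variable {X : Type} [TopologicalSpace X] [ChartedSpace (Cm 6) X] [T2Space X] [CompactSpace X]
  [SimplyConnectedSpace X] [IsManifold 𝓘(ℂ, Cm 6) ω X]
variable {ι : Type} {L : LineBundle 6 X ι}
variable {w s : Fm 6 X} {ρ : ι → X → ℝ} {F : Auto 6 X} {c : ℝ} {u h : X → ℝ}

/-- **N3-CONST** for given Calabi-Yau approximations. -/
theorem const_six_of (L : LineBundle 6 X ι) :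
    ∃ N : ℕ, ∀ {w s : Fm 6 X} {ρ : ι → X → ℝ} {F : Auto 6 X} {c : ℝ} {u h : X → ℝ}
      (hs : IsSymplectic 6 X w s) (D : Dat F w L ρ c u h)
      (hne : ¬ H450.IsExact (curvature L ρ)) (hno : ∀ k, 0 < k → ¬ H450.HasTwoSec L k)
      {δ C C₁ c₀ K P : ℝ} (hδ : 0 < δ) (hC : 0 ≤ C) (hc₀ : 0 < c₀) {φ : ℝ → X → ℝ}
      {τ : ℝ → Fm 6 X}
      (hA : ∀ ε : ℝ, 0 < ε → ε ≤ 1 → CYApprox F L ρ w 3 1 δ C C₁ c₀ K ε (φ ε) (τ ε))
      (hexp : ∀ e ∈ atlas (Cm 6) X, ∀ S : Set (Cm 6), IsCompact S → S ⊆ e.target →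
        ∃ B : ℝ≥0∞, B ≠ ⊤ ∧ ∀ ε : ℝ, 0 < ε → ε ≤ 1 →
          ∫⁻ z in S, ENNReal.ofReal (Real.exp (-(P * φ ε (e.symm z)))) ≤ B)
      (M : ℕ) (hNM : N ≤ M) (hM : 1 ≤ M) (hP : (2 * (6 : ℕ) + 1) * (M : ℝ) ≤ P),
      HB.chi0 6 X = 4 ∧ ∃ ε₀ : ℝ, 0 < ε₀ ∧ ε₀ ≤ 1 ∧ ∀ ε, 0 < ε → ε ≤ ε₀ →
        ∀ (hm : IsMetric L fun i x => ρ i x + φ ε x), ∀ q, 1 ≤ q → q ≤ M →
          ((cyB L ρ w (φ ε) hm D.kahler).pow q).ell.sk (-1) = ⊥ ∧
          Module.finrank ℂ (skd ((cyB L ρ w (φ ε) hm D.kahler).pow q).grading 4) = 3 ∧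
          Module.finrank ℂ (skd ((cyB L ρ w (φ ε) hm D.kahler).pow q).grading 6) = 1 ∧
          Good L w (fun i x => ρ i x + φ ε x) q 4 3 ε ∧
          Good L w (fun i x => ρ i x + φ ε x) q 6 1 ε := by
  obtain ⟨N, hN⟩ := index_const (X := X) L 3
  refine ⟨N, ?_⟩
  intro w s ρ F c u h hs D hne hno δ C C₁ c₀ K P hδ hC hc₀ φ τ hA hexp M hNM hM hP
  obtain ⟨ε₀, h0, h1, hε₀⟩ := hN hs D (by norm_num) (by norm_num) hne hno hδ hC hc₀ hA hexp M hNM hP
  -- `χ ≥ 4`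
  have hχ : 4 ≤ HB.chi0 6 X := by
    have hm : IsMetric L fun i x => ρ i x + φ ε₀ x := isMetric_add D.metric (hA _ h0 h1).smooth
    have hf := (hε₀ ε₀ h0 le_rfl hm).1 0
    obtain ⟨v, κ, hv, hk⟩ := H450.exists_rf hs hs.kahler
    have h2 := H450.q_nef_pos (by norm_num) hs hk hs.kahler (isReal11_curvature D.metric) D.isNef hne
    rw [H450.q_symm (H450.SData.of hs hk)] at h2
    have h3 := chi0_ge (n := 3) hs (by norm_num) hk.kahler (isReal11_curvature D.metric)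
      (Dat_q_zero hs D) h2.ne' fun p hp => finite_HolF _ hf hp
    exact h3
  have key : ∀ ε, 0 < ε → ε ≤ ε₀ →
      ∀ (hm : IsMetric L fun i x => ρ i x + φ ε x), ∀ q, 1 ≤ q → q ≤ M →
        HB.chi0 6 X = 4 ∧
        Module.finrank ℂ (((cyB L ρ w (φ ε) hm D.kahler).pow q).ell.sk (-1)) = 0 ∧
        Module.finrank ℂ (skd ((cyB L ρ w (φ ε) hm D.kahler).pow q).grading 4) = 3 ∧
        Module.finrank ℂ (skd ((cyB L ρ w (φ ε) hm D.kahler).pow q).grading 6) = 1 := by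
    intro ε hε hεε hm q hq1 hq2
    obtain ⟨hfin, hPc, hle⟩ := hε₀ ε hε hεε hm
    set B := cyB L ρ w (φ ε) hm D.kahler with hB
    have := hfin q 1
    have e1 := finrank_sk_eq B q 1
    rw [sum_even] at e1
    have c0 := hle q hq1 hq2 0 (by decide)
    have c2 := hle q hq1 hq2 2 (by decide)
    have c4 := hle q hq1 hq2 4 (by decide)
    have c6 := hle q hq1 hq2 6 (by decide)
    rw [show cnt 6 3 0 = 0 by decide] at c0
    rw [show cnt 6 3 2 = 0 by decide] at c2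
    rw [show cnt 6 3 4 = 3 by decide] at c4
    rw [show cnt 6 3 6 = 1 by decide] at c6
    have hP' := hPc q
    unfold Ell.P at hP'
    refine ⟨?_, ?_, ?_, ?_⟩ <;> omega
  refine ⟨?_, ε₀, h0, h1, ?_⟩
  · exact (key ε₀ h0 le_rfl (isMetric_add D.metric (hA _ h0 h1).smooth) 1 le_rfl hM).1
  · intro ε hε hεε hm q hq1 hq2
    obtain ⟨-, k1, k2, k3⟩ := key ε hε hεε hm q hq1 hq2
    obtain ⟨hfin, -, -⟩ := hε₀ ε hε hεε hm
    set B := cyB L ρ w (φ ε) hm D.kahler with hB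
    have f1 := hfin q 1
    have f2 := hfin q (-1)
    have g4 : FiniteDimensional ℂ (skd (B.pow q).grading 4) :=
      Submodule.finiteDimensional_of_le (skd_le (B.pow q).grading
        (mem_dgs.2 ⟨by decide, by decide⟩ : 4 ∈ dgs 6 1))
    have g6 : FiniteDimensional ℂ (skd (B.pow q).grading 6) :=
      Submodule.finiteDimensional_of_le (skd_le (B.pow q).grading
        (mem_dgs.2 ⟨by decide, by decide⟩ : 6 ∈ dgs 6 1))
    refine ⟨Submodule.finrank_eq_zero.1 k1, k2, k3, ?_, ?_⟩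
    · exact good_of_finrank B q (le_of_eq k2.symm) hε
    · exact good_of_finrank B q (le_of_eq k3.symm) hε

/-- **N3-CONST**, with the Calabi-Yau approximations. -/
theorem const_six (hs : IsSymplectic 6 X w s) (D : Dat F w L ρ c u h)
    (hne : ¬ H450.IsExact (curvature L ρ)) (hno : ∀ k, 0 < k → ¬ H450.HasTwoSec L k) (M₀ : ℕ) :
    ∃ (M : ℕ) (P : ℝ), 1 ≤ M ∧ M₀ ≤ M ∧ (2 * (6 : ℕ) + 1) * (M : ℝ) ≤ P ∧
      HB.chi0 6 X = 4 ∧
      ∃ δ C C₁ c₀ K : ℝ, 0 < δ ∧ δ ≤ 1 ∧ 0 ≤ C ∧ 0 < c₀ ∧ ∃ (φ : ℝ → X → ℝ) (τ : ℝ → Fm 6 X),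
      (∀ ε : ℝ, 0 < ε → ε ≤ 1 → CYApprox F L ρ w 3 1 δ C C₁ c₀ K ε (φ ε) (τ ε)) ∧
      (∀ e ∈ atlas (Cm 6) X, ∀ S : Set (Cm 6), IsCompact S → S ⊆ e.target → ∃ B : ℝ≥0∞, B ≠ ⊤ ∧
        ∀ ε : ℝ, 0 < ε → ε ≤ 1 →
          ∫⁻ z in S, ENNReal.ofReal (Real.exp (-(P * φ ε (e.symm z)))) ≤ B) ∧
      ∃ ε₀ : ℝ, 0 < ε₀ ∧ ε₀ ≤ 1 ∧ ∀ ε, 0 < ε → ε ≤ ε₀ →
        ∀ (hm : IsMetric L fun i x => ρ i x + φ ε x), ∀ q, 1 ≤ q → q ≤ M →
          ((cyB L ρ w (φ ε) hm D.kahler).pow q).ell.sk (-1) = ⊥ ∧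
          Module.finrank ℂ (skd ((cyB L ρ w (φ ε) hm D.kahler).pow q).grading 4) = 3 ∧
          Module.finrank ℂ (skd ((cyB L ρ w (φ ε) hm D.kahler).pow q).grading 6) = 1 ∧
          Good L w (fun i x => ρ i x + φ ε x) q 4 3 ε ∧
          Good L w (fun i x => ρ i x + φ ε x) q 6 1 ε := by
  obtain ⟨N, hN⟩ := const_six_of (X := X) L
  set M : ℕ := max (max N 1) M₀ with hM
  obtain ⟨δ, C, C₁, c₀, K, hδ, hδ1, hC, hc₀, φ, τ, hA, hexp⟩ :=
    exists_cy_symplectic hs D (n := 3) (by norm_num) (by norm_num) hne (m := 1) le_rfl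
      (p := (2 * (6 : ℕ) + 1) * (M : ℝ)) (by positivity)
  obtain ⟨hχ, ε₀, h0, h1, hk⟩ := hN hs D hne hno hδ hC hc₀ hA hexp M (by omega) (by omega) le_rfl
  exact ⟨M, _, by omega, by omega, le_rfl, hχ, δ, C, C₁, c₀, K, hδ, hδ1, hC, hc₀, φ, τ, hA, hexp,
    ε₀, h0, h1, hk⟩

end six

end Vale.Agent.P301.H949
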