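import Vale.Agent.P301.H949.HL
import Vale.Agent.P301.H103.Ext
import Vale.Agent.P301.H794.PhiB
import Vale.Agent.P301.H794.ZEnd

/-!
# P301, injectivity: horizontal holomorphic forms inject into the cohomology
-/

open scoped Manifold ContDiff ComplexOrder Topology Matrix ComplexConjugate InnerProductSpace
open Vale.Agent.P272.K Vale.Agent.P272.K.C2 Vale.Agent.P299.H954 Vale.Agent.P299.IX
open Vale.Agent.P301.H599 MeasureTheory Set Filter Vale.Agent.P299.H863
open Vale.Agent.P299.IX.Fock Vale.Agent.P301.H862 Vale.Agent.P301.H103 Vale.Agent.P301.H794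
open UniformSpace Module

set_option linter.all false

noncomputable section

namespace Vale.Agent.P301.H949

section abs

variable {H : Type*} [NormedAddCommGroup H] [InnerProductSpace ℂ H]

/-- A vector of degree `p` orthogonal to the strong kernel of degree `p` is a limit of `D v`. -/
theorem exists_D_near (A : Ell H) {d : ℕ} (G : A.Grading d) {p : ℕ} (hp : p ∈ Finset.range (d + 1))
    {z : H} (hz : G.dg p z = z) (hperp : ∀ y ∈ skd G p, inner ℂ (z : Completion H) y = 0)
    {ε : ℝ} (hε : 0 < ε) : ∃ v : H, ‖A.D v - z‖ ≤ ε := by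
  set i₁ : H →ₗᵢ[ℂ] Completion H := Completion.toComplₗᵢ with hi₁
  have hcoe : ∀ u : H, i₁ u = (u : Completion H) := fun _ => rfl
  set R : Submodule ℂ (Completion H) := (LinearMap.range A.D).map i₁.toLinearMap with hR
  set K : Submodule ℂ (Completion H) := R.topologicalClosure with hK
  have hKc : IsClosed (K : Set (Completion H)) := R.isClosed_topologicalClosure
  have : CompleteSpace K := hKc.completeSpace_coe
  have : K.HasOrthogonalProjection := inferInstance
  obtain ⟨z1, hz1, z2, hz2, hzz⟩ := K.exists_add_mem_mem_orthogonal (z : Completion H)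
  have horth : ∀ v : H, inner ℂ ((A.D v : H) : Completion H) z2 = 0 := by
    intro v
    refine (K.mem_orthogonal z2).1 hz2 _ ?_
    exact R.le_topologicalClosure ⟨A.D v, ⟨v, rfl⟩, rfl⟩
  have hweak : ∀ u : H, inner ℂ ((A.D u : H) : Completion H) z2 =
      inner ℂ (u : Completion H) (0 : Completion H) := by
    intro u
    rw [inner_zero_right, horth]
  choose w hw1 hw2 using fun n : ℕ => weak_eq_strong (𝕜 := ℂ) (fun u v => A.symm u v)
    A.smoothing A.smoothing A.comm z2 0 hweak (ε := 1 / ((n : ℝ) + 1)) (by positivity)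
  have hlim := tendsto_one_div_add_atTop_nhds_zero_nat (𝕜 := ℝ)
  have hw1' : Tendsto (fun n => (w n : Completion H)) atTop (𝓝 z2) := by
    rw [tendsto_iff_norm_sub_tendsto_zero]
    exact squeeze_zero (fun n => norm_nonneg _) hw1 hlim
  have hw2' : Tendsto (fun n => A.D (w n)) atTop (𝓝 0) := by
    rw [tendsto_zero_iff_norm_tendsto_zero]
    refine squeeze_zero (fun n => norm_nonneg _) (fun n => ?_) hlim
    have := hw2 n
    rwa [sub_zero, Completion.norm_coe] at this
  -- the component of degree `p`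
  have hmem : (dgL G p).completion z2 ∈ skd G p := by
    refine ⟨fun n => G.dg p (w n), fun n => ⟨_, rfl⟩, ?_, ?_⟩
    · refine (((dgL G p).completion.continuous.tendsto z2).comp hw1').congr fun n => ?_
      exact ContinuousLinearMap.completion_apply_coe _ _
    · refine squeeze_zero_norm (fun n => ?_) (by simpa using hw2'.norm)
      refine le_of_sq_le_sq ?_ (norm_nonneg _)
      rw [G.norm_D (w n)]
      exact Finset.single_le_sum (f := fun p => ‖A.D (G.dg p (w n))‖ ^ 2)
        (fun _ _ => sq_nonneg _) hp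
  have h1 : inner ℂ (z : Completion H) z2 = 0 := by
    rw [← hperp _ hmem]
    have h2 : Tendsto (fun n => inner ℂ (z : Completion H) (w n : Completion H)) atTop
        (𝓝 (inner ℂ (z : Completion H) z2)) := tendsto_const_nhds.inner hw1'
    have h3 : Tendsto (fun n => inner ℂ (z : Completion H) (((dgL G p).completion (w n : Completion H)))) atTop
        (𝓝 (inner ℂ (z : Completion H) ((dgL G p).completion z2))) :=
      tendsto_const_nhds.inner (((dgL G p).completion.continuous.tendsto z2).comp hw1')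
    refine tendsto_nhds_unique h2 (h3.congr fun n => ?_)
    rw [ContinuousLinearMap.completion_apply_coe, dgL_apply, Completion.inner_coe,
      Completion.inner_coe, ← G.symm, hz]
  have h2 : inner ℂ z1 z2 = 0 := (K.mem_orthogonal z2).1 hz2 _ hz1
  have h3 : z2 = 0 := by
    have h4 : inner ℂ z2 z2 = (0 : ℂ) := by
      have h5 : z2 = (z : Completion H) - z1 := by rw [hzz]; abel
      calc inner ℂ z2 z2 = inner ℂ ((z : Completion H) - z1) z2 := by rw [← h5]
        _ = 0 := by rw [inner_sub_left, h1, h2, sub_zero]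
    exact inner_self_eq_zero.1 h4
  rw [h3, add_zero] at hzz
  have h4 : (z : Completion H) ∈ closure (R : Set (Completion H)) := by rw [hzz]; exact hz1
  obtain ⟨y, hy, hyz⟩ := Metric.mem_closure_iff.1 h4 ε hε
  obtain ⟨_, ⟨v, rfl⟩, rfl⟩ := hy
  refine ⟨v, ?_⟩
  rw [← Completion.norm_coe, Completion.coe_sub, ← dist_eq_norm, dist_comm]
  exact hyz.le

end abs

variable {d : ℕ} {X : Type} [TopologicalSpace X] {ι : Type} [ChartedSpace (Cm d) X]
  [IsManifold 𝓘(ℂ, Cm d) ω X] [T2Space X] [CompactSpace X]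
  {B : HB d X ι} {L : LineBundle d X ι} {α : Type*}
  {w : Fm d X} {ρ : ι → X → ℝ} {l : Filter α} {v : α → X → ℝ} {φ : X → ℝ}
  {g h : H862.Fam d X ι}

theorem norm_Dd_sub_le {s : B.S} (hδ : B.Dd s = 0) (t : B.S) : ‖B.Dd t - s‖ ≤ ‖B.D t - s‖ := by
  have h0 : B.Dd (B.Dd t - s) = 0 := by rw [map_sub, Dd_Dd, hδ, sub_zero]
  have h1 : inner ℂ (B.Dp t) (B.Dd t - s) = 0 := by
    rw [HB.inner_Dp, h0, inner_zero_right]
  have h2 : ‖B.D t - s‖ ^ 2 = ‖B.Dp t‖ ^ 2 + ‖B.Dd t - s‖ ^ 2 := by
    rw [HB.D_eq, show B.Dp t + B.Dd t - s = B.Dp t + (B.Dd t - s) by abel, @norm_add_sq ℂ, h1]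
    simp
  refine le_of_sq_le_sq ?_ (norm_nonneg _)
  rw [h2]
  nlinarith [sq_nonneg ‖B.Dp t‖]

/-- Cauchy-Schwarz for two weights -/
theorem ip_cs_weight (hk : IsKahler w) (hρ : IsMetric L ρ) {v : X → ℝ} (hv : Smooth (d := d) v)
    (hg : H862.IsSec L g) (hh : H862.IsSec L h) :
    ‖H862.ip L (fun i x => ρ i x + v x) w g h‖ ≤
      √((H862.ip L (fun i x => ρ i x + 2 * v x) w g g).re) * √((H862.ip L ρ w h h).re) := by
  set χ : X → ℝ := fun x => Real.exp (-v x) with hχ
  have hχs : SmR d χ := by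
    intro e x hx
    exact ((hv e x hx).neg).exp
  have hg' : H862.IsSec L (mulR χ g) := hg.mulR hχs
  have h1 := ip_cs hk hρ hg' hh
  have e1 : H862.ip L ρ w (mulR χ g) h = H862.ip L (fun i x => ρ i x + v x) w g h := by
    refine intC_congr fun i e x hx hi => ?_
    show hw _ _ _ (((χ (e.symm (e x)) : ℝ) : ℂ) • g i e (e x)) _ = _
    rw [hw_smul_left]
    simp only [hX, hw, wt, hχ]
    rw [← mul_assoc]
    congr 1
    rw [← Complex.ofReal_mul, ← Real.exp_add]
    congr 2
    ring
  have e2 : H862.ip L ρ w (mulR χ g) (mulR χ g) =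
      H862.ip L (fun i x => ρ i x + 2 * v x) w g g := by
    refine intC_congr fun i e x hx hi => ?_
    show hw _ _ _ (((χ (e.symm (e x)) : ℝ) : ℂ) • g i e (e x))
      (((χ (e.symm (e x)) : ℝ) : ℂ) • g i e (e x)) = _
    rw [hw_smul_left, hw_smul_right, Complex.conj_ofReal]
    simp only [hX, hw, wt, hχ]
    rw [← mul_assoc, ← mul_assoc]
    congr 1
    rw [← Complex.ofReal_mul, ← Complex.ofReal_mul, ← Real.exp_add, ← Real.exp_add]
    congr 2
    ring
  rw [e1, e2] at h1
  exact h1

/-- **Injectivity.** A holomorphic `p`-form `g` with `d'(e^{-φ} g) = 0` which is orthogonal to the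
strong kernel of degree `p` is zero. -/
theorem zero_of_perp [l.NeBot] (B : HB d X ι) (hv : ∀ N, Smooth (d := d) (v N))
    (hW : WLim d l v φ) (hW2 : WLim d l (fun N x => 2 * v N x) fun x => 2 * φ x)
    {p : ℕ} (hp : p ∈ Finset.range (d + 1)) (hg : H897.IsHol B.L g)
    (hdeg : ∀ i e x, At e x → x ∈ B.L.U i → ∀ I : FI d, I.card ≠ p → g i e (e x) I = 0)
    (hloc : LocEq B.L B.ρ φ g 0)
    (hperp : ∀ y ∈ skd B.grading p, inner ℂ ((HB.mkS g hg.isSec : B.S) : Completion B.S) y = 0)
    {i : ι} {e : Chart d X} {x : X} (hx : At e x) (hi : x ∈ B.L.U i) : g i e (e x) = 0 := by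
  set s : B.S := HB.mkS g hg.isSec with hs
  have hρN : ∀ N, IsMetric B.L (fun i x => B.ρ i x + v N x) := fun N => isMetric_add B.metric (hv N)
  obtain ⟨c2, hc2⟩ := ip_conv B.kahler B.metric (v := fun N x => 2 * v N x)
    (fun N => Smooth.const_mul _ (hv N)) hW2 hg.isSec hg.isSec
  have hc2' := (Complex.continuous_re.tendsto _).comp hc2
  obtain ⟨M, hM0, hM⟩ : ∃ M : ℝ, 0 < M ∧ ∀ᶠ N in l,
      √((H862.ip B.L (fun i x => B.ρ i x + 2 * v N x) B.w g g).re) ≤ M := by
    have h1 := (Real.continuous_sqrt.tendsto _).comp hc2'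
    refine ⟨|√(c2.re)| + 1, by positivity, ?_⟩
    filter_upwards [h1.eventually (Iio_mem_nhds (show √(c2.re) < |√(c2.re)| + 1 by
      have := le_abs_self (√(c2.re)); linarith))] with N hN
    exact (show _ < _ from hN).le
  refine zero_of_ip B.kahler B.metric hv hW hg.isSec ?_ hx hi
  rw [tendsto_order]
  constructor
  · intro a ha
    exact Eventually.of_forall fun N => lt_of_lt_of_le ha
      (intC_re_nonneg fun i e x hx hi => hw_nonneg (kat B.kahler hx) _)
  intro a ha
  -- approximation by `δ t`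
  obtain ⟨t, ht⟩ := exists_D_near B.ell B.grading hp (z := s) (dg_of_homog hg.isSec hdeg) hperp
    (ε := a / (4 * M)) (by positivity)
  have ht' : ‖B.Dd t - s‖ ≤ a / (4 * M) :=
    (norm_Dd_sub_le (Dd_of_isHol hg) t).trans ht
  have hts : H862.IsSec B.L (dX B.w t.f) := t.isSec.dX B.kahler
  have hgt : H862.IsSec B.L (fun i e z => g i e z - dX B.w t.f i e z) := H897.IsSec.sub hg.isSec hts
  have h1 : Tendsto (fun N => H862.ip B.L (fun i x => B.ρ i x + v N x) B.w g (dX B.w t.f)) l
      (𝓝 0) := by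
    refine (glob_weak B.kahler B.metric hv hW hg.isSec IsSec.zero hloc t.isSec).congr fun N => ?_
    have h2 : H862.ip B.L (fun i x => B.ρ i x + v N x) B.w 0 t.f = 0 := by
      have : intC B.L (hX (fun i x => B.ρ i x + v N x) B.w 0 t.f) = intC B.L (fun _ _ _ => 0) :=
        intC_congr fun i e x hx hi => by
          show hw _ _ _ 0 _ = 0
          rw [hw_zero_left]
      show intC B.L _ = 0
      rw [this, intC_zero]
    rw [h2, sub_zero]
  have h2 : √((H862.ip B.L B.ρ B.w (fun i e z => g i e z - dX B.w t.f i e z)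
      (fun i e z => g i e z - dX B.w t.f i e z)).re) ≤ a / (4 * M) := by
    have h3 := norm_mkS B hgt
    rw [← h3]
    have h4 : (HB.mkS _ hgt : B.S) = -(B.Dd t - s) := by
      apply HB.S.ext_f
      intro i e x hx hi
      rw [HB.mkS_at hgt hx hi, HB.S.neg_f, HB.S.sub_f]
      show _ = -((B.Dd t).f i e (e x) - s.f i e (e x))
      rw [HB.Dd_at _ hx hi, hs, HB.mkS_at hg.isSec hx hi, neg_sub]
      rfl
    rw [h4, norm_neg]
    exact ht'
  have h3 : ∀ N, H862.ip B.L (fun i x => B.ρ i x + v N x) B.w g g =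
      H862.ip B.L (fun i x => B.ρ i x + v N x) B.w g (dX B.w t.f) +
      H862.ip B.L (fun i x => B.ρ i x + v N x) B.w g (fun i e z => g i e z - dX B.w t.f i e z) := by
    intro N
    show intC B.L _ = intC B.L _ + intC B.L _
    rw [← intC_add (hg.isSec.isDens_hX (hρN N) B.kahler hts)
      (hg.isSec.isDens_hX (hρN N) B.kahler hgt)]
    refine intC_congr fun i e x hx hi => ?_
    show hw _ _ _ _ _ = hw _ _ _ _ _ + hw _ _ _ _ _
    rw [← hw_add_right]
    congr 1
    exact (add_sub_cancel _ _).symm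
  filter_upwards [hM, h1.eventually (Metric.ball_mem_nhds 0 (show 0 < a / 4 by positivity))]
    with N hN hN'
  rw [dist_zero_right] at hN'
  have h4 := ip_cs_weight B.kahler B.metric (hv N) hg.isSec hgt
  have h5 : √((H862.ip B.L (fun i x => B.ρ i x + 2 * v N x) B.w g g).re) *
      √((H862.ip B.L B.ρ B.w (fun i e z => g i e z - dX B.w t.f i e z)
      (fun i e z => g i e z - dX B.w t.f i e z)).re) ≤ M * (a / (4 * M)) :=
    mul_le_mul hN h2 (Real.sqrt_nonneg _) hM0.le
  have h6 : M * (a / (4 * M)) = a / 4 := by field_simp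
  calc (H862.ip B.L (fun i x => B.ρ i x + v N x) B.w g g).re
      ≤ ‖H862.ip B.L (fun i x => B.ρ i x + v N x) B.w g g‖ := Complex.re_le_norm _
    _ ≤ a / 4 + a / 4 := by
        rw [h3 N]
        refine (norm_add_le _ _).trans (add_le_add hN'.le ?_)
        rw [← h6]
        exact h4.trans h5
    _ < a := by linarith

/-- **J.** Independent holomorphic `p`-forms with `d'(e^{-φ} g) = 0` inject into the strong kernel
of degree `p` of any Hermitian metric. -/
theorem le_finrank_skd [l.NeBot] (B : HB d X ι) (hv : ∀ N, Smooth (d := d) (v N))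
    (hW : WLim d l v φ) (hW2 : WLim d l (fun N x => 2 * v N x) fun x => 2 * φ x)
    {p r : ℕ} (hp : p ∈ Finset.range (d + 1)) [FiniteDimensional ℂ (skd B.grading p)]
    {g : Fin r → H862.Fam d X ι} (hg : ∀ a, H897.IsHol B.L (g a))
    (hdeg : ∀ a i e x, At e x → x ∈ B.L.U i → ∀ I : FI d, I.card ≠ p → g a i e (e x) I = 0)
    (hloc : ∀ a, LocEq B.L B.ρ φ (g a) 0)
    (hind : ∀ c : Fin r → ℂ, (∀ i e x, At e x → x ∈ B.L.U i →
      ∑ a, c a • g a i e (e x) = 0) → c = 0) :
    r ≤ finrank ℂ (skd B.grading p) := by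
  by_contra hlt
  push Not at hlt
  have hcs : CompleteSpace (skd B.grading p) := FiniteDimensional.complete ℂ _
  have : (skd B.grading p).HasOrthogonalProjection := inferInstance
  let s : Fin r → B.S := fun a => HB.mkS (g a) (hg a).isSec
  let T : (Fin r → ℂ) →ₗ[ℂ] skd B.grading p :=
    (skd B.grading p).orthogonalProjectionOnto.toLinearMap ∘ₗ
      (Completion.toComplₗᵢ (𝕜 := ℂ) (E := B.S)).toLinearMap ∘ₗ
        (Fintype.linearCombination ℂ s)
  have hT : LinearMap.ker T ≠ ⊥ := by
    refine LinearMap.ker_ne_bot_of_finrank_lt ?_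
    rw [Module.finrank_fin_fun]
    exact hlt
  obtain ⟨c, hc, hc0⟩ := Submodule.exists_mem_ne_zero_of_ne_bot hT
  refine hc0 (hind c ?_)
  set gc : H862.Fam d X ι := fun i e z => ∑ a, c a • g a i e z with hgc
  have hgch : H897.IsHol B.L gc := by
    refine ⟨fun i e x hx hi I => ?_, fun i j e e' x hx hx' hi hj => ?_⟩
    · have h1 : (fun z => gc i e z I) = fun z => ∑ a, c a * g a i e z I := by
        funext z
        simp only [hgc, Finset.sum_apply, Pi.smul_apply, smul_eq_mul]
      rw [h1]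
      exact Finset.analyticAt_fun_sum _ fun a _ => analyticAt_const.mul ((hg a).holo i e x hx hi I)
    · show ∑ a, c a • g a i e (e x) = _ *ᵥ ∑ a, c a • g a j e' (e' x)
      rw [Matrix.mulVec_sum]
      refine Finset.sum_congr rfl fun a _ => ?_
      rw [(hg a).change i j e e' x hx hx' hi hj, Matrix.mulVec_smul]
  have hsc : (HB.mkS gc hgch.isSec : B.S) = Fintype.linearCombination ℂ s c := by
    apply HB.S.ext_f
    intro i e x hx hi
    rw [HB.mkS_at hgch.isSec hx hi, Fintype.linearCombination_apply, HB.S.sum_f]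
    simp only [Finset.sum_apply, hgc]
    refine Finset.sum_congr rfl fun a _ => ?_
    rw [HB.S.smul_f]
    show c a • g a i e (e x) = c a • (s a).f i e (e x)
    rw [HB.mkS_at (hg a).isSec hx hi]
  have hperp : ∀ y ∈ skd B.grading p,
      inner ℂ ((HB.mkS gc hgch.isSec : B.S) : Completion B.S) y = 0 := by
    intro y hy
    have h1 : (skd B.grading p).orthogonalProjectionOnto
        ((HB.mkS gc hgch.isSec : B.S) : Completion B.S) = 0 := by
      rw [hsc]
      exact hc
    have h2 := Submodule.orthogonalProjectionOnto_eq_zero_iff.1 h1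
    exact ((skd B.grading p).mem_orthogonal' _).1 h2 y hy
  have hgdeg : ∀ i e x, At e x → x ∈ B.L.U i → ∀ I : FI d, I.card ≠ p → gc i e (e x) I = 0 := by
    intro i e x hx hi I hI
    simp only [hgc, Finset.sum_apply, Pi.smul_apply, smul_eq_mul]
    exact Finset.sum_eq_zero fun a _ => by rw [hdeg a i e x hx hi I hI, mul_zero]
  have hlocc : LocEq B.L B.ρ φ gc 0 := LocEq.comb B.metric hW (fun a => (hg a).isSec) hloc c
    fun i e x hx hi => rfl
  intro i e x hx hi
  exact zero_of_perp B hv hW hW2 hp hgch hgdeg hlocc hperp hx hi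

end Vale.Agent.P301.H949
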