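import Vale.Agent.P301.H949.HLFin
import Vale.Agent.P301.H949.Const

/-!
# P301, N3-FIN for the Calabi-Yau approximations
-/

open Filter Metric Set MeasureTheory Topology UniformSpace
open scoped ENNReal ComplexOrder Matrix ComplexConjugate Manifold ContDiff

set_option linter.all false

noncomputable section

namespace Vale.Agent.P301.H949

open Vale.Agent.P272.K Vale.Agent.P299.IX Vale.Agent.P299.IX.Fock Vale.Agent.P301.H85
open Vale.Agent.P301.H599 Vale.Agent.P301.H862 Vale.Agent.P299.H954 Vale.Agent.P301.H103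
open Vale.Agent.P301.H794

variable {d : ℕ} {X : Type} [TopologicalSpace X] [ChartedSpace (Cm d) X]
variable {ι : Type} {L : LineBundle d X ι}
variable [IsManifold 𝓘(ℂ, Cm d) ω X] [CompactSpace X] [T2Space X]

theorem Smooth.sub' {u v : X → ℝ} (hu : Smooth (d := d) u) (hv : Smooth (d := d) v) :
    Smooth (d := d) fun x => u x - v x := fun e x hx => (hu e x hx).sub (hv e x hx)

/-- **N3-FIN** for the metrics `ρ + v N` on `L^m`, if the metric `ρ + φ₁` has no strong kernel of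
the parity of `p` in `L^m`. -/
theorem fin_zero_cy {α : Type*} {l : Filter α} [l.NeBot] {ρ : ι → X → ℝ} {w : Fm d X}
    {φ₁ : X → ℝ} (hm : IsMetric L fun i x => ρ i x + φ₁ x) (hk : IsKahler w) (m : ℕ) {p : ℕ}
    {σ : ℤˣ} (hσ : (-1) ^ p = σ) (hsk : ((cyB L ρ w φ₁ hm hk).pow m).ell.sk σ = ⊥)
    (hφ : Smooth (d := d) φ₁) {v : α → X → ℝ} (hv : ∀ N, Smooth (d := d) (v N)) {C₁ : ℝ}
    (hC : ∀ N x, v N x ≤ C₁)
    (hexp : ∀ e ∈ atlas (Cm d) X, ∀ S : Set (Cm d), IsCompact S → S ⊆ e.target →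
      ∃ b : ℝ≥0∞, b ≠ ⊤ ∧ ∀ N,
        ∫⁻ z in S, ENNReal.ofReal (Real.exp (-(2 * m * v N (e.symm z)))) ≤ b)
    {g : H862.Fam d X ι} (hg : H897.IsHol (powL L m) g)
    (hp : ∀ i e x, At e x → x ∈ L.U i → ∀ I : FI d, I.card ≠ p → g i e (e x) I = 0)
    (hweak : ∀ χ : H862.Fam d X ι, H862.IsSec (powL L m) χ →
      Tendsto (fun N => H862.ip (powL L m) (fun i x => (m : ℝ) * ρ i x + (m : ℝ) * v N x) w g
        (dX w χ)) l (𝓝 0)) :
    ∀ i e x, At e x → x ∈ L.U i → g i e (e x) = 0 := by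
  set B := (cyB L ρ w φ₁ hm hk).pow m with hB
  have hφc : Continuous φ₁ := INT.SmoothFn.continuous hφ
  obtain ⟨C₂, hC₂⟩ : ∃ C₂, ∀ x, |φ₁ x| ≤ C₂ := by
    obtain ⟨C₂, hC₂⟩ := isCompact_univ.exists_bound_of_continuousOn hφc.continuousOn
    exact ⟨C₂, fun x => hC₂ x (mem_univ x)⟩
  refine fin_zero (l := l) B hσ hsk (f := fun N x => (m : ℝ) * (v N x - φ₁ x))
    (fun N => Smooth.const_mul _ (Smooth.sub' (hv N) hφ)) (C₁ := m * (C₁ + C₂)) (fun N x => ?_)
    (fun e he S hS hSe => ?_) hg hp fun χ hχ => ?_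
  · refine mul_le_mul_of_nonneg_left ?_ (Nat.cast_nonneg _)
    have h1 := hC N x
    have h2 := (abs_le.1 (hC₂ x)).1
    linarith
  · obtain ⟨b, hb, hbN⟩ := hexp e he S hS hSe
    refine ⟨ENNReal.ofReal (Real.exp (2 * m * C₂)) * b, ENNReal.mul_ne_top ENNReal.ofReal_ne_top hb,
      fun N => ?_⟩
    calc ∫⁻ z in S, ENNReal.ofReal (Real.exp (-(2 * (m * (v N (e.symm z) - φ₁ (e.symm z))))))
        ≤ ∫⁻ z in S, ENNReal.ofReal (Real.exp (2 * m * C₂)) *
            ENNReal.ofReal (Real.exp (-(2 * m * v N (e.symm z)))) := by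
          refine lintegral_mono fun z => ?_
          rw [← ENNReal.ofReal_mul (Real.exp_pos _).le, ← Real.exp_add]
          refine ENNReal.ofReal_le_ofReal (Real.exp_le_exp.2 ?_)
          have h2 := (abs_le.1 (hC₂ (e.symm z))).2
          have h3 : (m : ℝ) * φ₁ (e.symm z) ≤ m * C₂ :=
            mul_le_mul_of_nonneg_left h2 (Nat.cast_nonneg _)
          linarith
      _ = ENNReal.ofReal (Real.exp (2 * m * C₂)) *
            ∫⁻ z in S, ENNReal.ofReal (Real.exp (-(2 * m * v N (e.symm z)))) :=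
          lintegral_const_mul' _ _ ENNReal.ofReal_ne_top
      _ ≤ _ := by gcongr; exact hbN N
  · have h1 := hweak χ hχ
    refine h1.congr fun N => ?_
    have h2 : (fun i x => (m : ℝ) * ρ i x + (m : ℝ) * v N x) =
        fun i x => B.ρ i x + (fun x => (m : ℝ) * (v N x - φ₁ x)) x := by
      funext i x
      show _ = (m : ℝ) * (ρ i x + φ₁ x) + (m : ℝ) * (v N x - φ₁ x)
      ring
    rw [h2]
    rfl

end Vale.Agent.P301.H949
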