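import Vale.Agent.P301.H949.Const
import Vale.Agent.P301.H450.EffGen

/-!
# P301, N3-CONST, effective form

No automorphism: the Calabi-Yau approximations are a hypothesis, and the exclusion of dependent
sections is used only for the powers `1, ..., M`, with `M` explicit.
-/

open Filter Metric Set MeasureTheory Topology UniformSpace
open scoped ENNReal ComplexOrder Matrix ComplexConjugate Manifold ContDiff

set_option linter.all false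

noncomputable section

namespace Vale.Agent.P301.H949

open Vale.Agent.P272.K Vale.Agent.P299.IX Vale.Agent.P299.IX.Fock Vale.Agent.P301.H85
open Vale.Agent.P301.H599 Vale.Agent.P301.H862 Vale.Agent.P299.H954 Vale.Agent.P301.H103
open Vale.Agent.P301.H794

variable {d : ℕ} {X : Type} [TopologicalSpace X] [ChartedSpace (Cm d) X]
variable {ι : Type} {L : LineBundle d X ι}
variable [IsManifold 𝓘(ℂ, Cm d) ω X] [CompactSpace X] [T2Space X]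
variable {w s : Fm d X} {ρ : ι → X → ℝ} {F : X → X}

/-- For `1 ≤ q ≤ M` and `r ≤ R` there are no `r` independent sections of `Λ^p ⊗ L^q` which are
linearly dependent at every point. -/
def NoDep (L : LineBundle d X ι) (M R : ℕ) : Prop :=
  ∀ q, 1 ≤ q → q ≤ M → ∀ (p r : ℕ), r ≤ R → ∀ v : Fin r → H862.Fam d X ι,
    (∀ a, H724.IsSec L H897.LamF q (v a)) → (∀ a, H724.Homog L p (v a)) → H724.LinInd L v →
    ¬ ∀ i (e : Chart d X) x, At e x → x ∈ L.U i → H724.wedge v i e (e x) = 0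

theorem NoDep.mono {M M' R R' : ℕ} (h : NoDep L M R) (hM : M' ≤ M) (hR : R' ≤ R) :
    NoDep L M' R' := fun q h1 h2 p r hr v => h q h1 (h2.trans hM) p r (hr.trans hR) v

/-- the non-effective source of `NoDep` -/
theorem noDep_of_not_two [ConnectedSpace X] [SimplyConnectedSpace X] (hd : 0 < d)
    (hs : IsSymplectic d X w s) (hρ : IsMetric L ρ) (hn : H450.IsNef w (curvature L ρ))
    (hq : H450.q s (curvature L ρ) (curvature L ρ) = 0) (hne : ¬ H450.IsExact (curvature L ρ))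
    (hno : ∀ k, 0 < k → ¬ H450.HasTwoSec L k) (M R : ℕ) : NoDep L M R := by
  intro q h1 h2 p r hr v v1 v2 v3 v4
  obtain ⟨k, hk, hk'⟩ := H450.kappa_one hd hs hρ hn hq hne v1
    (fun b i e x hx hi => v2 b i e x hx hi) v3 v4
  exact hno k hk hk'

/-- **Upper bound**, effective. -/
theorem exists_small_eff (hw : IsKahler w) (hρ : IsMetric L ρ) {n : ℕ} (hd : d = 2 * n)
    (hn : 0 < n) {δ C C₁ c₀ K P : ℝ} (hδ : 0 < δ) (hC : 0 ≤ C) (hc₀ : 0 < c₀) {φ : ℝ → X → ℝ}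
    {τ : ℝ → Fm d X}
    (hA : ∀ ε : ℝ, 0 < ε → ε ≤ 1 → CYApprox F L ρ w n 1 δ C C₁ c₀ K ε (φ ε) (τ ε))
    (hexp : ∀ e ∈ atlas (Cm d) X, ∀ S : Set (Cm d), IsCompact S → S ⊆ e.target →
      ∃ B : ℝ≥0∞, B ≠ ⊤ ∧ ∀ ε : ℝ, 0 < ε → ε ≤ 1 →
        ∫⁻ z in S, ENNReal.ofReal (Real.exp (-(P * φ ε (e.symm z)))) ≤ B)
    {M R : ℕ} (hP : (2 * d + 1) * (M : ℝ) ≤ P) (hnd : NoDep L M R)
    (hR : ∀ p ∈ Finset.range (d + 1), cnt d n p + 1 ≤ R) :
    ∃ ε₀ : ℝ, 0 < ε₀ ∧ ε₀ ≤ 1 ∧ ∀ ε, 0 < ε → ε ≤ ε₀ → ∀ q, 1 ≤ q → q ≤ M →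
      ∀ p ∈ Finset.range (d + 1), ¬ Good L w (fun i x => ρ i x + φ ε x) q p (cnt d n p + 1) ε := by
  by_contra hcon
  push Not at hcon
  set η : ℕ → ℝ := fun N => 1 / ((N : ℝ) + 1) with hη
  have hη0 : ∀ N, 0 < η N := fun N => by positivity
  have hη1 : ∀ N, η N ≤ 1 := fun N => by
    rw [hη]
    simp only
    rw [div_le_one (by positivity)]
    have : (0 : ℝ) ≤ N := Nat.cast_nonneg _
    linarith
  have hηm : ∀ {N N' : ℕ}, N ≤ N' → η N' ≤ η N := fun {N N'} h => by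
    have : (N : ℝ) ≤ N' := by exact_mod_cast h
    exact one_div_le_one_div_of_le (by positivity) (by linarith)
  choose ε hε0 hεη q hq1 hqM p hp hG using fun N => hcon (η N) (hη0 N) (hη1 N)
  obtain ⟨⟨q₀, p₀⟩, ψ, hψ, hψc⟩ := exists_const_sub (β := Fin (M + 1) × Fin (d + 1))
    fun N => (⟨q N, Nat.lt_succ_of_le (hqM N)⟩, ⟨p N, Finset.mem_range.1 (hp N)⟩)
  have e1 : ∀ K, q (ψ K) = q₀ := fun K => congrArg (fun y => (y.1 : ℕ)) (hψc K)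
  have e2 : ∀ K, p (ψ K) = p₀ := fun K => congrArg (fun y => (y.2 : ℕ)) (hψc K)
  have hq0M : (q₀ : ℕ) ≤ M := Nat.le_of_lt_succ q₀.2
  have hq01 : 1 ≤ (q₀ : ℕ) := by rw [← e1 0]; exact hq1 _
  have hε1 : ∀ N, ε N ≤ 1 := fun N => (hεη N).trans (hη1 N)
  obtain ⟨v, hv1, hv2, hv3, hv4⟩ := good_limit (F := F) hw hρ
    (ε := fun K => ε (ψ K)) (fun K => hε0 _) (fun K => hε1 _) (by
      refine squeeze_zero (fun K => (hε0 _).le) (fun K => (hεη _).trans (hηm (hψ K))) ?_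
      exact tendsto_one_div_add_atTop_nhds_zero_nat)
    (φ := fun K => φ (ε (ψ K))) (τ := fun K => τ (ε (ψ K))) (n := n)
    (by omega) (by omega) hδ hC hc₀ (fun K => hA _ (hε0 _) (hε1 _))
    (P := P) (fun e he S hS hSe => by
      obtain ⟨B, hB, hB'⟩ := hexp e he S hS hSe
      exact ⟨B, hB, fun K => hB' _ (hε0 _) (hε1 _)⟩) (q := q₀) hq01 (by
      refine le_trans ?_ hP
      have : ((q₀ : ℕ) : ℝ) ≤ M := by exact_mod_cast hq0M
      exact mul_le_mul_of_nonneg_left this (by positivity))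
    (p := p₀) (r := cnt d n p₀ + 1) fun K => by
      have h1 := hG (ψ K)
      rw [e1 K, e2 K] at h1
      exact h1
  exact hnd q₀ hq01 hq0M p₀ _ (hR p₀ (Finset.mem_range.2 p₀.2)) v hv1 hv2 hv3
    fun i e x hx hi => hv4 id (Nat.lt_succ_self _) i e x hx hi

/-- **Constancy**, effective: `M ≥ (2 bnd + 1)(d + 1)`. -/
theorem index_const_eff (hw : IsKahler w) (hρ : IsMetric L ρ) {n : ℕ} (hd : d = 2 * n)
    (hn : 0 < n) {δ C C₁ c₀ K P : ℝ} (hδ : 0 < δ) (hC : 0 ≤ C) (hc₀ : 0 < c₀) {φ : ℝ → X → ℝ}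
    {τ : ℝ → Fm d X}
    (hA : ∀ ε : ℝ, 0 < ε → ε ≤ 1 → CYApprox F L ρ w n 1 δ C C₁ c₀ K ε (φ ε) (τ ε))
    (hexp : ∀ e ∈ atlas (Cm d) X, ∀ S : Set (Cm d), IsCompact S → S ⊆ e.target →
      ∃ B : ℝ≥0∞, B ≠ ⊤ ∧ ∀ ε : ℝ, 0 < ε → ε ≤ 1 →
        ∫⁻ z in S, ENNReal.ofReal (Real.exp (-(P * φ ε (e.symm z)))) ≤ B)
    {M R : ℕ} (hM : (2 * bnd d n + 1) * (d + 1) ≤ M) (hP : (2 * d + 1) * (M : ℝ) ≤ P)
    (hnd : NoDep L M R) (hR : ∀ p ∈ Finset.range (d + 1), cnt d n p + 1 ≤ R) :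
    ∃ ε₀ : ℝ, 0 < ε₀ ∧ ε₀ ≤ 1 ∧ ∀ ε, 0 < ε → ε ≤ ε₀ →
      ∀ (hm : IsMetric L fun i x => ρ i x + φ ε x),
      (∀ q σ, FiniteDimensional ℂ (((cyB L ρ w (φ ε) hm hw).pow q).ell.sk σ)) ∧
      (∀ q, ((cyB L ρ w (φ ε) hm hw).pow q).ell.P = HB.chi0 d X) ∧
      ∀ q, 1 ≤ q → q ≤ M → ∀ p ∈ Finset.range (d + 1),
        Module.finrank ℂ (skd ((cyB L ρ w (φ ε) hm hw).pow q).grading p) ≤ cnt d n p := by
  obtain ⟨ε₀, h0, h1, hε₀⟩ := exists_small_eff hw hρ hd hn hδ hC hc₀ hA hexp hP hnd hR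
  refine ⟨ε₀, h0, h1, fun ε hε hεε hm => ?_⟩
  set B : HB d X ι := cyB L ρ w (φ ε) hm hw with hB
  obtain ⟨KK⟩ := H450.exists_KS_dim L 1
  have hKK : KS B.L 1 (d + 1) := KK
  have hfin : ∀ q σ, FiniteDimensional ℂ ((B.pow q).ell.sk σ) := by
    intro q σ
    have := (HB.index_rel hKK q).1 ∅ σ
    rwa [Finset.card_empty, add_zero, mul_one] at this
  have hle : ∀ q, 1 ≤ q → q ≤ M → ∀ p ∈ Finset.range (d + 1),
      Module.finrank ℂ (skd (B.pow q).grading p) ≤ cnt d n p := by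
    intro q hq1 hq2 p hp
    by_contra hlt
    push Not at hlt
    have := hfin q ((-1) ^ p)
    have hf : FiniteDimensional ℂ (skd (B.pow q).grading p) :=
      Submodule.finiteDimensional_of_le (skd_le (B.pow q).grading (mem_dgs.2 ⟨hp, rfl⟩))
    exact hε₀ ε hε hεε q hq1 hq2 p hp (good_of_finrank B q (Nat.succ_le_of_lt hlt) hε)
  refine ⟨hfin, ?_, hle⟩
  have hP0 : (B.pow 0).ell.P = HB.chi0 d X := HB.P_zero B fun σ => hfin 0 σ
  have hbd : ∀ q, 1 ≤ q → q ≤ M → ∀ σ, Module.finrank ℂ ((B.pow q).ell.sk σ) ≤ bnd d n := by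
    intro q hq1 hq2 σ
    have := hfin q σ
    rw [finrank_sk_eq B q σ, bnd]
    refine Finset.sum_le_sum fun p hp => ?_
    split_ifs with hps
    · exact hle q hq1 hq2 p hp
    · exact Nat.zero_le _
  have e1 : ∀ q : ℕ, (B.pow (q * 1)).ell.P = (B.pow q).ell.P := fun q => by rw [mul_one]
  have hc := const_of_bdd (fun q => (B.pow q).ell.P) (d + 1) (fun b => by
    have := (HB.index_rel hKK b).2
    simpa only [e1] using this) (bnd d n) (fun q hq1 hq2 => by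
      have a1 := hbd q hq1 (hq2.trans hM) 1
      have a2 := hbd q hq1 (hq2.trans hM) (-1)
      show |(B.pow q).ell.P| ≤ _
      unfold Ell.P
      rw [abs_le]
      omega)
  intro q
  exact (hc q).trans hP0

theorem bnd_six : bnd 6 3 = 8 := by decide

section six

variable {X : Type} [TopologicalSpace X] [ChartedSpace (Cm 6) X] [T2Space X] [CompactSpace X]
  [SimplyConnectedSpace X] [IsManifold 𝓘(ℂ, Cm 6) ω X]
variable {ι : Type} {L : LineBundle 6 X ι}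
variable {w s : Fm 6 X} {ρ : ι → X → ℝ} {F : X → X}

/-- **N3-CONST**, effective, for given Calabi-Yau approximations. -/
theorem const_six_eff (hs : IsSymplectic 6 X w s) (hρ : IsMetric L ρ)
    (hn : H450.IsNef w (curvature L ρ)) (hq : H450.q s (curvature L ρ) (curvature L ρ) = 0)
    (hne : ¬ H450.IsExact (curvature L ρ))
    {δ C C₁ c₀ K P : ℝ} (hδ : 0 < δ) (hC : 0 ≤ C) (hc₀ : 0 < c₀) {φ : ℝ → X → ℝ}
    {τ : ℝ → Fm 6 X}
    (hA : ∀ ε : ℝ, 0 < ε → ε ≤ 1 → CYApprox F L ρ w 3 1 δ C C₁ c₀ K ε (φ ε) (τ ε))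
    (hexp : ∀ e ∈ atlas (Cm 6) X, ∀ S : Set (Cm 6), IsCompact S → S ⊆ e.target →
      ∃ B : ℝ≥0∞, B ≠ ⊤ ∧ ∀ ε : ℝ, 0 < ε → ε ≤ 1 →
        ∫⁻ z in S, ENNReal.ofReal (Real.exp (-(P * φ ε (e.symm z)))) ≤ B)
    {M : ℕ} (hM : 119 ≤ M) (hP : (2 * (6 : ℕ) + 1) * (M : ℝ) ≤ P) (hnd : NoDep L M 4) :
    HB.chi0 6 X = 4 ∧ ∃ ε₀ : ℝ, 0 < ε₀ ∧ ε₀ ≤ 1 ∧ ∀ ε, 0 < ε → ε ≤ ε₀ →
      ∀ (hm : IsMetric L fun i x => ρ i x + φ ε x), ∀ q, 1 ≤ q → q ≤ M →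
        ((cyB L ρ w (φ ε) hm hs.kahler).pow q).ell.sk (-1) = ⊥ ∧
        Module.finrank ℂ (skd ((cyB L ρ w (φ ε) hm hs.kahler).pow q).grading 4) = 3 ∧
        Module.finrank ℂ (skd ((cyB L ρ w (φ ε) hm hs.kahler).pow q).grading 6) = 1 ∧
        Good L w (fun i x => ρ i x + φ ε x) q 4 3 ε ∧
        Good L w (fun i x => ρ i x + φ ε x) q 6 1 ε := by
  obtain ⟨ε₀, h0, h1, hε₀⟩ := index_const_eff (n := 3) hs.kahler hρ (by norm_num) (by norm_num)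
    hδ hC hc₀ hA hexp (M := M) (R := 4) (by rw [bnd_six]; omega) hP hnd (by decide)
  -- `χ ≥ 4`
  have hχ : 4 ≤ HB.chi0 6 X := by
    have hm : IsMetric L fun i x => ρ i x + φ ε₀ x := isMetric_add hρ (hA _ h0 h1).smooth
    have hf := (hε₀ ε₀ h0 le_rfl hm).1 0
    obtain ⟨v, κ, hv, hk⟩ := H450.exists_rf hs hs.kahler
    have h2 := H450.q_nef_pos (by norm_num) hs hk hs.kahler (isReal11_curvature hρ) hn hne
    rw [H450.q_symm (H450.SData.of hs hk)] at h2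
    have h3 := chi0_ge (n := 3) hs (by norm_num) hk.kahler (isReal11_curvature hρ)
      hq h2.ne' fun p hp => finite_HolF _ hf hp
    exact h3
  have key : ∀ ε, 0 < ε → ε ≤ ε₀ →
      ∀ (hm : IsMetric L fun i x => ρ i x + φ ε x), ∀ q, 1 ≤ q → q ≤ M →
        HB.chi0 6 X = 4 ∧
        Module.finrank ℂ (((cyB L ρ w (φ ε) hm hs.kahler).pow q).ell.sk (-1)) = 0 ∧
        Module.finrank ℂ (skd ((cyB L ρ w (φ ε) hm hs.kahler).pow q).grading 4) = 3 ∧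
        Module.finrank ℂ (skd ((cyB L ρ w (φ ε) hm hs.kahler).pow q).grading 6) = 1 := by
    intro ε hε hεε hm q hq1 hq2
    obtain ⟨hfin, hPc, hle⟩ := hε₀ ε hε hεε hm
    set B := cyB L ρ w (φ ε) hm hs.kahler with hB
    have := hfin q 1
    have e1 := finrank_sk_eq B q 1
    rw [sum_even] at e1
    have c0 := hle q hq1 hq2 0 (by decide)
    have c2 := hle q hq1 hq2 2 (by decide)
    have c4 := hle q hq1 hq2 4 (by decide)
    have c6 := hle q hq1 hq2 6 (by decide)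
    rw [show cnt 6 3 0 = 0 by decide] at c0
    rw [show cnt 6 3 2 = 0 by decide] at c2
    rw [show cnt 6 3 4 = 3 by decide] at c4
    rw [show cnt 6 3 6 = 1 by decide] at c6
    have hP' := hPc q
    unfold Ell.P at hP'
    refine ⟨?_, ?_, ?_, ?_⟩ <;> omega
  refine ⟨?_, ε₀, h0, h1, ?_⟩
  · exact (key ε₀ h0 le_rfl (isMetric_add hρ (hA _ h0 h1).smooth) 1 le_rfl (by omega)).1
  · intro ε hε hεε hm q hq1 hq2
    obtain ⟨-, k1, k2, k3⟩ := key ε hε hεε hm q hq1 hq2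
    obtain ⟨hfin, -, -⟩ := hε₀ ε hε hεε hm
    set B := cyB L ρ w (φ ε) hm hs.kahler with hB
    have f1 := hfin q 1
    have f2 := hfin q (-1)
    have g4 : FiniteDimensional ℂ (skd (B.pow q).grading 4) :=
      Submodule.finiteDimensional_of_le (skd_le (B.pow q).grading
        (mem_dgs.2 ⟨by decide, by decide⟩ : 4 ∈ dgs 6 1))
    have g6 : FiniteDimensional ℂ (skd (B.pow q).grading 6) :=
      Submodule.finiteDimensional_of_le (skd_le (B.pow q).grading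
        (mem_dgs.2 ⟨by decide, by decide⟩ : 6 ∈ dgs 6 1))
    refine ⟨Submodule.finrank_eq_zero.1 k1, k2, k3, ?_, ?_⟩
    · exact good_of_finrank B q (le_of_eq k2.symm) hε
    · exact good_of_finrank B q (le_of_eq k3.symm) hε

/-- **N3-CONST**, effective, from the output of CY-MAIN. -/
theorem const_six_cy (hs : IsSymplectic 6 X w s) (hρ : IsMetric L ρ)
    (hn : H450.IsNef w (curvature L ρ)) (hq : H450.q s (curvature L ρ) (curvature L ρ) = 0)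
    (hne : ¬ H450.IsExact (curvature L ρ))
    (hCY : ∀ p : ℝ, 0 ≤ p → CYStatement F L ρ w 3 1 p)
    {M : ℕ} (hM : 119 ≤ M) {P : ℝ} (hP : (2 * (6 : ℕ) + 1) * (M : ℝ) ≤ P) (hnd : NoDep L M 4) :
    HB.chi0 6 X = 4 ∧
      ∃ δ C C₁ c₀ K : ℝ, 0 < δ ∧ δ ≤ 1 ∧ 0 ≤ C ∧ 0 < c₀ ∧ ∃ (φ : ℝ → X → ℝ) (τ : ℝ → Fm 6 X),
      (∀ ε : ℝ, 0 < ε → ε ≤ 1 → CYApprox F L ρ w 3 1 δ C C₁ c₀ K ε (φ ε) (τ ε)) ∧
      (∀ e ∈ atlas (Cm 6) X, ∀ S : Set (Cm 6), IsCompact S → S ⊆ e.target → ∃ B : ℝ≥0∞, B ≠ ⊤ ∧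
        ∀ ε : ℝ, 0 < ε → ε ≤ 1 →
          ∫⁻ z in S, ENNReal.ofReal (Real.exp (-(P * φ ε (e.symm z)))) ≤ B) ∧
      ∃ ε₀ : ℝ, 0 < ε₀ ∧ ε₀ ≤ 1 ∧ ∀ ε, 0 < ε → ε ≤ ε₀ →
        ∀ (hm : IsMetric L fun i x => ρ i x + φ ε x), ∀ q, 1 ≤ q → q ≤ M →
          ((cyB L ρ w (φ ε) hm hs.kahler).pow q).ell.sk (-1) = ⊥ ∧
          Module.finrank ℂ (skd ((cyB L ρ w (φ ε) hm hs.kahler).pow q).grading 4) = 3 ∧
          Module.finrank ℂ (skd ((cyB L ρ w (φ ε) hm hs.kahler).pow q).grading 6) = 1 ∧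
          Good L w (fun i x => ρ i x + φ ε x) q 4 3 ε ∧
          Good L w (fun i x => ρ i x + φ ε x) q 6 1 ε := by
  have hP0 : 0 ≤ P := le_trans (by positivity) hP
  obtain ⟨δ, C, C₁, c₀, K, hδ, hδ1, hC, hc₀, φ, τ, hA, hexp⟩ := hCY P hP0
  obtain ⟨hχ, ε₀, h0, h1, hk⟩ := const_six_eff hs hρ hn hq hne hδ hC hc₀ hA hexp hM hP hnd
  exact ⟨hχ, δ, C, C₁, c₀, K, hδ, hδ1, hC, hc₀, φ, τ, hA, hexp, ε₀, h0, h1, hk⟩

end six

end Vale.Agent.P301.H949
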