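import Vale.Agent.P301.H949.Span
import Vale.Agent.P301.H951.PTEnd
import Vale.Agent.P301.H951.PTGr

/-!
# P301, N3: one sequence of metrics and the limit forms for sixfolds
-/

open Filter Metric Set MeasureTheory Topology
open scoped ENNReal ComplexOrder Matrix ComplexConjugate Manifold ContDiff

set_option linter.all false

noncomputable section

namespace Vale.Agent.P301.H949

open Vale.Agent.P272.K Vale.Agent.P272.K.C2 Vale.Agent.P299.IX Vale.Agent.P299.IX.Fock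
open Vale.Agent.P301.H85 Vale.Agent.P301.H599 Vale.Agent.P301.H862 Vale.Agent.P299.H954
open Vale.Agent.P301.H897 (LamF)
open Vale.Agent.P301.H724 (Nz Homog mnr wedge LinInd)
open Vale.Agent.P301.H951 Vale.Agent.P301.H794

section fam

/-- weights, degrees and numbers of the limit forms -/
def qq : Fin 4 → ℕ
  | 0 => 1
  | 1 => 1
  | 2 => 2
  | 3 => 2

/-- degrees -/
def pp : Fin 4 → ℕ
  | 0 => 4
  | 1 => 6
  | 2 => 4
  | 3 => 6

/-- numbers -/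
def rr : Fin 4 → ℕ
  | 0 => 3
  | 1 => 1
  | 2 => 3
  | 3 => 1

end fam

variable {X : Type} [TopologicalSpace X] [ChartedSpace (Cm 6) X]
variable {ι : Type} {L : LineBundle 6 X ι}
variable {w s : Fm 6 X} {ρ : ι → X → ℝ} {F : X → X}
variable [T2Space X] [CompactSpace X] [SimplyConnectedSpace X] [IsManifold 𝓘(ℂ, Cm 6) ω X]

/-- The limit forms. `u` and `S` have weight `1` and degrees `4` and `6`; `u'` has weight `2` and
degree `4`; at every point three independent covectors annihilate all of them. -/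
structure Six (L : LineBundle 6 X ι) (ρ : ι → X → ℝ) (w : Fm 6 X) (l : Filter ℕ)
    (φ : ℕ → X → ℝ) (ε : ℕ → ℝ) (u u' : Fin 3 → Fam 6 X ι) (S : Fam 6 X ι) : Prop where
  secu : ∀ a, H724.IsSec L LamF 1 (u a)
  homu : ∀ a, Homog L 4 (u a)
  linu : LinInd L u
  secS : H724.IsSec L LamF 1 S
  homS : Homog L 6 S
  nzS : ∃ i e x, At e x ∧ x ∈ L.U i ∧ S i e (e x) ≠ 0
  secu' : ∀ a, H724.IsSec L LamF 2 (u' a)
  homu' : ∀ a, Homog L 4 (u' a)
  linu' : LinInd L u'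
  limu : ∀ a, ∃ g, IsLim l L w ρ φ ε 1 4 g (u a)
  limS : ∃ g, IsLim l L w ρ φ ε 1 6 g S
  limu' : ∀ a, ∃ g, IsLim l L w ρ φ ε 2 4 g (u' a)
  ann1 : ∀ i e x, At e x → x ∈ L.U i → 3 ≤ Module.finrank ℂ (ann fun b => u b i e (e x))
  annG : ∀ (G : ι → X → ℂ) a i e x, At e x → x ∈ L.U i → 3 ≤ Module.finrank ℂ
    (ann (Fin.cons (G i (e.symm (e x)) • u a i e (e x)) (fun b => u' b i e (e x)) :
      Fin 4 → FI 6 → ℂ))

/-- The limit forms along a sequence. -/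
theorem exists_six_of (hw : IsKahler w) (hρ : IsMetric L ρ) {φ : ℕ → X → ℝ} {τ : ℕ → Fm 6 X}
    {ε : ℕ → ℝ} {δ C C₁ c₀ K P : ℝ}
    (hε0 : ∀ N, 0 < ε N) (hε1 : ∀ N, ε N ≤ 1) (hεt : Tendsto ε atTop (𝓝 0))
    (hδ : 0 < δ) (hC : 0 ≤ C) (hc₀ : 0 < c₀)
    (hA : ∀ N, CYApprox F L ρ w 3 1 δ C C₁ c₀ K (ε N) (φ N) (τ N))
    (hexp : ∀ e ∈ atlas (Cm 6) X, ∀ S : Set (Cm 6), IsCompact S → S ⊆ e.target →
      ∃ B : ℝ≥0∞, B ≠ ⊤ ∧ ∀ N : ℕ,
        ∫⁻ z in S, ENNReal.ofReal (Real.exp (-(P * φ N (e.symm z)))) ≤ B)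
    (hP : (2 * (6 : ℕ) + 1) * (2 : ℝ) ≤ P)
    (hG : ∀ N, ∀ q, 1 ≤ q → q ≤ 2 → Good L w (fun i x => ρ i x + φ N x) q 4 3 (ε N) ∧
      Good L w (fun i x => ρ i x + φ N x) q 6 1 (ε N))
    (l : Ultrafilter ℕ) (hl : (l : Filter ℕ) ≤ atTop) :
    ∃ (u u' : Fin 3 → Fam 6 X ι) (S : Fam 6 X ι), Six L ρ w l φ ε u u' S := by
  obtain ⟨g, u, h1, h2, h3, h4, h5⟩ := cy_limits (F := F) (n := 3) (τ := τ) hw hρ hε0 hε1 hεt
    (by norm_num) (by norm_num) hδ hC hc₀ hA hexp l hl (κ := Fin 4) (q := qq) (p := pp) (r := rr)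
    (by intro c; fin_cases c <;> simp [qq])
    (by
      intro c
      refine le_trans ?_ hP
      have : (qq c : ℝ) ≤ 2 := by fin_cases c <;> norm_num [qq]
      exact mul_le_mul_of_nonneg_left this (by positivity))
    (by
      intro c N
      fin_cases c
      · exact (hG N 1 le_rfl (by norm_num)).1
      · exact (hG N 1 le_rfl (by norm_num)).2
      · exact (hG N 2 (by norm_num) le_rfl).1
      · exact (hG N 2 (by norm_num) le_rfl).2)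
  refine ⟨u 0, u 2, u 1 (0 : Fin 1), ?_⟩
  refine
    { secu := h2 0
      homu := fun a => (h1 0 a).homog
      linu := h3 0
      secS := h2 1 (0 : Fin 1)
      homS := (h1 1 (0 : Fin 1)).homog
      nzS := ?_
      secu' := h2 2
      homu' := fun a => (h1 2 a).homog
      linu' := h3 2
      limu := fun a => ⟨_, h1 0 a⟩
      limS := ⟨_, h1 1 (0 : Fin 1)⟩
      limu' := fun a => ⟨_, h1 2 a⟩
      ann1 := fun i e x hx hi => (h5 e x hx).trans (finrank_ann_le fun b =>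
        ⟨⟨(⟨0, b⟩, i), hi⟩, 1, by rw [one_smul]⟩)
      annG := fun G a i e x hx hi => ann_cons h5 0 2 a G i e x hx hi }
  by_contra hcon
  push Not at hcon
  have := h3 1 (fun _ => 1) fun i e x hx hi => by
    refine Finset.sum_eq_zero fun b _ => ?_
    have hb : b = (0 : Fin 1) := Subsingleton.elim (α := Fin 1) _ _
    rw [one_smul, hb]
    exact hcon i e x hx hi
  exact one_ne_zero (congrFun this (0 : Fin 1))

/-- 395's hypothesis: a common decomposable factor at every point -/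
theorem Six.gr {l : Filter ℕ} {φ : ℕ → X → ℝ} {ε : ℕ → ℝ} {u u' : Fin 3 → Fam 6 X ι}
    {S : Fam 6 X ι} (h : Six L ρ w l φ ε u u' S) (i : ι) (e : Chart 6 X) (x : X) (hx : At e x)
    (hi : x ∈ L.U i) : ∃ t : Fin 3 → Fin 6 → ℂ, ∀ b, ∃ a : Fin 6 → ℂ, u b i e (e x) =
      epsV a *ᵥ (epsV (t 0) *ᵥ (epsV (t 1) *ᵥ (epsV (t 2) *ᵥ ev ∅))) := by
  obtain ⟨t, -, -, h2⟩ := exists_dec3 (by norm_num) (h.ann1 i e x hx hi)
  exact ⟨t, fun b => h2 b fun I hI => h.homu b i e x hx hi I hI⟩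

/-- the three forms are generically independent -/
theorem Six.wedge_ne {M : ℕ} (hnd : NoDep L M 4) (hM : 1 ≤ M)
    {l : Filter ℕ} {φ : ℕ → X → ℝ} {ε : ℕ → ℝ} {u u' : Fin 3 → Fam 6 X ι}
    {S : Fam 6 X ι} (h : Six L ρ w l φ ε u u' S) :
    ∃ i e x, At e x ∧ x ∈ L.U i ∧ wedge u i e (e x) ≠ 0 := by
  by_contra hcon
  push Not at hcon
  exact hnd 1 le_rfl hM 4 3 (by norm_num) u h.secu h.homu h.linu fun i e x hx hi =>
    hcon i e x hx hi

/-- `G • u a` is a combination of the forms of weight two -/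
theorem Six.span {M : ℕ} (hnd : NoDep L M 4) (hM : 2 ≤ M)
    {l : Filter ℕ} {φ : ℕ → X → ℝ} {ε : ℕ → ℝ} {u u' : Fin 3 → Fam 6 X ι}
    {S : Fam 6 X ι} (h : Six L ρ w l φ ε u u' S) {G : ι → X → ℂ} (hG : H450.IsSecPow L 1 G)
    (a : Fin 3) : ∃ c : Fin 3 → ℂ, ∀ i e x, At e x → x ∈ L.U i →
      G i (e.symm (e x)) • u a i e (e x) = ∑ b, c b • u' b i e (e x) := by
  have hv : H724.IsSec L LamF 2 (fun i e z => G i (e.symm z) • u a i e z) := by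
    refine ⟨fun i e x hx hi I => (hG.holo i e x hx hi).mul ((h.secu a).holo i e x hx hi I),
      fun i j e x hx hi hj => ?_, fun i e e' x hx hx' hi => ?_⟩
    · rw [hx.left_inv, hG.change i j x hi hj, (h.secu a).chL i j e x hx hi hj, smul_smul,
        smul_smul]
      congr 1
      ring
    · rw [hx.left_inv, hx'.left_inv, (h.secu a).chV i e e' x hx hx' hi, Matrix.mulVec_smul]
  exact span_of_noDep (m := 2) (q := 3) hnd (by norm_num) hM (by norm_num) (by norm_num) h.secu'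
    h.homu' h.linu' hv (fun i e x hx hi I hI => by
      show G i (e.symm (e x)) • u a i e (e x) I = 0
      rw [h.homu a i e x hx hi I hI, smul_zero]) (fun i e x hx hi => h.annG G a i e x hx hi)

/-- **N3-LIM.** One sequence of metrics, one fixed metric, and the limit forms. `ψ` is any
subsequence chosen after the Calabi-Yau data. -/
theorem exists_lim_six (hs : IsSymplectic 6 X w s) (hρ : IsMetric L ρ)
    (hn : H450.IsNef w (curvature L ρ)) (hq : H450.q s (curvature L ρ) (curvature L ρ) = 0)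
    (hne : ¬ H450.IsExact (curvature L ρ))
    (hCY : ∀ p : ℝ, 0 ≤ p → CYStatement F L ρ w 3 1 p) {P : ℝ}
    (hP : (2 * (6 : ℕ) + 1) * ((119 : ℕ) : ℝ) ≤ P) (hnd : NoDep L 119 4) :
    ∃ δ C C₁ c₀ K : ℝ, 0 < δ ∧ δ ≤ 1 ∧ 0 ≤ C ∧ 0 < c₀ ∧ ∃ (φ : ℕ → X → ℝ) (τ : ℕ → Fm 6 X)
      (ε : ℕ → ℝ) (φ₁ : X → ℝ) (hm : IsMetric L fun i x => ρ i x + φ₁ x),
      Smooth (d := 6) φ₁ ∧ ((cyB L ρ w φ₁ hm hs.kahler).pow 2).ell.sk (-1) = ⊥ ∧
      (∀ N, 0 < ε N) ∧ (∀ N, ε N ≤ 1) ∧ Tendsto ε atTop (𝓝 0) ∧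
      (∀ N, CYApprox F L ρ w 3 1 δ C C₁ c₀ K (ε N) (φ N) (τ N)) ∧
      (∀ e ∈ atlas (Cm 6) X, ∀ S : Set (Cm 6), IsCompact S → S ⊆ e.target →
        ∃ B : ℝ≥0∞, B ≠ ⊤ ∧ ∀ N : ℕ,
          ∫⁻ z in S, ENNReal.ofReal (Real.exp (-(P * φ N (e.symm z)))) ≤ B) ∧
      ∀ ψ : ℕ → ℕ, StrictMono ψ → ∀ l : Ultrafilter ℕ, (l : Filter ℕ) ≤ atTop →
        ∃ (u u' : Fin 3 → Fam 6 X ι) (S : Fam 6 X ι),
          Six L ρ w l (fun N => φ (ψ N)) (fun N => ε (ψ N)) u u' S := by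
  obtain ⟨-, δ, C, C₁, c₀, K, hδ, hδ1, hC, hc₀, φ, τ, hA, hexp, ε₀, h0, h1, hk⟩ :=
    const_six_cy hs hρ hn hq hne hCY (M := 119) le_rfl hP hnd
  have hη0 : ∀ N : ℕ, 0 < ε₀ * (1 / ((N : ℝ) + 1)) := fun N => by positivity
  have hηle : ∀ N : ℕ, ε₀ * (1 / ((N : ℝ) + 1)) ≤ ε₀ := fun N => by
    have h2 : (0 : ℝ) ≤ N := Nat.cast_nonneg _
    have h3 : (1 : ℝ) / ((N : ℝ) + 1) ≤ 1 := by
      rw [div_le_one (by positivity)]
      linarith
    calc ε₀ * (1 / ((N : ℝ) + 1)) ≤ ε₀ * 1 := mul_le_mul_of_nonneg_left h3 h0.le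
      _ = ε₀ := mul_one _
  have hηt : Tendsto (fun N : ℕ => ε₀ * (1 / ((N : ℝ) + 1))) atTop (𝓝 0) := by
    have := (tendsto_one_div_add_atTop_nhds_zero_nat (𝕜 := ℝ)).const_mul ε₀
    rwa [mul_zero] at this
  have hm1 : IsMetric L fun i x => ρ i x + φ ε₀ x := isMetric_add hρ (hA _ h0 h1).smooth
  refine ⟨δ, C, C₁, c₀, K, hδ, hδ1, hC, hc₀, fun N => φ (ε₀ * (1 / ((N : ℝ) + 1))),
    fun N => τ (ε₀ * (1 / ((N : ℝ) + 1))), fun N => ε₀ * (1 / ((N : ℝ) + 1)), φ ε₀, hm1,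
    (hA _ h0 h1).smooth, (hk ε₀ h0 le_rfl hm1 2 (by norm_num) (by norm_num)).1, hη0,
    fun N => (hηle N).trans h1, hηt, fun N => hA _ (hη0 N) ((hηle N).trans h1), ?_, ?_⟩
  · intro e he S hS hSe
    obtain ⟨B, hB, hB'⟩ := hexp e he S hS hSe
    exact ⟨B, hB, fun N => hB' _ (hη0 N) ((hηle N).trans h1)⟩
  · intro ψ hψ l hl
    refine exists_six_of (F := F) (P := P) hs.kahler hρ
      (τ := fun N => τ (ε₀ * (1 / ((ψ N : ℝ) + 1)))) (fun N => hη0 (ψ N))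
      (fun N => (hηle (ψ N)).trans h1) (hηt.comp hψ.tendsto_atTop) hδ hC hc₀
      (fun N => hA _ (hη0 (ψ N)) ((hηle (ψ N)).trans h1)) ?_ (le_trans (by norm_num) hP) ?_ l hl
    · intro e he S hS hSe
      obtain ⟨B, hB, hB'⟩ := hexp e he S hS hSe
      exact ⟨B, hB, fun N => hB' _ (hη0 (ψ N)) ((hηle (ψ N)).trans h1)⟩
    · intro N q hq1 hq2
      have hmN : IsMetric L fun i x => ρ i x + φ (ε₀ * (1 / ((ψ N : ℝ) + 1))) x :=
        isMetric_add hρ (hA _ (hη0 (ψ N)) ((hηle (ψ N)).trans h1)).smooth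
      have := hk _ (hη0 (ψ N)) (hηle (ψ N)) hmN q hq1 (hq2.trans (by norm_num))
      exact ⟨this.2.2.2.1, this.2.2.2.2⟩

end Vale.Agent.P301.H949
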