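import Vale.Agent.P301.H949.StepH
import Vale.Agent.P301.H949.Lim3
import Vale.Agent.P301.H450.EffFour
import Vale.Agent.P301.H794.ZKill
import Vale.Agent.P301.H794.PhiB
import Vale.Agent.P301.H724.Phi3

/-!
# P301, N3: pencils of bounded fractional weight on sixfolds
-/

open Filter Metric Set MeasureTheory Topology
open scoped ENNReal ComplexOrder Matrix ComplexConjugate Manifold ContDiff

set_option linter.all false

noncomputable section

namespace Vale.Agent.P301.H949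

open Vale.Agent.P272.K Vale.Agent.P272.K.C2 Vale.Agent.P299.IX Vale.Agent.P299.IX.Fock
open Vale.Agent.P301.H85 Vale.Agent.P301.H599 Vale.Agent.P301.H862 Vale.Agent.P299.H954
open Vale.Agent.P301.H395 (IntSec IntForm)
open Vale.Agent.P301.H897 (LamF)
open Vale.Agent.P301.H724 (Nz Homog mnr wedge LinInd HasSec)
open Vale.Agent.P301.H951 Vale.Agent.P301.H794
open Vale.Agent.P301.H450 (IsRoot HasFracPair HasFrac)

/-- Every line bundle with a nonzero section has a class proportional to the class of `L`. -/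
def OnlyL {d : ℕ} {X : Type} [TopologicalSpace X] [ChartedSpace (Cm d) X] {ι : Type}
    (L : LineBundle d X ι) (ρ : ι → X → ℝ) : Prop :=
  ∀ (κ : Type) (V : LineBundle d X κ) (ρV : κ → X → ℝ), IsMetric V ρV → HasSec V 1 →
    ∃ t : ℝ, SameClass (curvature V ρV) (fun e z => (t : ℂ) • curvature L ρ e z)

/-- Every line bundle whose class is proportional to the class of `L` has an integral multiple of
this class. -/
def IntClass {d : ℕ} {X : Type} [TopologicalSpace X] [ChartedSpace (Cm d) X] {ι : Type}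
    (L : LineBundle d X ι) (ρ : ι → X → ℝ) : Prop :=
  ∀ (κ : Type) (V : LineBundle d X κ) (ρV : κ → X → ℝ), IsMetric V ρV → ∀ t : ℝ,
    SameClass (curvature V ρV) (fun e z => (t : ℂ) • curvature L ρ e z) → ∃ m : ℤ, (m : ℝ) = t

section gen

variable {d : ℕ} {X : Type} [TopologicalSpace X] [ChartedSpace (Cm d) X]
  [IsManifold 𝓘(ℂ, Cm d) ω X] [T2Space X] [CompactSpace X] [SimplyConnectedSpace X]
variable {ι κ : Type} {L : LineBundle d X ι} {ρ : ι → X → ℝ}

/-- `M` is a power of `L` if some `M^2 ⊗ L^b` has a nonzero section -/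
theorem exists_iso (hρ : IsMetric L ρ) (ho : OnlyL L ρ) (hi : IntClass L ρ)
    {M : LineBundle d X κ} {b : ℤ} (hM : HasSec (tw M 2 L b) 1) : ∃ k : ℤ, IsoPow M 1 L k := by
  obtain ⟨ρM, hρM⟩ := H450.exists_metric M
  have hm := isMetric_tw hρ hρM 2 b (v := fun _ => 0) (Smooth.const (d := d) (X := X) 0)
  obtain ⟨t, u, hu, hue⟩ := ho _ _ _ hm hM
  have key : ∀ e x, At e x → curvature M ρM e (e x) = (((t + b) / 2 : ℝ) : ℂ) •
      curvature L ρ e (e x) + ddc (fun x => (1 / 2 : ℝ) * u x) e (e x) := by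
    intro e x hx
    have h1 := hue e x hx
    rw [H450.curvature_tw hρ hρM 2 b hx] at h1
    simp only at h1
    rw [ddc_const_mul (1 / 2 : ℝ) hu e x hx]
    simp only
    have h2 : curvature M ρM e (e x) = (1 / 2 : ℂ) • (((2 : ℕ) : ℂ) • curvature M ρM e (e x)) := by
      rw [smul_smul]; norm_num
    have h3 : ((2 : ℕ) : ℂ) • curvature M ρM e (e x) = (t : ℂ) • curvature L ρ e (e x) +
        ddc u e (e x) + (b : ℂ) • curvature L ρ e (e x) := by
      rw [← h1]; abel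
    rw [h2, h3, smul_add, smul_add, smul_smul, smul_smul]
    have h4 : (((t + b) / 2 : ℝ) : ℂ) = 1 / 2 * (t : ℂ) + 1 / 2 * (b : ℂ) := by
      push_cast; ring
    rw [h4, add_smul]
    push_cast
    abel
  obtain ⟨k, hk⟩ := hi _ M ρM hρM ((t + b) / 2) ⟨_, hu.const_mul (1 / 2 : ℝ), key⟩
  refine ⟨k, isoPow_of_curvature hρ hρM (q := 1) (a := k) ?_⟩
  refine ⟨_, hu.const_mul (1 / 2 : ℝ), fun e x hx => ?_⟩
  have h1 := key e x hx
  rw [← hk] at h1
  simp only [Nat.cast_one, one_smul]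
  rw [h1]
  push_cast
  rfl

theorem intClass_of_max {w0 s : Fm d X} (hd : 0 < d) (hs : IsSymplectic d X w0 s)
    (hρ : IsMetric L ρ) (hn : H450.IsNef w0 (curvature L ρ)) (hnex : ¬ H450.IsExact (curvature L ρ))
    {r : ℕ} {Q : LineBundle d X κ} {ρQ : κ → X → ℝ} (hQ : IsRoot L ρ r Q ρQ)
    (hmax : ∀ (r' : ℕ) (κ' : Type) (Q' : LineBundle d X κ') (ρ' : κ' → X → ℝ),
        IsRoot L ρ r' Q' ρ' → r' ≤ r) : IntClass Q ρQ :=
  fun κ V ρV hV t ht => H450.int_of_max hd hs hρ hn hnex hQ hmax hV ht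

theorem onlyL_root {r : ℕ} {Q : LineBundle d X κ} {ρQ : κ → X → ℝ} (hQ : IsRoot L ρ r Q ρQ)
    (ho : OnlyL L ρ) : OnlyL Q ρQ := by
  intro κ' V ρV hV hs
  obtain ⟨t, ht⟩ := ho κ' V ρV hV hs
  refine ⟨t * r, H450.sc_trans ht (H450.sc_congr (H450.sc_smul t (H450.sc_symm hQ.cls))
    (fun e x hx => rfl) fun e x hx => ?_)⟩
  rw [smul_smul]
  push_cast
  rfl

theorem fracPair_root {r : ℕ} {Q : LineBundle d X κ} {ρQ : κ → X → ℝ} (hQ : IsRoot L ρ r Q ρQ)
    {M : ℝ} (h : HasFracPair Q ρQ M) : HasFracPair L ρ M := by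
  obtain ⟨κ', P, ρP, τ, f, h1, h2, h3, h4, h5⟩ := h
  have hr : (1 : ℝ) ≤ r := by exact_mod_cast hQ.pos
  have hr0 : (0 : ℝ) < r := by linarith
  have hrC : (r : ℂ) ≠ 0 := by exact_mod_cast hQ.pos.ne'
  refine ⟨κ', P, ρP, τ / r, f, h1, by positivity, ?_, ?_, h5⟩
  · rw [div_le_iff₀ hr0]
    nlinarith
  · refine H450.sc_trans h4 (H450.sc_congr (H450.sc_smul (τ / r) hQ.cls) (fun e x hx => ?_)
      fun e x hx => rfl)
    rw [smul_smul]
    congr 1
    push_cast
    field_simp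

end gen

variable {X : Type} [TopologicalSpace X] [ChartedSpace (Cm 6) X] [T2Space X] [CompactSpace X]
  [SimplyConnectedSpace X] [IsManifold 𝓘(ℂ, Cm 6) ω X]
variable {ι : Type} {L : LineBundle 6 X ι}
variable {w s : Fm 6 X} {ρ : ι → X → ℝ} {F : X → X}

/-- **Core.** -/
theorem frac_six_core (hs : IsSymplectic 6 X w s) (hρ : IsMetric L ρ)
    (hn : H450.IsNef w (curvature L ρ)) (hq : H450.q s (curvature L ρ) (curvature L ρ) = 0)
    (hne : ¬ H450.IsExact (curvature L ρ))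
    (hCY : ∀ p : ℝ, 0 ≤ p → CYStatement F L ρ w 3 1 p) (ho : OnlyL L ρ) (hint : IntClass L ρ) :
    HasFracPair L ρ ((3 * 119 : ℕ) : ℝ) := by
  by_contra hno
  have hnd : NoDep L 119 4 := noDep_of_frac (by norm_num) hs hρ hn hq hne hno
  set P : ℝ := (2 * (6 : ℕ) + 1) * ((119 : ℕ) : ℝ) with hP
  obtain ⟨δ, C, C₁, c₀, K, hδ, hδ1, hC, hc₀, φ, τ, ε, φ₁, hm, hφ₁, hsk, hε0, hε1, hεt, hA, hexp,
    hsix⟩ := exists_lim_six hs hρ hn hq hne hCY (P := P) le_rfl hnd
  have hPpos : 0 < P := by rw [hP]; norm_num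
  -- the limit weight
  obtain ⟨ψ, hψ, φL, hW⟩ := H724.exists_wlim hs.kahler hρ (v := φ) (fun N => (hA N).smooth)
    (C₁ := C₁) (fun N => (hA N).upper) (a := C) (fun N i e x hx hi => by
      have h1 := curv_pow hρ (hA N) le_rfl i e x hx hi
      have h2 := ((hA N).kahler.posDef e x hx).posSemidef
      have h3 := (hs.kahler.posDef e x hx).posSemidef
      have h4 := (h1.add (h2.smul (Complex.zero_le_real.2 hδ.le))).add
        (h3.smul (Complex.zero_le_real.2 (mul_nonneg hC (sub_nonneg.2 (hε1 N)))))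
      have e1 : (fun z => ((1 : ℕ) : ℝ) * ρ i (e.symm z) + ((1 : ℕ) : ℝ) * φ N (e.symm z)) =
          fun z => ρ i (e.symm z) + φ N (e.symm z) := by
        funext z; simp
      have e2 : cHess (fun z => ρ i (e.symm z) + φ N (e.symm z)) (e x) + (C : ℂ) • w e (e x) =
          cHess (fun z => ((1 : ℕ) : ℝ) * ρ i (e.symm z) + ((1 : ℕ) : ℝ) * φ N (e.symm z)) (e x) +
            ((((1 : ℕ) : ℝ) * C * ε N : ℝ) : ℂ) • w e (e x) -
            ((((1 : ℕ) : ℝ) * δ : ℝ) : ℂ) • τ N e (e x) + (δ : ℂ) • τ N e (e x) +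
            ((C * (1 - ε N) : ℝ) : ℂ) • w e (e x) := by
        rw [e1]
        push_cast
        module
      rw [e2]
      exact h4) hPpos hexp
  have hW2 : WLim 6 (hyperfilter ℕ : Filter ℕ) (fun N x => ((2 : ℕ) : ℝ) * φ (ψ N) x)
      (fun x => ((2 : ℕ) : ℝ) * φL x) := by
    have h1 := hW ((2 : ℕ) : ℝ) (by norm_num) (by rw [hP]; norm_num)
    exact ⟨h1.int, fun e he K hK hKe => (h1.lim e he K hK hKe).mono_left
      Nat.hyperfilter_le_atTop⟩
  obtain ⟨u, u', S, h⟩ := hsix ψ hψ (hyperfilter ℕ) Nat.hyperfilter_le_atTop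
  -- the section of `L`
  obtain ⟨f, hf, hfn, -⟩ := exists_top_ne (n := 3) (by norm_num) hs.form hs.nondeg
    (intForm_of_isSec h.secS) (fun i e x hx hi I hI => h.homS i e x hx hi I hI) h.nzS
  -- the line bundle `M`
  obtain ⟨M, hM, hMk⟩ := H395.exists_M hs h.secu h.gr (h.wedge_ne hnd (by norm_num))
  obtain ⟨k, hk⟩ := exists_iso hρ ho hint hM
  obtain ⟨β, G, hβ, hβp, hβn, -, hG, hGn, hrel⟩ := hMk k hk
  have hf1 : IntSec L 1 f := by simpa using hf
  have hk1 : k = -1 := exponent_eq (by norm_num) hs hρ hn hq hne hf1 hfn (p := 3) (by decide) hβ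
    hβp hβn (by simpa using hG) hGn
  subst hk1
  have hβ1 : H724.IsSec L LamF 1 β := isSec_of_intForm (m := 1) (by simpa using hβ)
  have hG1 : H450.IsSecPow L 1 G := isSecPow_of_intSec (m := 1) (by
    have : (3 * ((1 : ℕ) : ℤ) + 2 * (-1 : ℤ)) = ((1 : ℕ) : ℤ) := by norm_num
    rwa [this] at hG)
  have hεψ : Tendsto (fun N => ε (ψ N)) (hyperfilter ℕ : Filter ℕ) (𝓝 0) :=
    (hεt.comp hψ.tendsto_atTop).mono_left Nat.hyperfilter_le_atTop
  obtain ⟨i, e, x, hx, hi, hβx⟩ := hβn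
  obtain ⟨i', e', x', hx', hi', hux⟩ := h.wedge_ne hnd (by norm_num)
  refine kill (a := 1) (b := 1) (m := 2) (p := 3) (σ := -1) (l := (hyperfilter ℕ : Filter ℕ))
    (v := fun N => φ (ψ N)) (φ := φL) (C₁ := C₁) hs.kahler hρ hm hφ₁ rfl (by norm_num) (by decide)
    hsk (fun N => (hA (ψ N)).smooth) (fun N x => (hA (ψ N)).upper x) ?_ hW2 hG1 hGn hβ1 hβp
    ⟨x, hβ1.nz hx hi hβx⟩ h.secu ⟨x', (H724.isSec_wedge h.secu).nz hx' hi' hux⟩ hrel
    fun j => ?_
  · intro e he S hS hSe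
    obtain ⟨B, hB, hBN⟩ := hexp e he S hS hSe
    refine ⟨volume S + B, by finiteness [hS.measure_lt_top (μ := volume)], fun N => ?_⟩
    calc ∫⁻ z in S, ENNReal.ofReal (Real.exp (-(2 * ((2 : ℕ) : ℝ) * φ (ψ N) (e.symm z))))
        ≤ ∫⁻ z in S, (1 + ENNReal.ofReal (Real.exp (-(P * φ (ψ N) (e.symm z))))) := by
          refine lintegral_mono fun z => ?_
          rw [← ENNReal.ofReal_one, ← ENNReal.ofReal_add zero_le_one (Real.exp_pos _).le]
          apply ENNReal.ofReal_le_ofReal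
          exact exp_le_one_add (by positivity) (by rw [hP]; norm_num)
      _ = volume S + ∫⁻ z in S, ENNReal.ofReal (Real.exp (-(P * φ (ψ N) (e.symm z)))) := by
          rw [lintegral_add_left measurable_const]
          simp
      _ ≤ _ := by gcongr; exact hBN _
  · obtain ⟨c, hc⟩ := h.span hnd (by norm_num) hG1 j
    choose g hg using h.limu'
    exact LocEq.comb (M := powL L 2) (powL_metric hρ 2) hW2 (g := u')
      (fun k => (hg k).hol.isSec) (fun k => IsLim.locEq (φ := φL) hs.kahler hρ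
        (fun N => (hA (ψ N)).smooth) hεψ hW2 (hg k)) c hc

end Vale.Agent.P301.H949
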