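import Vale.Agent.P301.H949.HLAbs
import Vale.Agent.P301.H862.EllS
import Vale.Agent.P301.H724.Sec
import Vale.Agent.P301.H897.Main

/-!
# P301, N3-HL: holomorphic sections are limits of `δ v` when the strong kernel of their parity is 0
-/

open scoped Manifold ContDiff ComplexOrder Topology Matrix ComplexConjugate
open Vale.Agent.P272.K Vale.Agent.P272.K.C2 Vale.Agent.P299.H954 Vale.Agent.P299.IX
open Vale.Agent.P301.H599 MeasureTheory Set Filter Vale.Agent.P299.H863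
open Vale.Agent.P299.IX.Fock Vale.Agent.P301.H862

set_option linter.unusedSectionVars false

noncomputable section

namespace Vale.Agent.P301.H949

variable {d : ℕ} {X : Type} [TopologicalSpace X] {ι : Type} [ChartedSpace (Cm d) X]
  [IsManifold 𝓘(ℂ, Cm d) ω X] [T2Space X] [CompactSpace X]
  {B : HB d X ι} {L : LineBundle d X ι} {i j : ι} {e e' : Chart d X} {x : X} {z : Cm d}

theorem Dd_Dd (s : B.S) : B.Dd (B.Dd s) = 0 := by
  refine ext_inner_right ℂ fun v => ?_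
  rw [HB.inner_Dd, HB.inner_Dd, HB.Dp_Dp, inner_zero_right, inner_zero_left]

theorem mem_pt_of_dg {p : ℕ} {σ : ℤˣ} (hσ : (-1) ^ p = σ) {s : B.S} (hs : B.dg p s = s) :
    s ∈ B.ell.pt σ := by
  show B.par s = ((σ : ℤ) : ℂ) • s
  conv_lhs => rw [← hs]
  conv_rhs => rw [← hs]
  rw [HB.par, HB.dg, HB.dgc_dgl, ← HB.dgc_smul]
  refine HB.dgc_congr (fun q _ => ?_) s
  by_cases hq : q = p
  · subst hq
    rw [if_pos rfl, mul_one, mul_one, ← hσ]
    push_cast; rfl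
  · rw [if_neg hq, mul_zero, mul_zero]

/-- **(HL).** If there is no strong kernel of the parity of `p`, every section `z` of degree `p`
with `δ z = 0` is a limit of `δ v`, `v` smooth of degree `p + 1`. -/
theorem HL {p : ℕ} {σ : ℤˣ} (hσ : (-1) ^ p = σ) (hsk : B.ell.sk σ = ⊥) {s : B.S}
    (hs : B.dg p s = s) (hδ : B.Dd s = 0) {ε : ℝ} (hε : 0 < ε) :
    ∃ v : B.S, B.dg (p + 1) v = v ∧ ‖B.Dd v - s‖ ≤ ε := by
  obtain ⟨v0, -, hv0⟩ := dense_of_sk B.ell hsk (mem_pt_of_dg hσ hs) hε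
  have hv0' : ‖B.D v0 - s‖ ≤ ε := hv0
  refine ⟨B.dg (p + 1) v0, by rw [HB.dg_dg, if_pos rfl], ?_⟩
  set y : B.S := B.Dd (B.dg (p + 1) v0) - s with hy
  have h1 : B.Dd y = 0 := by rw [hy, map_sub, Dd_Dd, hδ, sub_zero]
  have h2 : y = B.dg p (B.Dd v0 - s) := by rw [hy, map_sub, HB.Dd_dg_succ, hs]
  have h3 : B.dg p y = y := by rw [h2, HB.dg_dg, if_pos rfl]
  have h4 : (inner ℂ y y : ℂ) = inner ℂ (B.D v0 - s) y := by
    conv_lhs => rw [h2, HB.dg_symm, ← h2, h3]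
    rw [HB.D_eq, show B.Dp v0 + B.Dd v0 - s = B.Dp v0 + (B.Dd v0 - s) by abel, inner_add_left,
      HB.inner_Dp, h1, inner_zero_right, zero_add]
  have h5 : ‖y‖ * ‖y‖ ≤ ε * ‖y‖ := by
    calc ‖y‖ * ‖y‖ = ‖(inner ℂ y y : ℂ)‖ := by
          rw [inner_self_eq_norm_sq_to_K, norm_pow, RCLike.norm_ofReal, abs_norm, sq]
      _ ≤ ‖B.D v0 - s‖ * ‖y‖ := by rw [h4]; exact norm_inner_le_norm _ _
      _ ≤ ε * ‖y‖ := by gcongr
  by_cases h0 : ‖y‖ = 0
  · rw [h0]; exact hε.le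
  · have hpos : 0 < ‖y‖ := lt_of_le_of_ne (norm_nonneg _) (Ne.symm h0)
    exact le_of_mul_le_mul_right h5 hpos

/-- **(HL), dual form.** Every bounded functional which vanishes on all `δ v`, `v` of degree
`p + 1`, vanishes on all sections `s` of degree `p` with `δ s = 0`. -/
theorem functional_zero {p : ℕ} {σ : ℤˣ} (hσ : (-1) ^ p = σ) (hsk : B.ell.sk σ = ⊥)
    (l : B.S →ₗ[ℂ] ℂ) {C : ℝ} (hC : ∀ s, ‖l s‖ ≤ C * ‖s‖)
    (hl : ∀ v : B.S, B.dg (p + 1) v = v → l (B.Dd v) = 0) {s : B.S}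
    (hs : B.dg p s = s) (hδ : B.Dd s = 0) : l s = 0 := by
  refine norm_le_zero_iff.1 (le_of_forall_pos_le_add fun η hη => ?_)
  rw [zero_add]
  obtain ⟨v, hv1, hv2⟩ := HL hσ hsk hs hδ (ε := η / (|C| + 1)) (by positivity)
  have h1 : l s = -l (B.Dd v - s) := by rw [map_sub, hl v hv1, zero_sub, neg_neg]
  rw [h1, norm_neg]
  calc ‖l (B.Dd v - s)‖ ≤ C * ‖B.Dd v - s‖ := hC _
    _ ≤ (|C| + 1) * (η / (|C| + 1)) := by
        refine mul_le_mul ((le_abs_self C).trans (by linarith)) hv2 (norm_nonneg _) (by positivity)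
    _ = η := by field_simp

/-- `δ` kills holomorphic sections -/
theorem Dd_of_isHol {g : Fam d X ι} (hg : H897.IsHol B.L g) :
    B.Dd (HB.mkS g hg.isSec : B.S) = 0 := by
  apply HB.S.ext_f
  intro i e x hx hi
  rw [HB.Dd_at _ hx hi, De_congr (HB.mkS_near hg.isSec hx hi)]
  have h1 : ∀ b, DVb b (g i e) (e x) = 0 := fun b => by
    ext I
    exact INT.dzb_of_holo (hg.holo i e x hx hi I).differentiableAt b
  simp only [De, h1, Matrix.mulVec_zero, Finset.sum_const_zero, neg_zero]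
  rfl

theorem dg_of_homog {p : ℕ} {g : Fam d X ι} (hg : IsSec B.L g)
    (hp : ∀ i e x, At e x → x ∈ B.L.U i → ∀ I : FI d, I.card ≠ p → g i e (e x) I = 0) :
    B.dg p (HB.mkS g hg : B.S) = HB.mkS g hg := by
  apply HB.S.ext_f
  intro i e x hx hi
  rw [HB.dg, HB.dgc_at _ _ hx hi, HB.mkS_at hg hx hi]
  ext I
  rw [dgl_mulVec]
  split_ifs with hI
  · rw [one_mul]
  · rw [hp i e x hx hi I hI, mul_zero]

/-- **N3-HL.** `g` holomorphic of degree `p`, no strong kernel of the parity of `p`: there are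
smooth sections `v k` of degree `p + 1` with `δ (v k) → g` in `L²`. -/
theorem exists_seq {p : ℕ} {σ : ℤˣ} (hσ : (-1) ^ p = σ) (hsk : B.ell.sk σ = ⊥) {g : Fam d X ι}
    (hg : H897.IsHol B.L g)
    (hp : ∀ i e x, At e x → x ∈ B.L.U i → ∀ I : FI d, I.card ≠ p → g i e (e x) I = 0) :
    ∃ v : ℕ → Fam d X ι, (∀ k, IsSec B.L (v k)) ∧
      (∀ k i e x, At e x → x ∈ B.L.U i → ∀ I : FI d, I.card ≠ p + 1 → v k i e (e x) I = 0) ∧
      Tendsto (fun k => (ip B.L B.ρ B.w (dX B.w (v k) - g) (dX B.w (v k) - g)).re) atTop (𝓝 0) := by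
  set s : B.S := HB.mkS g hg.isSec with hs
  choose v hv1 hv2 using fun k : ℕ => HL hσ hsk (dg_of_homog hg.isSec hp) (Dd_of_isHol hg)
    (ε := 1 / ((k : ℝ) + 1)) (by positivity)
  refine ⟨fun k => (v k).f, fun k => (v k).isSec, fun k i e x hx hi I hI => ?_, ?_⟩
  · show (v k).f i e (e x) I = 0
    rw [← hv1 k, HB.dg, HB.dgc_at _ _ hx hi, dgl_mulVec, if_neg hI, zero_mul]
  · have h1 : ∀ k, (ip B.L B.ρ B.w (dX B.w (v k).f - g) (dX B.w (v k).f - g)).re =
        ‖B.Dd (v k) - s‖ ^ 2 := by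
      intro k
      rw [HB.norm_sq_eq]
      refine congrArg Complex.re (HB.ipB_congr (B := B) (fun i e x hx hi => ?_)
        fun i e x hx hi => ?_)
      all_goals
        rw [HB.S.sub_f]
        show dX B.w (v k).f i e (e x) - g i e (e x) = (B.Dd (v k)).f i e (e x) - s.f i e (e x)
        rw [HB.Dd_at _ hx hi, hs, HB.mkS_at hg.isSec hx hi]
        rfl
    have h2 : Tendsto (fun k : ℕ => (1 / ((k : ℝ) + 1)) ^ 2) atTop (𝓝 0) := by
      simpa using (tendsto_one_div_add_atTop_nhds_zero_nat (𝕜 := ℝ)).pow 2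
    refine squeeze_zero (fun k => by rw [h1]; positivity) (fun k => ?_) h2
    rw [h1]
    have := hv2 k
    gcongr

end Vale.Agent.P301.H949
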