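import Vale.Agent.P301.H862.Ell

/-!
# P301: density of the range of `D` in the vectors of a parity without strong kernel
-/

open Filter Topology Module UniformSpace
open scoped InnerProductSpace
open Vale.Agent.P299.H863 Vale.Agent.P301.H862

noncomputable section

namespace Vale.Agent.P301.H949

variable {H : Type*} [NormedAddCommGroup H] [InnerProductSpace ℂ H]

theorem norm_par (A : Ell H) (u : H) : ‖A.par u‖ = ‖u‖ := by
  have h1 : (inner ℂ (A.par u) (A.par u) : ℂ) = inner ℂ u u := by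
    rw [A.par_symm, A.par_sq]
  have h2 : ‖A.par u‖ ^ 2 = ‖u‖ ^ 2 := by
    rw [← inner_self_eq_norm_sq (𝕜 := ℂ), ← inner_self_eq_norm_sq (𝕜 := ℂ), h1]
  exact (sq_eq_sq₀ (norm_nonneg _) (norm_nonneg _)).1 h2

/-- the projection to the vectors of parity `σ` -/
def prj (A : Ell H) (σ : ℤˣ) : H →ₗ[ℂ] H := (2⁻¹ : ℂ) • (LinearMap.id + ((σ : ℤ) : ℂ) • A.par)

theorem prj_apply (A : Ell H) (σ : ℤˣ) (u : H) :
    prj A σ u = (2⁻¹ : ℂ) • (u + ((σ : ℤ) : ℂ) • A.par u) := rfl

theorem sg_mul_self (σ : ℤˣ) : ((σ : ℤ) : ℂ) * ((σ : ℤ) : ℂ) = 1 := by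
  rcases Int.units_eq_one_or σ with h | h <;> rw [h] <;> norm_num

theorem norm_sg (σ : ℤˣ) : ‖((σ : ℤ) : ℂ)‖ = 1 := by
  rcases Int.units_eq_one_or σ with h | h <;> rw [h] <;> simp

theorem conj_sg (σ : ℤˣ) : (starRingEnd ℂ) ((σ : ℤ) : ℂ) = ((σ : ℤ) : ℂ) := by
  rcases Int.units_eq_one_or σ with h | h <;> rw [h] <;> simp

theorem prj_mem (A : Ell H) (σ : ℤˣ) (u : H) : prj A σ u ∈ A.pt σ := by
  show A.par (prj A σ u) = ((σ : ℤ) : ℂ) • prj A σ u
  have h1 : ((σ : ℤ) : ℂ) • (u + ((σ : ℤ) : ℂ) • A.par u) = A.par u + ((σ : ℤ) : ℂ) • u := by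
    rw [smul_add, smul_smul, sg_mul_self, one_smul, add_comm]
  rw [prj_apply, map_smul, map_add, map_smul, A.par_sq, smul_comm ((σ : ℤ) : ℂ), h1]

theorem prj_of_mem (A : Ell H) {σ : ℤˣ} {u : H} (hu : u ∈ A.pt σ) : prj A σ u = u := by
  rw [prj_apply, show A.par u = _ from hu, smul_smul, sg_mul_self, one_smul, ← two_smul ℂ,
    smul_smul, inv_mul_cancel₀ two_ne_zero, one_smul]

theorem norm_prj_le (A : Ell H) (σ : ℤˣ) (u : H) : ‖prj A σ u‖ ≤ ‖u‖ := by
  rw [prj_apply, norm_smul]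
  have h1 : ‖u + ((σ : ℤ) : ℂ) • A.par u‖ ≤ 2 * ‖u‖ := by
    refine (norm_add_le _ _).trans ?_
    rw [norm_smul, norm_sg, one_mul, norm_par, two_mul]
  have h2 : ‖(2⁻¹ : ℂ)‖ = 2⁻¹ := by simp
  rw [h2]
  linarith

theorem prj_add (A : Ell H) (σ : ℤˣ) (u : H) : prj A σ u + prj A (-σ) u = u := by
  rw [prj_apply, prj_apply, ← smul_add]
  have h1 : (((-σ : ℤˣ) : ℤ) : ℂ) = -((σ : ℤ) : ℂ) := by push_cast; rfl
  rw [h1, neg_smul]
  have h2 : u + ((σ : ℤ) : ℂ) • A.par u + (u + -(((σ : ℤ) : ℂ) • A.par u)) = (2 : ℂ) • u := by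
    rw [two_smul]; abel
  rw [h2, smul_smul, inv_mul_cancel₀ two_ne_zero, one_smul]

theorem D_prj (A : Ell H) (σ : ℤˣ) (u : H) : A.D (prj A σ u) = prj A (-σ) (A.D u) := by
  rw [prj_apply, prj_apply, map_smul, map_add, map_smul, A.anti]
  have h1 : (((-σ : ℤˣ) : ℤ) : ℂ) = -((σ : ℤ) : ℂ) := by push_cast; rfl
  rw [h1, smul_neg, neg_smul]

/-- vectors of different parity are orthogonal -/
theorem inner_of_mem (A : Ell H) {σ : ℤˣ} {u v : H} (hu : u ∈ A.pt σ) (hv : v ∈ A.pt (-σ)) :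
    inner ℂ u v = 0 := by
  have h1 := A.par_symm u v
  rw [show A.par u = _ from hu, show A.par v = _ from hv, inner_smul_left, inner_smul_right,
    conj_sg] at h1
  have h2 : (((-σ : ℤˣ) : ℤ) : ℂ) = -((σ : ℤ) : ℂ) := by push_cast; rfl
  rw [h2, neg_mul] at h1
  have h3 : ((σ : ℤ) : ℂ) * inner ℂ u v = 0 := by
    have h4 : (2 : ℂ) * (((σ : ℤ) : ℂ) * inner ℂ u v) = 0 := by
      rw [two_mul]
      nth_rewrite 1 [h1]
      ring
    simpa using h4
  rcases mul_eq_zero.1 h3 with h4 | h4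
  · exfalso
    have := sg_mul_self σ
    rw [h4, zero_mul] at this
    exact zero_ne_one this
  · exact h4

/-- **Density.** If there is no strong kernel of parity `σ`, the vectors `D v`, `v` of parity
`-σ`, are dense in the vectors of parity `σ`. -/
theorem dense_of_sk (A : Ell H) {σ : ℤˣ} (hsk : A.sk σ = ⊥) {z : H} (hz : z ∈ A.pt σ)
    {ε : ℝ} (hε : 0 < ε) : ∃ v ∈ A.pt (-σ), ‖A.D v - z‖ ≤ ε := by
  set i₁ : H →ₗᵢ[ℂ] Completion H := Completion.toComplₗᵢ with hi₁
  have hcoe : ∀ u : H, i₁ u = (u : Completion H) := fun _ => rfl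
  set R : Submodule ℂ (Completion H) := ((A.pt (-σ)).map A.D).map i₁.toLinearMap with hR
  set K : Submodule ℂ (Completion H) := R.topologicalClosure with hK
  have hKc : IsClosed (K : Set (Completion H)) := R.isClosed_topologicalClosure
  have : CompleteSpace K := hKc.completeSpace_coe
  have : K.HasOrthogonalProjection := inferInstance
  obtain ⟨z1, hz1, z2, hz2, hzz⟩ := K.exists_add_mem_mem_orthogonal (z : Completion H)
  -- `z1` is a limit of vectors `D v`
  have hz1' : ∀ η : ℝ, 0 < η → ∃ v ∈ A.pt (-σ), ‖(A.D v : Completion H) - z1‖ ≤ η := by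
    intro η hη
    have h1 : z1 ∈ closure (R : Set (Completion H)) := hz1
    obtain ⟨y, hy, hyz⟩ := Metric.mem_closure_iff.1 h1 η hη
    obtain ⟨_, ⟨v, hv, rfl⟩, rfl⟩ := hy
    refine ⟨v, hv, ?_⟩
    rw [← dist_eq_norm, dist_comm]
    exact hyz.le
  -- `z2` is orthogonal to all `D u`
  have horth : ∀ v ∈ A.pt (-σ), inner ℂ ((A.D v : H) : Completion H) z2 = 0 := by
    intro v hv
    refine (K.mem_orthogonal z2).1 hz2 _ ?_
    exact R.le_topologicalClosure ⟨A.D v, ⟨v, hv, rfl⟩, rfl⟩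
  have hDm : ∀ v ∈ A.pt σ, A.D v ∈ A.pt (-σ) := by
    intro v hv
    rw [← prj_of_mem A hv, D_prj]
    exact prj_mem A _ _
  have hDm' : ∀ v ∈ A.pt (-σ), A.D v ∈ A.pt σ := by
    intro v hv
    rw [← prj_of_mem A hv, D_prj, neg_neg]
    exact prj_mem A _ _
  -- `z2` is orthogonal to the vectors of parity `-σ`
  have horth2 : ∀ y ∈ A.pt (-σ), inner ℂ (y : Completion H) z2 = 0 := by
    intro y hy
    have e1 : z2 = (z : Completion H) - z1 := by rw [hzz]; abel
    have e2 : inner ℂ (y : Completion H) (z : Completion H) = 0 := by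
      rw [Completion.inner_coe, ← inner_conj_symm, inner_of_mem A hz hy, map_zero]
    have e3 : inner ℂ (y : Completion H) z1 = 0 := by
      have hcl : IsClosed {t : Completion H | inner ℂ (y : Completion H) t = 0} :=
        isClosed_eq (by fun_prop) continuous_const
      refine (closure_minimal ?_ hcl) (show z1 ∈ closure (R : Set (Completion H)) from hz1)
      rintro _ ⟨_, ⟨v, hv, rfl⟩, rfl⟩
      show inner ℂ (y : Completion H) ((A.D v : H) : Completion H) = 0
      rw [Completion.inner_coe, ← inner_conj_symm, inner_of_mem A (hDm' v hv) hy, map_zero]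
    rw [e1, inner_sub_right, e2, e3, sub_zero]
  have hweak : ∀ u : H, inner ℂ ((A.D u : H) : Completion H) z2 =
      inner ℂ (u : Completion H) (0 : Completion H) := by
    intro u
    rw [inner_zero_right]
    conv_lhs => rw [← prj_add A σ u, map_add, Completion.coe_add, inner_add_left]
    rw [horth2 _ (hDm _ (prj_mem A σ u)), horth _ (prj_mem A (-σ) u), add_zero]
  -- `z2` is in the strong kernel
  have hz2' : z2 ∈ A.sk σ := by
    choose w hw1 hw2 using fun n : ℕ => weak_eq_strong (𝕜 := ℂ) (fun u v => A.symm u v)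
      A.smoothing A.smoothing A.comm z2 0 hweak (ε := 1 / ((n : ℝ) + 1)) (by positivity)
    -- approximation of `z2` by vectors of parity `σ`
    have happ : ∀ n : ℕ, ∃ y ∈ A.pt σ, ‖(y : Completion H) - z2‖ ≤ 1 / ((n : ℝ) + 1) := by
      intro n
      obtain ⟨v, hv, hv2⟩ := hz1' (1 / ((n : ℝ) + 1)) (by positivity)
      refine ⟨z - A.D v, (A.pt σ).sub_mem hz (hDm' v hv), ?_⟩
      have e1 : ((z - A.D v : H) : Completion H) - z2 = -(((A.D v : H) : Completion H) - z1) := by
        rw [Completion.coe_sub]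
        rw [show (z : Completion H) = z1 + z2 from hzz]
        abel
      rw [e1, norm_neg]
      exact hv2
    choose y hy1 hy2 using happ
    refine ⟨fun n => prj A σ (w n), fun n => prj_mem A σ _, ?_, ?_⟩
    · rw [tendsto_iff_norm_sub_tendsto_zero]
      have hlim : Tendsto (fun n : ℕ => 3 * (1 / ((n : ℝ) + 1))) atTop (𝓝 0) := by
        simpa using (tendsto_one_div_add_atTop_nhds_zero_nat (𝕜 := ℝ)).const_mul 3
      refine squeeze_zero (fun n => norm_nonneg _) (fun n => ?_) hlim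
      have e1 : ((prj A σ (w n) : H) : Completion H) - z2 =
          ((prj A σ (w n - y n) : H) : Completion H) + ((y n : Completion H) - z2) := by
        rw [map_sub, prj_of_mem A (hy1 n), Completion.coe_sub]; abel
      rw [e1]
      refine (norm_add_le _ _).trans ?_
      rw [Completion.norm_coe]
      have e2 : ‖prj A σ (w n - y n)‖ ≤ 1 / ((n : ℝ) + 1) + 1 / ((n : ℝ) + 1) := by
        refine (norm_prj_le A σ _).trans ?_
        rw [← Completion.norm_coe, Completion.coe_sub]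
        have e3 : (w n : Completion H) - y n = ((w n : Completion H) - z2) -
            ((y n : Completion H) - z2) := by abel
        rw [e3]
        exact (norm_sub_le _ _).trans (add_le_add (hw1 n) (hy2 n))
      have := hy2 n
      linarith
    · rw [tendsto_zero_iff_norm_tendsto_zero]
      refine squeeze_zero (fun n => norm_nonneg _) (fun n => ?_)
        (tendsto_one_div_add_atTop_nhds_zero_nat (𝕜 := ℝ))
      rw [D_prj]
      refine (norm_prj_le A _ _).trans ?_
      have := hw2 n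
      rwa [sub_zero, Completion.norm_coe] at this
  rw [hsk, Submodule.mem_bot] at hz2'
  rw [hz2', add_zero] at hzz
  obtain ⟨v, hv, hv2⟩ := hz1' ε hε
  refine ⟨v, hv, ?_⟩
  rw [← hzz, ← Completion.coe_sub, Completion.norm_coe] at hv2
  exact hv2

end Vale.Agent.P301.H949
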