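import Vale.Agent.P301.H949.HL
import Vale.Agent.P301.H794.LimGeo

/-!
# P301, N3-FIN: vanishing of holomorphic forms which satisfy the weak equation of the limit weight
-/

open scoped Manifold ContDiff ComplexOrder Topology Matrix ComplexConjugate ENNReal
open Vale.Agent.P272.K Vale.Agent.P272.K.C2 Vale.Agent.P299.H954 Vale.Agent.P299.IX
open Vale.Agent.P301.H599 MeasureTheory Set Filter Vale.Agent.P299.H863
open Vale.Agent.P299.IX.Fock Vale.Agent.P301.H862

set_option linter.all false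

noncomputable section

namespace Vale.Agent.P301.H949

variable {d : ℕ} {X : Type} [TopologicalSpace X] {ι : Type} [ChartedSpace (Cm d) X]
  [IsManifold 𝓘(ℂ, Cm d) ω X] [T2Space X] [CompactSpace X]
  {B : HB d X ι} {L : LineBundle d X ι} {i j : ι} {e e' : Chart d X} {x : X} {z : Cm d}

/-- **Uniform bounds of integrals** from uniform local integrability. -/
theorem intX_exp_bound {α : Type*} {D : Chart d X → Cm d → ℝ} (hD : INT.IsDensity D)
    (hD0 : ∀ e x, At e x → 0 ≤ D e (e x)) {v : α → X → ℝ} (hv : ∀ N, Smooth (d := d) (v N))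
    (hexp : ∀ e ∈ atlas (Cm d) X, ∀ S : Set (Cm d), IsCompact S → S ⊆ e.target →
      ∃ b : ℝ≥0∞, b ≠ ⊤ ∧ ∀ N, ∫⁻ z in S, ENNReal.ofReal (Real.exp (-v N (e.symm z))) ≤ b) :
    ∃ C : ℝ, ∀ N, INT.intX (fun e z => Real.exp (-v N (e.symm z)) * D e z) ≤ C := by
  classical
  set P := INT.part d X with hP
  have hle : ∀ i x, P.ρ i x ≤ 1 := by
    intro i x
    rw [← P.sum x]
    exact Finset.single_le_sum (f := fun i => P.ρ i x) (fun j _ => P.nonneg j x)
      (Finset.mem_univ i)
  have hi : ∀ i, ∃ B : ℝ, ∀ N, ∫ z in (P.e i).target, P.ρ i ((P.e i).symm z) *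
        (Real.exp (-v N ((P.e i).symm z)) * D (P.e i) z) ≤ B := by
    intro i
    set e := P.e i with he
    have hmem : e ∈ atlas (Cm d) X := P.mem i
    set K : Set (Cm d) := e '' tsupport (P.ρ i) with hK
    have hKc : IsCompact K := (isClosed_tsupport (P.ρ i)).isCompact.image_of_continuousOn
      (e.continuousOn.mono (P.supp i))
    have hKt : K ⊆ e.target := by
      rintro _ ⟨x, hx, rfl⟩; exact e.map_source (P.supp i hx)
    obtain ⟨B, hB, hBv⟩ := hexp e hmem K hKc hKt
    obtain ⟨b, hb⟩ := hKc.exists_bound_of_continuousOn ((hD.continuousOn hmem).mono hKt)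
    refine ⟨|b| * B.toReal, fun N => ?_⟩
    have hvc : Continuous (v N) := INT.SmoothFn.continuous (hv N)
    have hec : ContinuousOn (fun z => Real.exp (-v N (e.symm z))) K := by
      refine Real.continuous_exp.comp_continuousOn (ContinuousOn.neg ?_)
      exact hvc.comp_continuousOn (e.continuousOn_symm.mono hKt)
    have hρc : ContinuousOn (fun z => P.ρ i (e.symm z)) K :=
      (P.cont i).comp_continuousOn (e.continuousOn_symm.mono hKt)
    have hDc : ContinuousOn (D e) K := (hD.continuousOn hmem).mono hKt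
    have hDn : ∀ z ∈ e.target, 0 ≤ D e z := by
      intro z hz
      have := hD0 e (e.symm z) (P272.K.At.of_target hmem hz)
      rwa [e.right_inv hz] at this
    have e1 : ∫ z in e.target, P.ρ i (e.symm z) * (Real.exp (-v N (e.symm z)) * D e z) =
        ∫ z in K, P.ρ i (e.symm z) * (Real.exp (-v N (e.symm z)) * D e z) := by
      refine setIntegral_eq_of_subset_of_forall_sdiff_eq_zero e.open_target.measurableSet hKt ?_
      rintro z ⟨hz1, hz2⟩
      have h1 : e.symm z ∉ tsupport (P.ρ i) := fun h => hz2 ⟨_, h, e.right_inv hz1⟩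
      rw [image_eq_zero_of_notMem_tsupport h1, zero_mul]
    have hint : IntegrableOn (fun z => Real.exp (-v N (e.symm z))) K :=
      hec.integrableOn_compact hKc
    have e2 : ∫ z in K, P.ρ i (e.symm z) * (Real.exp (-v N (e.symm z)) * D e z) ≤
        ∫ z in K, |b| * Real.exp (-v N (e.symm z)) := by
      refine setIntegral_mono_on ((hρc.mul (hec.mul hDc)).integrableOn_compact hKc)
        (hint.const_mul _) hKc.measurableSet fun z hz => ?_
      have h1 : D e z ≤ |b| := (le_abs_self _).trans ((hb z hz).trans (le_abs_self b))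
      have h2 := Real.exp_pos (-v N (e.symm z))
      have h3 := hDn z (hKt hz)
      calc P.ρ i (e.symm z) * (Real.exp (-v N (e.symm z)) * D e z)
          ≤ 1 * (Real.exp (-v N (e.symm z)) * D e z) :=
            mul_le_mul_of_nonneg_right (hle i _) (by positivity)
        _ = Real.exp (-v N (e.symm z)) * D e z := one_mul _
        _ ≤ Real.exp (-v N (e.symm z)) * |b| := mul_le_mul_of_nonneg_left h1 h2.le
        _ = _ := mul_comm _ _
    rw [e1]
    refine e2.trans ?_
    rw [integral_const_mul]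
    refine mul_le_mul_of_nonneg_left ?_ (abs_nonneg _)
    rw [← ENNReal.ofReal_le_iff_le_toReal hB, ofReal_integral_eq_lintegral_ofReal hint
      (Filter.Eventually.of_forall fun z => (Real.exp_pos _).le)]
    exact hBv N
  choose B hB using hi
  refine ⟨∑ i, B i, fun N => ?_⟩
  unfold INT.intX
  rw [← hP]
  exact Finset.sum_le_sum fun i _ => hB i N

/-- multiplication of a section by `exp (-f)` -/
theorem isSec_exp {f : X → ℝ} (hf : Smooth (d := d) f) {g : Fam d X ι} (hg : IsSec L g) :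
    IsSec L (fun i e z => (Real.exp (-f (e.symm z)) : ℂ) • g i e z) where
  smooth i e x hx hi I := by
    have h1 := (hf e x hx)
    have h2 : ContDiffAt ℝ ∞ (fun z => (Real.exp (-f (e.symm z)) : ℂ)) (e x) :=
      Complex.ofRealCLM.contDiff.contDiffAt.comp _ (Real.contDiff_exp.contDiffAt.comp _ h1.neg)
    exact h2.mul (hg.smooth i e x hx hi I)
  change i j e e' x hx hx' hi hj := by
    rw [hg.change i j e e' x hx hx' hi hj, hx.left_inv, hx'.left_inv, Matrix.mulVec_smul]

theorem ip_shift {f : X → ℝ} {ρ : ι → X → ℝ} {w : Chart d X → Cm d → Matrix (Fin d) (Fin d) ℂ}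
    (a b : Fam d X ι) :
    H862.ip L (fun i x => ρ i x + f x) w a b =
      H862.ip L ρ w a (fun i e z => (Real.exp (-f (e.symm z)) : ℂ) • b i e z) := by
  refine intC_congr fun i e x hx hi => ?_
  show hw (fun z => ρ i (e.symm z) + f (e.symm z)) (w e) (e x) (a i e (e x)) (b i e (e x)) =
    hw (fun z => ρ i (e.symm z)) (w e) (e x) (a i e (e x))
      ((Real.exp (-f (e.symm (e x))) : ℂ) • b i e (e x))
  unfold hw hp
  rw [pr_smul_right]
  simp only []
  rw [neg_add, Real.exp_add, Complex.conj_ofReal]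
  push_cast
  ring

/-- **N3-FIN.** Let `B` have no strong kernel in the parity of `p`, and let `g` be a holomorphic
section of degree `p` such that `⟨g, δ χ⟩ → 0` for all smooth `χ` with respect to weights
`B.ρ + f N`, `f N` bounded above with `exp (-2 f N)` locally uniformly integrable.
Then `g = 0`. -/
theorem fin_zero {α : Type*} {l : Filter α} [l.NeBot] (B : HB d X ι) {p : ℕ} {σ : ℤˣ}
    (hσ : (-1) ^ p = σ) (hsk : B.ell.sk σ = ⊥) {f : α → X → ℝ}
    (hf : ∀ N, Smooth (d := d) (f N)) {C₁ : ℝ} (hC : ∀ N x, f N x ≤ C₁)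
    (hexp : ∀ e ∈ atlas (Cm d) X, ∀ S : Set (Cm d), IsCompact S → S ⊆ e.target →
      ∃ b : ℝ≥0∞, b ≠ ⊤ ∧ ∀ N,
        ∫⁻ z in S, ENNReal.ofReal (Real.exp (-(2 * f N (e.symm z)))) ≤ b)
    {g : Fam d X ι} (hg : H897.IsHol B.L g)
    (hp : ∀ i e x, At e x → x ∈ B.L.U i → ∀ I : FI d, I.card ≠ p → g i e (e x) I = 0)
    (hweak : ∀ χ : Fam d X ι, IsSec B.L χ →
      Tendsto (fun N => H862.ip B.L (fun i x => B.ρ i x + f N x) B.w g (dX B.w χ)) l (𝓝 0)) :
    ∀ i e x, At e x → x ∈ B.L.U i → g i e (e x) = 0 := by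
  set s : B.S := HB.mkS g hg.isSec with hs
  have hGsec : ∀ N, IsSec B.L (fun i e z => (Real.exp (-f N (e.symm z)) : ℂ) • g i e z) :=
    fun N => isSec_exp (hf N) hg.isSec
  set G : α → B.S := fun N => HB.mkS _ (hGsec N) with hG
  have hρN : ∀ N, IsMetric B.L (fun i x => B.ρ i x + f N x) := fun N =>
    H794.isMetric_add B.metric (hf N)
  -- the functional
  have hfun : ∀ N (χ : B.S), inner ℂ (G N) χ =
      H862.ip B.L (fun i x => B.ρ i x + f N x) B.w χ.f g := by
    intro N χ
    rw [HB.inner_eq, ip_shift]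
    exact HB.ipB_congr (fun _ _ _ _ _ => rfl) fun i e x hx hi => HB.mkS_at (hGsec N) hx hi
  -- the bound
  obtain ⟨C, hCb⟩ : ∃ C : ℝ, ∀ N, ‖G N‖ ^ 2 ≤ C := by
    have hD := (B.dens hg.isSec hg.isSec).isDensity_re
    obtain ⟨C, hC⟩ := intX_exp_bound (α := α) hD (fun e x hx => by
      rw [reD_eq (B.dens hg.isSec hg.isSec) hx (mem_ix B.L x)]
      exact hw_nonneg (kat B.kahler hx) _) (v := fun N x => 2 * f N x)
      (fun N => Smooth.const_mul _ (hf N)) hexp
    refine ⟨C, fun N => ?_⟩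
    refine le_trans (le_of_eq ?_) (hC N)
    rw [HB.norm_sq_eq]
    have e1 : B.ipB (G N).f (G N).f = H862.ip B.L B.ρ B.w
        (fun i e z => (Real.exp (-f N (e.symm z)) : ℂ) • g i e z)
        (fun i e z => (Real.exp (-f N (e.symm z)) : ℂ) • g i e z) :=
      HB.ipB_congr (fun i e x hx hi => HB.mkS_at (hGsec N) hx hi)
        fun i e x hx hi => HB.mkS_at (hGsec N) hx hi
    rw [e1]
    show (intC B.L _).re = _
    rw [H862.intC_re]
    refine INT.intX_congr fun e x hx => ?_
    simp only [reD]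
    show (hw _ _ _ ((Real.exp (-f N (e.symm (e x))) : ℂ) • _)
      ((Real.exp (-f N (e.symm (e x))) : ℂ) • _)).re = _ * (hw _ _ _ _ _).re
    rw [hw_smul_left, hw_smul_right, Complex.conj_ofReal]
    have e2 : Real.exp (-(2 * f N (e.symm (e x)))) =
        Real.exp (-f N (e.symm (e x))) * Real.exp (-f N (e.symm (e x))) := by
      rw [← Real.exp_add]; ring_nf
    rw [e2, ← Complex.re_ofReal_mul]
    congr 1
    push_cast
    ring
  have hC0 : 0 ≤ C := by
    obtain ⟨N⟩ : Nonempty α := l.nonempty_of_neBot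
    exact (sq_nonneg _).trans (hCb N)
  have hGn : ∀ N, ‖G N‖ ≤ Real.sqrt C := fun N => Real.le_sqrt_of_sq_le (hCb N)
  -- the lower bound
  have hlow : ∀ N, Real.exp (-C₁) * ‖s‖ ^ 2 ≤ (inner ℂ (G N) s : ℂ).re := by
    intro N
    rw [hfun N s, HB.norm_sq_eq]
    have e1 : B.ipB s.f s.f = H862.ip B.L B.ρ B.w s.f s.f := rfl
    have hD0 := B.dens s.isSec s.isSec
    have hD1 : IsDens B.L (hX (fun i x => B.ρ i x + f N x) B.w s.f g) :=
      s.isSec.isDens_hX (hρN N) B.kahler hg.isSec
    have e2 : Real.exp (-C₁) * (H862.ip B.L B.ρ B.w s.f s.f).re =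
        (intC B.L (fun i e z => ((Real.exp (-C₁) : ℝ) : ℂ) * hX B.ρ B.w s.f s.f i e z)).re := by
      rw [intC_const_mul hD0, Complex.re_ofReal_mul]
      rfl
    rw [e1, e2]
    refine intC_re_mono (hD0.const_mul _) hD1 fun i e x hx hi => ?_
    have e3 : s.f i e (e x) = g i e (e x) := HB.mkS_at hg.isSec hx hi
    show (((Real.exp (-C₁) : ℝ) : ℂ) * hw (wt B.ρ i e) (B.w e) (e x) (s.f i e (e x))
      (s.f i e (e x))).re ≤ (hw (fun z => B.ρ i (e.symm z) + f N (e.symm z)) (B.w e) (e x)
      (s.f i e (e x)) (g i e (e x))).re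
    rw [e3]
    unfold hw
    rw [neg_add, Real.exp_add, ← mul_assoc]
    have h1 := hw_nonneg (f := fun _ => 0) (kat B.kahler hx) (g i e (e x))
    unfold hw at h1
    simp only [neg_zero, Real.exp_zero, Complex.ofReal_one, one_mul] at h1
    rw [← Complex.ofReal_mul, Complex.re_ofReal_mul, Complex.re_ofReal_mul]
    refine mul_le_mul_of_nonneg_right ?_ h1
    show Real.exp (-C₁) * Real.exp (-B.ρ i (e.symm (e x))) ≤
      Real.exp (-B.ρ i (e.symm (e x))) * Real.exp (-f N (e.symm (e x)))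
    rw [mul_comm]
    refine mul_le_mul_of_nonneg_left ?_ (Real.exp_pos _).le
    exact Real.exp_le_exp.2 (neg_le_neg (hC N _))
  -- the conclusion
  have hzero : s = 0 := by
    by_contra hne
    have hpos : 0 < ‖s‖ := norm_pos_iff.2 hne
    set q : ℝ := Real.exp (-C₁) * ‖s‖ ^ 2 with hq
    have hqpos : 0 < q := by positivity
    obtain ⟨v, hv1, hv2⟩ := HL hσ hsk (dg_of_homog hg.isSec hp) (Dd_of_isHol hg)
      (ε := q / (4 * (Real.sqrt C + 1))) (by positivity)
    have h1 : Tendsto (fun N => inner ℂ (G N) (B.Dd v)) l (𝓝 0) := by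
      have h2 := (hweak v.f v.isSec)
      have h3 := (Complex.continuous_conj.tendsto (0 : ℂ)).comp h2
      rw [map_zero] at h3
      refine h3.congr fun N => ?_
      simp only [Function.comp_apply]
      rw [hfun, ip_conj B.kahler]
      refine intC_congr fun i e x hx hi => ?_
      show hw _ _ _ (dX B.w v.f i e (e x)) (g i e (e x)) =
        hw _ _ _ ((B.Dd v).f i e (e x)) (g i e (e x))
      rw [HB.Dd_at v hx hi]
      rfl
    have h2 : ∀ᶠ N in l, ‖inner ℂ (G N) (B.Dd v)‖ < q / 2 := by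
      have := (tendsto_zero_iff_norm_tendsto_zero.1 h1).eventually (gt_mem_nhds (by positivity :
        (0 : ℝ) < q / 2))
      exact this
    obtain ⟨N, hN⟩ := h2.exists
    have h3 : (inner ℂ (G N) s : ℂ) = inner ℂ (G N) (B.Dd v) - inner ℂ (G N) (B.Dd v - s) := by
      rw [inner_sub_right]; ring
    have h4 : ‖(inner ℂ (G N) (B.Dd v - s) : ℂ)‖ ≤ q / 4 := by
      refine (norm_inner_le_norm _ _).trans ?_
      calc ‖G N‖ * ‖B.Dd v - s‖ ≤ (Real.sqrt C + 1) * (q / (4 * (Real.sqrt C + 1))) :=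
            mul_le_mul ((hGn N).trans (by linarith)) hv2 (norm_nonneg _) (by positivity)
        _ = q / 4 := by field_simp
    have h5 : (inner ℂ (G N) s : ℂ).re < q := by
      calc (inner ℂ (G N) s : ℂ).re ≤ ‖(inner ℂ (G N) s : ℂ)‖ := Complex.re_le_norm _
        _ ≤ ‖(inner ℂ (G N) (B.Dd v) : ℂ)‖ + ‖(inner ℂ (G N) (B.Dd v - s) : ℂ)‖ := by
            rw [h3]; exact norm_sub_le _ _
        _ < q := by linarith
    exact absurd (hlow N) (not_le.2 h5)
  intro i e x hx hi
  have h1 : s.f i e (e x) = g i e (e x) := HB.mkS_at hg.isSec hx hi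
  rw [← h1, hzero]
  rfl

end Vale.Agent.P301.H949
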