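import Vale.Agent.P301.H949.Num
import Vale.Agent.P301.H951.PTEnd
import Vale.Agent.P301.H724.Phi3

/-!
# P301: limits at weight one, in all degrees
-/

open Filter Metric Set MeasureTheory Topology
open scoped ENNReal ComplexOrder Matrix ComplexConjugate Manifold ContDiff

set_option linter.all false

noncomputable section

namespace Vale.Agent.P301.H949

open Vale.Agent.P272.K Vale.Agent.P272.K.C2 Vale.Agent.P299.IX Vale.Agent.P299.IX.Fock
open Vale.Agent.P301.H85 Vale.Agent.P301.H599 Vale.Agent.P301.H862 Vale.Agent.P299.H954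
open Vale.Agent.P301.H103
open Vale.Agent.P301.H897 (LamF)
open Vale.Agent.P301.H724 (Nz Homog LinInd)
open Vale.Agent.P301.H951 Vale.Agent.P301.H794

variable {d : ℕ} {X : Type} [TopologicalSpace X] [ChartedSpace (Cm d) X]
variable {ι : Type} {L : LineBundle d X ι}
variable {w s : Fm d X} {ρ : ι → X → ℝ} {F : X → X}

/-- the dimension of the strong kernel in degree `p` at weight one -/
def rk [IsManifold 𝓘(ℂ, Cm d) ω X] [T2Space X] [CompactSpace X] (B : HB d X ι) (p : ℕ) : ℕ :=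
  if p ∈ Finset.range (d + 1) then Module.finrank ℂ (skd (B.pow 1).grading p) else 0

/-- The strong kernels in degree `p` have the same dimension for all metrics. -/
def RankInd (L : LineBundle d X ι) [IsManifold 𝓘(ℂ, Cm d) ω X] [T2Space X] [CompactSpace X] :
    Prop :=
  ∀ B B' : HB d X ι, B.L = L → B'.L = L → ∀ p ∈ Finset.range (d + 1),
    Module.finrank ℂ (skd B'.grading p) = Module.finrank ℂ (skd B.grading p)

/-- Limit forms of weight one. `u p a`, `a : Fin (r p)`, are independent holomorphic sections of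
`Λ^p ⊗ L`, limits of approximate kernel elements for the metrics `ρ + φN N`, and at every point `n`
independent covectors annihilate all of them. -/
structure Lim1 (F : X → X) (L : LineBundle d X ι) (ρ : ι → X → ℝ) (w : Fm d X) (n Q : ℕ)
    [IsManifold 𝓘(ℂ, Cm d) ω X] [T2Space X] [CompactSpace X]
    (r : ℕ → ℕ) (φN : ℕ → X → ℝ) (φ : X → ℝ) (ε : ℕ → ℝ) (u : ∀ p, Fin (r p) → Fam d X ι) :
    Prop where
  eps : ∀ N, 0 < ε N
  eps0 : Tendsto ε (hyperfilter ℕ : Filter ℕ) (𝓝 0)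
  cy : ∃ (δ C C₁ c₀ K : ℝ) (τ : ℕ → Fm d X), 0 < δ ∧ 0 ≤ C ∧ 0 < c₀ ∧
    ∀ N, CYApprox F L ρ w n 1 δ C C₁ c₀ K (ε N) (φN N) (τ N)
  wlim : ∀ lam : ℕ, lam ≤ Q → WLim d (hyperfilter ℕ : Filter ℕ)
    (fun N x => (lam : ℝ) * φN N x) fun x => (lam : ℝ) * φ x
  sec : ∀ p a, H724.IsSec L LamF 1 (u p a)
  hom : ∀ p a, Homog L p (u p a)
  lin : ∀ p, LinInd L (u p)
  ann : ∀ i e x, At e x → x ∈ L.U i →
    n ≤ Module.finrank ℂ (ann fun y : Σ p, Fin (r p) => u y.1 y.2 i e (e x))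
  lim : ∀ p a, ∃ g, IsLim (hyperfilter ℕ : Filter ℕ) L w ρ φN ε 1 p g (u p a)

variable [IsManifold 𝓘(ℂ, Cm d) ω X] [T2Space X] [CompactSpace X]

theorem Lim1.ann_deg {n Q : ℕ} {r : ℕ → ℕ} {φN : ℕ → X → ℝ} {φ : X → ℝ} {ε : ℕ → ℝ}
    {u : ∀ p, Fin (r p) → Fam d X ι} (h : Lim1 F L ρ w n Q r φN φ ε u) (p : ℕ) (i : ι)
    (e : Chart d X) (x : X) (hx : At e x) (hi : x ∈ L.U i) :
    n ≤ Module.finrank ℂ (H951.ann fun b => u p b i e (e x)) :=
  (h.ann i e x hx hi).trans (finrank_ann_comp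
    (fun y : Σ p, Fin (r p) => u y.1 y.2 i e (e x)) fun b => ⟨p, b⟩)

theorem good_zero (L : LineBundle d X ι) (w : Fm d X) (ρ : ι → X → ℝ) (q p : ℕ) (ε : ℝ) :
    Good L w ρ q p 0 ε :=
  ⟨fun a => a.elim0, fun a => a.elim0, fun a => a.elim0, fun a => a.elim0, fun a => a.elim0⟩

/-- **LIM1.** -/
theorem exists_lim1 [SimplyConnectedSpace X] (hs : IsSymplectic d X w s) (hρ : IsMetric L ρ)
    {n : ℕ} (hd : d = 2 * n) (hn : 0 < n) (hCY : ∀ p : ℝ, 0 ≤ p → CYStatement F L ρ w n 1 p)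
    (hInd : RankInd (powL L 1)) (Q : ℕ) :
    ∃ (φN : ℕ → X → ℝ) (φ : X → ℝ) (ε : ℕ → ℝ)
      (u : ∀ p, Fin (rk (⟨L, ρ, w, hρ, hs.kahler⟩ : HB d X ι) p) → Fam d X ι),
      Lim1 F L ρ w n Q (rk (⟨L, ρ, w, hρ, hs.kahler⟩ : HB d X ι)) φN φ ε u := by
  set B₀ : HB d X ι := ⟨L, ρ, w, hρ, hs.kahler⟩ with hB₀
  set P : ℝ := (2 * d + 1) * ((Q : ℝ) + 1) with hP
  have hd1 : (1 : ℝ) ≤ d := by exact_mod_cast (by omega : 1 ≤ d)
  have hQ0 : (0 : ℝ) ≤ Q := Nat.cast_nonneg Q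
  have hPpos : 0 < P := by positivity
  obtain ⟨δ, C, C₁, c₀, K, hδ, hδ1, hC, hc₀, φ, τ, hA, hexp⟩ := hCY P hPpos.le
  have hη0 : ∀ N : ℕ, (0 : ℝ) < 1 / ((N : ℝ) + 1) := fun N => by positivity
  have hη1 : ∀ N : ℕ, (1 : ℝ) / ((N : ℝ) + 1) ≤ 1 := fun N => by
    have h2 : (0 : ℝ) ≤ N := Nat.cast_nonneg _
    rw [div_le_one (by positivity)]
    linarith
  have hηt : Tendsto (fun N : ℕ => (1 : ℝ) / ((N : ℝ) + 1)) atTop (𝓝 0) :=
    tendsto_one_div_add_atTop_nhds_zero_nat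
  have hexp' : ∀ f : ℕ → ℝ, (∀ N, 0 < f N) → (∀ N, f N ≤ 1) → ∀ e ∈ atlas (Cm d) X,
      ∀ S : Set (Cm d), IsCompact S → S ⊆ e.target → ∃ B : ℝ≥0∞, B ≠ ⊤ ∧ ∀ N : ℕ,
        ∫⁻ z in S, ENNReal.ofReal (Real.exp (-(P * φ (f N) (e.symm z)))) ≤ B := by
    intro f hf0 hf1 e he S hS hSe
    obtain ⟨B, hB, hB'⟩ := hexp e he S hS hSe
    exact ⟨B, hB, fun N => hB' _ (hf0 N) (hf1 N)⟩
  -- the limit weight
  obtain ⟨ψ, hψ, φL, hW⟩ := H724.exists_wlim hs.kahler hρ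
    (v := fun N : ℕ => φ (1 / ((N : ℝ) + 1))) (fun N => (hA _ (hη0 N) (hη1 N)).smooth)
    (C₁ := C₁) (fun N => (hA _ (hη0 N) (hη1 N)).upper) (a := C) (fun N i e x hx hi => by
      have hAN := hA _ (hη0 N) (hη1 N)
      have h1 := curv_pow hρ hAN le_rfl i e x hx hi
      have h2 := (hAN.kahler.posDef e x hx).posSemidef
      have h3 := (hs.kahler.posDef e x hx).posSemidef
      have h4 := (h1.add (h2.smul (Complex.zero_le_real.2 hδ.le))).add
        (h3.smul (Complex.zero_le_real.2 (mul_nonneg hC (sub_nonneg.2 (hη1 N)))))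
      set ε : ℝ := 1 / ((N : ℝ) + 1) with hε
      have e1 : (fun z => ((1 : ℕ) : ℝ) * ρ i (e.symm z) + ((1 : ℕ) : ℝ) * φ ε (e.symm z)) =
          fun z => ρ i (e.symm z) + φ ε (e.symm z) := by
        funext z; simp
      have e2 : cHess (fun z => ρ i (e.symm z) + φ ε (e.symm z)) (e x) + (C : ℂ) • w e (e x) =
          cHess (fun z => ((1 : ℕ) : ℝ) * ρ i (e.symm z) + ((1 : ℕ) : ℝ) * φ ε (e.symm z)) (e x) +
            ((((1 : ℕ) : ℝ) * C * ε : ℝ) : ℂ) • w e (e x) -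
            ((((1 : ℕ) : ℝ) * δ : ℝ) : ℂ) • τ ε e (e x) + (δ : ℂ) • τ ε e (e x) +
            ((C * (1 - ε) : ℝ) : ℂ) • w e (e x) := by
        rw [e1]
        push_cast
        module
      rw [e2]
      exact h4) hPpos (hexp' _ hη0 hη1)
  set ε : ℕ → ℝ := fun N => 1 / ((ψ N : ℝ) + 1) with hε
  have hε0 : ∀ N, 0 < ε N := fun N => hη0 (ψ N)
  have hε1 : ∀ N, ε N ≤ 1 := fun N => hη1 (ψ N)
  have hεt : Tendsto ε atTop (𝓝 0) := hηt.comp hψ.tendsto_atTop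
  have hAN : ∀ N, CYApprox F L ρ w n 1 δ C C₁ c₀ K (ε N) (φ (ε N)) (τ (ε N)) := fun N =>
    hA _ (hε0 N) (hε1 N)
  have hm : ∀ N, IsMetric L fun i x => ρ i x + φ (ε N) x := fun N => isMetric_add hρ (hAN N).smooth
  have hG : ∀ (p : ℕ) N, Good L w (fun i x => ρ i x + φ (ε N) x) 1 p (rk B₀ p) (ε N) := by
    intro p N
    by_cases hp : p ∈ Finset.range (d + 1)
    · set B : HB d X ι := cyB L ρ w (φ (ε N)) (hm N) hs.kahler with hB
      have hf := finite_skd_pow B 1 hp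
      have h1 : rk B₀ p ≤ Module.finrank ℂ (skd (B.pow 1).grading p) := by
        rw [rk, if_pos hp]
        exact (hInd (B.pow 1) (B₀.pow 1) rfl rfl p hp).le
      exact good_of_finrank B 1 h1 (hε0 N)
    · have h1 : rk B₀ p = 0 := by rw [rk, if_neg hp]
      rw [h1]
      exact good_zero L w _ 1 p _
  obtain ⟨g, u, h1, h2, h3, h4, h5⟩ := cy_limits (F := F) (n := n) (τ := fun N => τ (ε N))
    (φ := fun N => φ (ε N)) hs.kahler hρ hε0 hε1 hεt
    (by omega) (by omega) hδ hC hc₀ hAN (hexp' _ hε0 hε1) (hyperfilter ℕ)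
    Nat.hyperfilter_le_atTop (κ := ℕ) (q := fun _ => 1) (p := fun p => p) (r := rk B₀)
    (fun _ => le_rfl) (fun _ => by
      rw [hP]
      exact mul_le_mul_of_nonneg_left (by push_cast; linarith) (by positivity)) hG
  refine ⟨fun N => φ (ε N), φL, ε, u, hε0, hεt.mono_left Nat.hyperfilter_le_atTop,
    ⟨δ, C, C₁, c₀, K, fun N => τ (ε N), hδ, hC, hc₀, hAN⟩, fun lam hlam => ?_, h2,
    fun p a => (h1 p a).homog, h3, fun i e x hx hi => ?_, fun p a => ⟨_, h1 p a⟩⟩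
  · have hl : (lam : ℝ) ≤ Q := by exact_mod_cast hlam
    have h6 := hW (lam : ℝ) (Nat.cast_nonneg _) (by
      rw [hP]
      nlinarith)
    exact ⟨h6.int, fun e he K hK hKe => (h6.lim e he K hK hKe).mono_left
      Nat.hyperfilter_le_atTop⟩
  · exact (h5 e x hx).trans (finrank_ann_comp
      (fun y : {y : (Σ c, Fin (rk B₀ c)) × ι // x ∈ L.U y.2} => u y.1.1.1 y.1.1.2 y.1.2 e (e x))
      fun y => ⟨(y, i), hi⟩)

end Vale.Agent.P301.H949
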