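import Vale.Agent.P301.H949.Iso
import Vale.Agent.P267.H368.Cover

/-! P301, H949: holomorphic logarithms, conjugate functions and constants on convex charts. -/

open scoped Manifold ContDiff ComplexOrder Topology
open Filter Metric Set Complex

set_option linter.all false

noncomputable section

namespace Vale.Agent.P301.H949

open Vale.Agent.P272.K Vale.Agent.P301.H599

variable {d : ℕ} {X : Type} [TopologicalSpace X] [ChartedSpace (Cm d) X] {ι κ : Type}

/-- a real function with vanishing complex Hessian on a convex open set is a real part -/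
theorem exists_re {φ : Cm d → ℝ} {U : Set (Cm d)} (hU : IsOpen U) (hc : Convex ℝ U)
    (hφ : ∀ z ∈ U, ContDiffAt ℝ 2 φ z) (h0 : ∀ z ∈ U, cHess φ z = 0) :
    ∃ F : Cm d → ℂ, DifferentiableOn ℂ F U ∧ ∀ z ∈ U, (F z).re = φ z := by
  have hF : ∀ z ∈ U, ContDiffAt ℝ 2 (fun y => (φ y : ℂ)) z := fun z hz =>
    ofReal_contDiffAt (hφ z hz)
  have h1 := Vale.Agent.P288.BQ.X4b.pluriharmonicOn_of_deriv2 hU hc
    (fun z hz => (hF z hz).contDiffWithinAt)
    (fun z hz v w => Vale.Agent.P299.H720.fderiv2_add_I (hF z hz) (by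
      intro i j
      have := congrFun (congrFun (h0 z hz) i) j
      rwa [cHess_apply] at this) v w)
  obtain ⟨F, hF1, hF2⟩ := h1.exists_re
  exact ⟨F, hF1, fun z hz => by rw [← hF2 z hz, ofReal_re]⟩

/-- holomorphic logarithm on a convex open set -/
theorem exists_log {g : Cm d → ℂ} {U : Set (Cm d)} (hU : IsOpen U) (hc : Convex ℝ U)
    (hg : DifferentiableOn ℂ g U) (h0 : ∀ z ∈ U, g z ≠ 0) :
    ∃ l : Cm d → ℂ, DifferentiableOn ℂ l U ∧ ∀ z ∈ U, exp (l z) = g z := by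
  rcases U.eq_empty_or_nonempty with hE | ⟨z₀, hz₀⟩
  · exact ⟨fun _ => 0, differentiableOn_const _, by simp [hE]⟩
  have hga : ∀ z ∈ U, ContDiffAt ℂ ω g z := fun z hz =>
    Vale.Agent.P299.H720.contDiffAt_of_diffOn hU hg hz
  obtain ⟨F, hF1, hF2⟩ := exists_re (φ := fun z => Real.log (‖g z‖ ^ 2)) hU hc
    (fun z hz => by
      have h4 : ContDiffAt ℝ 2 g z := ((hga z hz).restrict_scalars ℝ).of_le le_top
      exact (h4.norm_sq ℝ).log (pow_ne_zero 2 (norm_ne_zero_iff.2 (h0 z hz))))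
    (fun z hz => cHess_log_norm_sq (hga z hz) (h0 z hz))
  have hs : DifferentiableOn ℂ (fun z => exp (F z * (1 / 2 : ℂ))) U :=
    (hF1.mul_const (1 / 2 : ℂ)).cexp
  have hn : ∀ z ∈ U, ‖g z‖ = ‖exp (F z * (1 / 2 : ℂ))‖ := by
    intro z hz
    have h5 : ‖g z‖ ^ 2 = ‖exp (F z * (1 / 2 : ℂ))‖ ^ 2 := by
      have h6 : 0 < ‖g z‖ ^ 2 := by have := h0 z hz; positivity
      rw [norm_exp, ← Real.exp_nat_mul]
      have h7 : ((2 : ℕ) : ℝ) * (F z * (1 / 2 : ℂ)).re = Real.log (‖g z‖ ^ 2) := by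
        rw [← hF2 z hz]
        simp only [one_div, mul_re, inv_re, re_ofNat, normSq_ofNat, inv_im, im_ofNat, neg_zero,
          zero_div, mul_zero, sub_zero, Nat.cast_ofNat]
        ring
      rw [h7, Real.exp_log h6]
    exact (pow_left_inj₀ (norm_nonneg _) (norm_nonneg _) two_ne_zero).1 h5
  have h1 := Vale.Agent.P299.H720.eq_const_mul_of_norm_eq hU hc.isPreconnected hs hg
    (fun z _ => exp_ne_zero _) hn hz₀
  set c : ℂ := g z₀ / exp (F z₀ * (1 / 2 : ℂ)) with hcdef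
  have hc0 : c ≠ 0 := div_ne_zero (h0 z₀ hz₀) (exp_ne_zero _)
  refine ⟨fun z => log c + F z * (1 / 2 : ℂ), (hF1.mul_const (1 / 2 : ℂ)).const_add _,
    fun z hz => ?_⟩
  rw [exp_add, exp_log hc0, h1 z hz]

/-- a holomorphic function with vanishing real part on a convex open set is constant -/
theorem const_of_re_zero {D : Cm d → ℂ} {U : Set (Cm d)} (hU : IsOpen U) (hc : Convex ℝ U)
    (hD : DifferentiableOn ℂ D U) (h0 : ∀ z ∈ U, (D z).re = 0) {z w : Cm d} (hz : z ∈ U)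
    (hw : w ∈ U) : D z = D w := by
  refine hU.is_const_of_fderiv_eq_zero (𝕜 := ℂ) hc.isPreconnected hD ?_ hz hw
  intro y hy
  have hdy : DifferentiableAt ℂ D y := (hD y hy).differentiableAt (hU.mem_nhds hy)
  have h1 : HasFDerivAt (fun x => (D x).re) (Complex.reCLM.comp
      ((fderiv ℂ D y).restrictScalars ℝ)) y :=
    Complex.reCLM.hasFDerivAt.comp y (hdy.hasFDerivAt.restrictScalars ℝ)
  have h2 : (fun x => (D x).re) =ᶠ[𝓝 y] fun _ => (0 : ℝ) := by
    filter_upwards [hU.mem_nhds hy] with x hx using h0 x hx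
  have h3 : HasFDerivAt (fun x => (D x).re) (0 : Cm d →L[ℝ] ℝ) y :=
    (hasFDerivAt_const (0 : ℝ) y).congr_of_eventuallyEq h2
  have h4 := h1.unique h3
  have h5 : ∀ v, (fderiv ℂ D y v).re = 0 := fun v => by
    have := congrArg (fun T : Cm d →L[ℝ] ℝ => T v) h4
    simpa using this
  ext v
  have h6 := h5 v
  have h7 := h5 (-(I • v))
  rw [map_neg, map_smul, neg_re, smul_eq_mul, mul_re, I_re, I_im] at h7
  simp only [Pi.zero_apply, ContinuousLinearMap.zero_apply]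
  exact Complex.ext h6 (by simp only [zero_im]; linarith)

variable [IsManifold 𝓘(ℂ, Cm d) ω X]

/-- a set which is convex in the chart `e` -/
structure Cvx (e : Chart d X) (W : Set X) : Prop where
  mem : e ∈ atlas (Cm d) X
  sub : W ⊆ e.source
  opn : IsOpen (e '' W)
  cvx : Convex ℝ (e '' W)

namespace Cvx

variable {e : Chart d X} {W : Set X}

lemma at_ (h : Cvx e W) {x : X} (hx : x ∈ W) : At e x := ⟨h.mem, h.sub hx⟩

lemma symm_mem (h : Cvx e W) {z : Cm d} (hz : z ∈ e '' W) : e.symm z ∈ W ∧ e (e.symm z) = z := by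
  obtain ⟨x, hx, rfl⟩ := hz
  rw [e.left_inv (h.sub hx)]
  exact ⟨hx, rfl⟩

lemma diff (h : Cvx e W) {f : X → ℂ} (hf : ∀ x ∈ W, Hol d f x) :
    DifferentiableOn ℂ (fun z => f (e.symm z)) (e '' W) := by
  intro z hz
  obtain ⟨h1, h2⟩ := h.symm_mem hz
  have h3 := hf _ h1 e (h.at_ h1)
  rw [h2] at h3
  exact h3.differentiableAt.differentiableWithinAt

lemma hol (h : Cvx e W) {l : Cm d → ℂ} (hl : DifferentiableOn ℂ l (e '' W)) {x : X} (hx : x ∈ W) :
    Hol d (fun y => l (e y)) x := by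
  refine Hol.of_chart (h.at_ hx) ?_
  have h1 : (fun z => l (e (e.symm z))) =ᶠ[𝓝 (e x)] l := by
    filter_upwards [(h.at_ hx).nhds_target] with z hz
    rw [e.right_inv hz]
  exact (Vale.Agent.P299.H720.contDiffAt_of_diffOn h.opn hl (mem_image_of_mem e hx)).analyticAt.congr
    h1.symm

theorem exists_log (h : Cvx e W) {g : X → ℂ} (hg : ∀ x ∈ W, Hol d g x) (h0 : ∀ x ∈ W, g x ≠ 0) :
    ∃ l : X → ℂ, (∀ x ∈ W, Hol d l x) ∧ ∀ x ∈ W, exp (l x) = g x := by
  obtain ⟨l, hl1, hl2⟩ := H949.exists_log h.opn h.cvx (h.diff hg) (fun z hz =>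
    h0 _ (h.symm_mem hz).1)
  refine ⟨fun x => l (e x), fun x hx => h.hol hl1 hx, fun x hx => ?_⟩
  rw [hl2 _ (mem_image_of_mem e hx), e.left_inv (h.sub hx)]

theorem exists_re (h : Cvx e W) {φ : X → ℝ}
    (hφ : ∀ x ∈ W, ContDiffAt ℝ 2 (fun z => φ (e.symm z)) (e x))
    (h0 : ∀ x ∈ W, cHess (fun z => φ (e.symm z)) (e x) = 0) :
    ∃ F : X → ℂ, (∀ x ∈ W, Hol d F x) ∧ ∀ x ∈ W, (F x).re = φ x := by
  obtain ⟨F, hF1, hF2⟩ := H949.exists_re (φ := fun z => φ (e.symm z)) h.opn h.cvx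
    (by rintro _ ⟨x, hx, rfl⟩; exact hφ x hx) (by rintro _ ⟨x, hx, rfl⟩; exact h0 x hx)
  refine ⟨fun x => F (e x), fun x hx => h.hol hF1 hx, fun x hx => ?_⟩
  rw [hF2 _ (mem_image_of_mem e hx), e.left_inv (h.sub hx)]

theorem const_of_re_zero (h : Cvx e W) {D : X → ℂ} (hD : ∀ x ∈ W, Hol d D x)
    (h0 : ∀ x ∈ W, (D x).re = 0) {x y : X} (hx : x ∈ W) (hy : y ∈ W) : D x = D y := by
  have h1 := H949.const_of_re_zero h.opn h.cvx (h.diff hD) (fun z hz => h0 _ (h.symm_mem hz).1)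
    (mem_image_of_mem e hx) (mem_image_of_mem e hy)
  simp only [e.left_inv (h.sub hx), e.left_inv (h.sub hy)] at h1
  exact h1

end Cvx

/-- a finite cover by open sets, convex in charts together with their pairwise intersections, and
subordinate to a given cover -/
theorem exists_cover [CompactSpace X] [T2Space X] {K : Type} (V : K → Set X)
    (hV : ∀ k, IsOpen (V k)) (hVc : ∀ x, ∃ k, x ∈ V k) :
    ∃ (n : ℕ) (U : Fin n → Set X) (k : Fin n → K) (e : Fin n → Chart d X),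
      (∀ a, IsOpen (U a)) ∧ (∀ x, ∃ a, x ∈ U a) ∧ (∀ a, U a ⊆ V (k a)) ∧
      (∀ a, Cvx (e a) (U a)) ∧ ∀ a b, (U a ∩ U b).Nonempty → Cvx (e a) (U a ∩ U b) := by
  obtain ⟨G, hG⟩ := Vale.Agent.P267.H368.exists_goodCover_manifold (𝕜 := ℂ) (X := X) (E := Cm d)
    (n := ω) (by simp) (PiLp.continuousLinearEquiv 2 ℝ (fun _ : Fin d => ℂ)).symm V hV hVc
  choose k hk using hG
  refine ⟨G.n, G.U, k, G.e, G.isOpen_U, G.exists_mem_U, hk, fun a => ?_, fun a b hab => ?_⟩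
  · refine ⟨G.e_mem a, G.U_sub_source a, ?_, ?_⟩
    · rw [G.image_U]; exact Vale.Agent.P267.H368.isOpen_aball _ _ _
    · rw [G.image_U]; exact Vale.Agent.P267.H368.convex_aball _ _ _
  · have h1 := G.inter_convex (s := {a, b}) (i := a) (by simp) (by simpa using hab)
    have h2 : (⋂ j ∈ ({a, b} : Finset (Fin G.n)), G.U j) = G.U a ∩ G.U b := by simp
    rw [h2] at h1
    exact ⟨G.e_mem a, fun x hx => G.U_sub_source a hx.1, h1.2.2, h1.2.1⟩

end Vale.Agent.P301.H949
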