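import Vale.Agent.P301.H949.CInd
import Vale.Agent.P301.H395.Tens5

/-!
# P301: no parallel combinations of independent sections with a common annihilator
-/

open Filter Metric Set MeasureTheory Topology
open scoped ENNReal ComplexOrder Matrix ComplexConjugate Manifold ContDiff

set_option linter.all false

noncomputable section

namespace Vale.Agent.P301.H949

open Vale.Agent.P272.K Vale.Agent.P272.K.C2 Vale.Agent.P299.IX Vale.Agent.P299.IX.Fock
open Vale.Agent.P301.H85 Vale.Agent.P301.H599 Vale.Agent.P301.H862 Vale.Agent.P299.H954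
open Vale.Agent.P301.H897 (LamF)
open Vale.Agent.P301.H724 (Nz Homog Prop2 LinInd)

variable {d : ℕ} {X : Type} [TopologicalSpace X] [ChartedSpace (Cm d) X]
  [IsManifold 𝓘(ℂ, Cm d) ω X] [T2Space X] [CompactSpace X] [SimplyConnectedSpace X]
variable {ι : Type} {L : LineBundle d X ι}

/-- If `u, v₁, …, v_r` are independent sections of `Λ^p ⊗ L`, `1 ≤ p < d`, with a common annihilator
at every point, no nonzero combination of the `v_j` is parallel to `u` at all points. -/
theorem noPar_gen {w s : Fm d X} (hs : IsSymplectic d X w s) {ρ : ι → X → ℝ} (hρ : IsMetric L ρ)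
    (hne : ¬ H450.IsExact (curvature L ρ)) (hN : NSLProp L) {p : ℕ} (hp : 1 ≤ p) (hpd : p < d)
    {r : ℕ} {u : ι → Chart d X → Cm d → FI d → ℂ}
    {v : Fin r → ι → Chart d X → Cm d → FI d → ℂ} (hu : H724.IsSec L LamF 1 u)
    (hv : ∀ j, H724.IsSec L LamF 1 (v j)) (huh : Homog L p u) (hvh : ∀ j, Homog L p (v j))
    (hann : ∀ i e x, At e x → x ∈ L.U i → ∃ t : Fin d → ℂ, t ≠ 0 ∧
      epsV t *ᵥ u i e (e x) = 0 ∧ ∀ j, epsV t *ᵥ v j i e (e x) = 0)
    (hli : LinInd L (Fin.cons u v : Fin (r + 1) → ι → Chart d X → Cm d → FI d → ℂ))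
    (c : Fin r → ℂ) (hc : ∀ i (e : Chart d X) x, At e x → x ∈ L.U i → ∀ I J,
      u i e (e x) I * (∑ j, c j • v j i e (e x)) J =
        u i e (e x) J * (∑ j, c j • v j i e (e x)) I) : c = 0 := by
  by_contra hc0
  set y : ι → Chart d X → Cm d → FI d → ℂ := fun i e z => ∑ j, c j • v j i e z with hy
  have hys : H724.IsSec L LamF 1 y := by
    have h1 := H724.IsSec.sum_smul hv c
    have h2 : (fun i e z a => ∑ b, c b * v b i e z a) = y := by
      funext i e z a
      simp only [hy, Finset.sum_apply, Pi.smul_apply, smul_eq_mul]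
    rwa [h2] at h1
  have hyh : Homog L p y := by
    intro i e x hx hi I hI
    simp only [hy, Finset.sum_apply, Pi.smul_apply, smul_eq_mul]
    exact Finset.sum_eq_zero fun j _ => by rw [hvh j i e x hx hi I hI, mul_zero]
  have key := dep_of_par hs hρ hne hN hp hpd (u := ![u, y])
    (fun b => by fin_cases b; exacts [hu, hys]) (fun b => by fin_cases b; exacts [huh, hyh])
    (fun i e x hx hi => by
      obtain ⟨t, ht, h1, h2⟩ := hann i e x hx hi
      refine ⟨t, ht, fun b => ?_⟩
      fin_cases b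
      · exact h1
      · show epsV t *ᵥ (∑ j, c j • v j i e (e x)) = 0
        rw [Matrix.mulVec_sum]
        exact Finset.sum_eq_zero fun j _ => by rw [Matrix.mulVec_smul, h2 j, smul_zero])
    (fun i e x hx hi I J => hc i e x hx hi I J)
  refine key fun t ht => ?_
  have h1 := hli (Fin.cons (t 0) fun j => t 1 * c j) fun i e x hx hi => by
    have h2 := ht i e x hx hi
    rw [Fin.sum_univ_two] at h2
    rw [Fin.sum_univ_succ]
    simp only [Fin.cons_zero, Fin.cons_succ]
    rw [← h2]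
    congr 1
    show ∑ j, (t 1 * c j) • v j i e (e x) = t 1 • ∑ j, c j • v j i e (e x)
    rw [Finset.smul_sum]
    exact Finset.sum_congr rfl fun j _ => mul_smul _ _ _
  have h0 : t 0 = 0 := by simpa using congrFun h1 0
  obtain ⟨j, hj⟩ := Function.ne_iff.1 hc0
  have h2 : t 1 * c j = 0 := by simpa using congrFun h1 j.succ
  have h3 : t 1 = 0 := (mul_eq_zero.1 h2).resolve_right hj
  funext b
  fin_cases b
  · exact h0
  · exact h3

end Vale.Agent.P301.H949

namespace Vale.Agent.P301.H949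

open Vale.Agent.P272.K Vale.Agent.P272.K.C2 Vale.Agent.P299.IX Vale.Agent.P299.IX.Fock
open Vale.Agent.P301.H85 Vale.Agent.P301.H599 Vale.Agent.P301.H862 Vale.Agent.P299.H954
open Vale.Agent.P301.H897 (LamF)
open Vale.Agent.P301.H724 (Nz Homog Prop2 LinInd)

variable {X : Type} [TopologicalSpace X] [ChartedSpace (Cm 6) X]
  [IsManifold 𝓘(ℂ, Cm 6) ω X] [T2Space X] [CompactSpace X] [SimplyConnectedSpace X]
variable {ι : Type} {L : LineBundle 6 X ι}

/-- the same for forms of degree `4` on sixfolds, with `3` independent annihilators -/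
theorem noPar {w s : Fm 6 X} (hs : IsSymplectic 6 X w s) {ρ : ι → X → ℝ} (hρ : IsMetric L ρ)
    (hne : ¬ H450.IsExact (curvature L ρ)) (hN : NSLProp L)
    {r : ℕ} {u : ι → Chart 6 X → Cm 6 → FI 6 → ℂ}
    {v : Fin r → ι → Chart 6 X → Cm 6 → FI 6 → ℂ} (hu : H724.IsSec L LamF 1 u)
    (hv : ∀ j, H724.IsSec L LamF 1 (v j)) (huh : Homog L 4 u) (hvh : ∀ j, Homog L 4 (v j))
    (hann : ∀ i e x, At e x → x ∈ L.U i → ∃ t : Fin 6 → ℂ, t ≠ 0 ∧
      epsV t *ᵥ u i e (e x) = 0 ∧ ∀ j, epsV t *ᵥ v j i e (e x) = 0)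
    (hli : LinInd L (Fin.cons u v : Fin (r + 1) → ι → Chart 6 X → Cm 6 → FI 6 → ℂ)) :
    H395.NoPar L u v :=
  fun c hc => noPar_gen hs hρ hne hN (by norm_num) (by norm_num) hu hv huh hvh hann hli c hc

end Vale.Agent.P301.H949
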