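import Vale.Agent.P301.H949.CInd
import Vale.Agent.P301.H949.Const
import Vale.Agent.P301.H99.LimN

/-!
# P301: the numerical assembly for the numbers of independent sections
-/

open Filter Metric Set MeasureTheory Topology
open scoped ENNReal ComplexOrder Matrix ComplexConjugate Manifold ContDiff

set_option linter.all false

noncomputable section

namespace Vale.Agent.P301.H949

open Vale.Agent.P272.K Vale.Agent.P272.K.C2 Vale.Agent.P299.IX Vale.Agent.P299.IX.Fock
open Vale.Agent.P301.H85 Vale.Agent.P301.H599 Vale.Agent.P301.H862 Vale.Agent.P299.H954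
open Vale.Agent.P301.H103
open Vale.Agent.P301.H395 (IntSec IntForm)
open Vale.Agent.P301.H897 (LamF)
open Vale.Agent.P301.H724 (Nz Homog Prop2 LinInd)
open Vale.Agent.P301.H951

section alg

variable {d : ℕ} {A : Type*}

theorem le_of_finrank_ann {u : A → FI d → ℂ} {q : ℕ} (h : q ≤ Module.finrank ℂ (ann u)) : q ≤ d := by
  have := Submodule.finrank_le (ann u)
  rw [Module.finrank_fin_fun] at this
  exact h.trans this

/-- Forms of degree `q` with `q` independent common annihilators are pairwise parallel. -/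
theorem parallel_of_ann {u : A → FI d → ℂ} {q : ℕ} (h : q ≤ Module.finrank ℂ (ann u))
    (hu : ∀ c (I : FI d), I.card ≠ q → u c I = 0) (a b : A) (I J : FI d) :
    u a I * u b J = u a J * u b I := by
  obtain ⟨T, U, hUT, hTU, -, hx⟩ := exists_frame_ann h
  have hqd := le_of_finrank_ann h
  have h1 : ∀ c, lam U *ᵥ u c = (lam U *ᵥ u c) (Hq d q) • (ev (Hq d q) : FI d → ℂ) := by
    intro c
    funext K
    rw [Pi.smul_apply, smul_eq_mul, ev, Pi.single_apply]
    split_ifs with hK
    · rw [hK, mul_one]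
    · rw [mul_zero]
      by_cases hKc : K.card = q
      · refine hx c K fun hs => hK ?_
        exact (Finset.eq_of_subset_of_card_le hs (by rw [card_Hq hqd, hKc])).symm
      · exact H724.lam_degree U (hu c) K hKc
  have h2 : ∀ c, u c = (lam U *ᵥ u c) (Hq d q) • (lam T *ᵥ (ev (Hq d q) : FI d → ℂ)) := by
    intro c
    rw [← Matrix.mulVec_smul, ← h1, Matrix.mulVec_mulVec, ← lam_mul, hTU, lam_one,
      Matrix.one_mulVec]
  rw [h2 a, h2 b]
  simp only [Pi.smul_apply, smul_eq_mul]
  ring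

/-- Forms of degree `p < q` with `q` independent annihilators are zero. -/
theorem zero_of_ann_lt {u : A → FI d → ℂ} {p q : ℕ} (h : q ≤ Module.finrank ℂ (ann u))
    (hpq : p < q) (hu : ∀ c (I : FI d), I.card ≠ p → u c I = 0) (a : A) : u a = 0 := by
  obtain ⟨T, U, hUT, hTU, -, hx⟩ := exists_frame_ann h
  have hqd := le_of_finrank_ann h
  have h1 : lam U *ᵥ u a = 0 := by
    funext K
    by_cases hK : K.card = p
    · refine hx a K fun hs => ?_
      have := Finset.card_le_card hs
      rw [card_Hq hqd, hK] at this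
      omega
    · exact H724.lam_degree U (hu a) K hK
  have h2 : u a = lam T *ᵥ (lam U *ᵥ u a) := by
    rw [Matrix.mulVec_mulVec, ← lam_mul, hTU, lam_one, Matrix.one_mulVec]
  rw [h2, h1, Matrix.mulVec_zero]

/-- the annihilator of a subfamily -/
theorem finrank_ann_comp {B : Type*} (u : A → FI d → ℂ) (f : B → A) :
    Module.finrank ℂ (ann u) ≤ Module.finrank ℂ (ann fun b => u (f b)) :=
  Submodule.finrank_mono fun t ht b => ht (f b)

/-- a nonzero element of the annihilator -/
theorem exists_ann_ne {u : A → FI d → ℂ} {q : ℕ} (h : q ≤ Module.finrank ℂ (ann u)) (hq : 1 ≤ q) :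
    ∃ t : Fin d → ℂ, t ≠ 0 ∧ ∀ b, epsV t *ᵥ u b = 0 := by
  have h1 : ann u ≠ ⊥ := by
    intro h0
    rw [h0, finrank_bot] at h
    omega
  obtain ⟨t, ht, ht0⟩ := Submodule.exists_mem_ne_zero_of_ne_bot h1
  exact ⟨t, ht0, ht⟩

end alg

variable {d : ℕ} {X : Type} [TopologicalSpace X] [ChartedSpace (Cm d) X]
variable {ι : Type} {L : LineBundle d X ι}

/-- a subfamily of an independent family -/
theorem linInd_comp {r r' : ℕ} {u : Fin r → ι → Chart d X → Cm d → FI d → ℂ} (hu : LinInd L u)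
    (h : r' ≤ r) : LinInd L fun b : Fin r' => u (Fin.castLE h b) := by
  classical
  intro t ht
  have h1 := hu (fun b => if hb : (b : ℕ) < r' then t ⟨b, hb⟩ else 0) fun i e x hx hi => by
    have h2 := ht i e x hx hi
    rw [← h2]
    have h3 : ∑ b : Fin r, (if hb : (b : ℕ) < r' then t ⟨b, hb⟩ else 0) • u b i e (e x) =
        ∑ b ∈ (Finset.univ : Finset (Fin r')).map (Fin.castLEEmb h),
          (if hb : (b : ℕ) < r' then t ⟨b, hb⟩ else 0) • u b i e (e x) := by
      symm
      refine Finset.sum_subset (Finset.subset_univ _) fun b _ hb => ?_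
      have hb' : ¬ (b : ℕ) < r' := fun hlt => hb (Finset.mem_map.2
        ⟨⟨b, hlt⟩, Finset.mem_univ _, Fin.ext rfl⟩)
      rw [dif_neg hb', zero_smul]
    rw [h3, Finset.sum_map]
    refine Finset.sum_congr rfl fun b _ => ?_
    have hb : ((Fin.castLEEmb h b : Fin r) : ℕ) < r' := b.2
    rw [dif_pos hb]
    rfl
  funext b
  have h2 := congrFun h1 (Fin.castLE h b)
  simp only [Pi.zero_apply] at h2 ⊢
  rw [dif_pos (show ((Fin.castLE h b : Fin r) : ℕ) < r' from b.2)] at h2
  exact h2

/-- an independent family of zero forms is empty -/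
theorem eq_zero_of_linInd {r : ℕ} {u : Fin r → ι → Chart d X → Cm d → FI d → ℂ} (hu : LinInd L u)
    (h0 : ∀ b i e x, At e x → x ∈ L.U i → u b i e (e x) = 0) : r = 0 := by
  by_contra hr
  have h1 := hu (fun _ => 1) fun i e x hx hi => Finset.sum_eq_zero fun b _ => by
    rw [h0 b i e x hx hi, smul_zero]
  exact one_ne_zero (congrFun h1 ⟨0, Nat.pos_of_ne_zero hr⟩)

/-- **No independent forms of degree `p < n`** with `n` independent common annihilators. -/
theorem count_eq_zero {p n r : ℕ} (hpn : p < n) {u : Fin r → ι → Chart d X → Cm d → FI d → ℂ}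
    (huh : ∀ b, Homog L p (u b)) (hli : LinInd L u)
    (hann : ∀ i e x, At e x → x ∈ L.U i →
      n ≤ Module.finrank ℂ (ann fun b => u b i e (e x))) : r = 0 :=
  eq_zero_of_linInd hli fun b i e x hx hi =>
    zero_of_ann_lt (hann i e x hx hi) hpn (fun c I hI => huh c i e x hx hi I hI) b

section mfd

variable [IsManifold 𝓘(ℂ, Cm d) ω X] [T2Space X] [CompactSpace X] [SimplyConnectedSpace X]

/-- **At most one independent form of degree `n`** with `n` independent common annihilators,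
`1 ≤ n < d`. -/
theorem count_le_one {w s : Fm d X} (hs : IsSymplectic d X w s) {ρ : ι → X → ℝ}
    (hρ : IsMetric L ρ) (hne : ¬ H450.IsExact (curvature L ρ)) (hN : NSLProp L) {n r : ℕ}
    (hn : 1 ≤ n) (hnd : n < d) {u : Fin r → ι → Chart d X → Cm d → FI d → ℂ}
    (hu : ∀ b, H724.IsSec L LamF 1 (u b)) (huh : ∀ b, Homog L n (u b)) (hli : LinInd L u)
    (hann : ∀ i e x, At e x → x ∈ L.U i →
      n ≤ Module.finrank ℂ (ann fun b => u b i e (e x))) : r ≤ 1 := by
  by_contra hr
  have hr2 : 2 ≤ r := by omega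
  refine dep_of_par hs hρ hne hN hn hnd (u := fun b : Fin 2 => u (Fin.castLE hr2 b))
    (fun b => hu _) (fun b => huh _) (fun i e x hx hi => ?_) ?_ (linInd_comp hli hr2)
  · obtain ⟨t, ht, hta⟩ := exists_ann_ne (hann i e x hx hi) hn
    exact ⟨t, ht, fun b => hta _⟩
  · intro i e x hx hi I J
    exact parallel_of_ann (hann i e x hx hi) (fun c K hK => huh c i e x hx hi K hK) _ _ I J

/-- **Forms of top degree**: `r` independent sections of `Λ^d ⊗ L` give `r` independent sections
of `L`. -/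
theorem exists_indSec {w s : Fm d X} (hs : IsSymplectic d X w s) {n r : ℕ} (hd : d = 2 * n)
    {u : Fin r → ι → Chart d X → Cm d → FI d → ℂ}
    (hu : ∀ b, H724.IsSec L LamF 1 (u b)) (huh : ∀ b, Homog L d (u b)) (hli : LinInd L u) :
    ∃ f : Fin r → ι → X → ℂ, (∀ b, IntSec L 1 (f b)) ∧ H99.IndSec L f := by
  have h1 : ∀ b, ∃ f, IntSec L 1 f ∧ ∀ i e x, At e x → x ∈ L.U i →
      u b i e (e x) = f i x • sPow (s e (e x)) n := fun b =>
    exists_top hd hs.form hs.nondeg (by simpa using intForm_of_isSec (hu b))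
      fun i e x hx hi I hI => huh b i e x hx hi I hI
  choose f hf hfe using h1
  refine ⟨f, hf, fun c hc => hli c fun i e x hx hi => ?_⟩
  have h2 : ∀ b, c b • u b i e (e x) = (c b * f b i x) • sPow (s e (e x)) n := fun b => by
    rw [hfe b i e x hx hi, smul_smul]
  rw [Finset.sum_congr rfl fun b _ => h2 b, ← Finset.sum_smul, hc i x hi, zero_smul]

end mfd

/-! ### the index -/

section index

variable [IsManifold 𝓘(ℂ, Cm d) ω X] [T2Space X] [CompactSpace X]

/-- the index is the alternating sum of the dimensions of the kernels -/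
theorem index_eq_sum (B : HB d X ι) (q : ℕ) (hfin : ∀ σ, FiniteDimensional ℂ ((B.pow q).ell.sk σ)) :
    (B.pow q).ell.P = ∑ p ∈ Finset.range (d + 1),
      (-1 : ℤ) ^ p * (Module.finrank ℂ (skd (B.pow q).grading p) : ℤ) := by
  have f1 := hfin 1
  have f2 := hfin (-1)
  unfold Ell.P
  rw [finrank_sk_eq B q 1, finrank_sk_eq B q (-1), Nat.cast_sum, Nat.cast_sum,
    ← Finset.sum_sub_distrib]
  refine Finset.sum_congr rfl fun p _ => ?_
  rcases Nat.even_or_odd p with hp | hp
  · have h1 : ((-1 : ℤˣ) ^ p) = 1 := hp.neg_one_pow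
    have h2 : ¬ ((-1 : ℤˣ) ^ p) = -1 := by rw [h1]; decide
    rw [if_pos h1, if_neg h2, hp.neg_one_pow]
    push_cast
    ring
  · have h1 : ((-1 : ℤˣ) ^ p) = -1 := hp.neg_one_pow
    have h2 : ¬ ((-1 : ℤˣ) ^ p) = 1 := by rw [h1]; decide
    rw [if_pos h1, if_neg h2, hp.neg_one_pow]
    push_cast
    ring

/-- the strong kernels are finite-dimensional -/
theorem finite_sk_pow [SimplyConnectedSpace X] (B : HB d X ι) (q : ℕ) (σ : ℤˣ) :
    FiniteDimensional ℂ ((B.pow q).ell.sk σ) := by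
  obtain ⟨N, hN⟩ := exists_KS B.L
  obtain ⟨KK⟩ := hN 1
  have hKK : KS B.L 1 N := KK
  have := (HB.index_rel hKK q).1 ∅ σ
  rwa [Finset.card_empty, add_zero, mul_one] at this

theorem finite_skd_pow [SimplyConnectedSpace X] (B : HB d X ι) (q : ℕ) {p : ℕ}
    (hp : p ∈ Finset.range (d + 1)) : FiniteDimensional ℂ (skd (B.pow q).grading p) := by
  have := finite_sk_pow B q ((-1) ^ p)
  exact Submodule.finiteDimensional_of_le (skd_le (B.pow q).grading (mem_dgs.2 ⟨hp, rfl⟩))

/-- `χ(𝒪) ≥ n + 1` -/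
theorem le_chi0 [SimplyConnectedSpace X] {w s : Fm d X} {ρ : ι → X → ℝ}
    (hs : IsSymplectic d X w s) (hρ : IsMetric L ρ) {n : ℕ} (hd : d = 2 * n) (hn0 : 0 < n)
    (hn : H450.IsNef w (curvature L ρ)) (hq : H450.q s (curvature L ρ) (curvature L ρ) = 0)
    (hne : ¬ H450.IsExact (curvature L ρ)) : (n : ℤ) + 1 ≤ HB.chi0 d X := by
  obtain ⟨v, κ, hv, hk⟩ := H450.exists_rf hs hs.kahler
  have h2 := H450.q_nef_pos (by omega) hs hk hs.kahler (isReal11_curvature hρ) hn hne
  rw [H450.q_symm (H450.SData.of hs hk)] at h2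
  set B : HB d X ι := ⟨L, ρ, w, hρ, hs.kahler⟩ with hB
  exact chi0_ge (n := n) hs hd hk.kahler (isReal11_curvature hρ) hq h2.ne' fun p hp =>
    finite_HolF B (fun σ => finite_sk_pow B 0 σ) hp

end index

/-! ### the numbers -/

/-- dimension four -/
theorem num_four {r : ℕ → ℕ} (h : 3 ≤ ∑ p ∈ Finset.range (4 + 1), (-1 : ℤ) ^ p * (r p : ℤ))
    (h0 : ∀ p, p < 2 → r p = 0) (h2 : r 2 ≤ 1) : 2 ≤ r 4 := by
  simp only [Finset.sum_range_succ, Finset.sum_range_zero] at h
  rw [h0 0 (by norm_num), h0 1 (by norm_num)] at h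
  norm_num at h
  omega

/-- dimension six -/
theorem num_six {r : ℕ → ℕ} (h : 4 ≤ ∑ p ∈ Finset.range (6 + 1), (-1 : ℤ) ^ p * (r p : ℤ))
    (h0 : ∀ p, p < 3 → r p = 0) (h5 : 2 ≤ r 4 → r 4 ≤ r 5 + 1) : 3 ≤ r 6 := by
  simp only [Finset.sum_range_succ, Finset.sum_range_zero] at h
  rw [h0 0 (by norm_num), h0 1 (by norm_num), h0 2 (by norm_num)] at h
  norm_num at h
  rcases Nat.lt_or_ge (r 4) 2 with h4 | h4
  · omega
  · have := h5 h4
    omega

end Vale.Agent.P301.H949
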