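import Vale.Agent.P301.H949.ConstEff
import Vale.Agent.P301.H951.PTAnn2

/-!
# P301, N3: sections with a common annihilator
-/

open Filter Metric Set MeasureTheory Topology
open scoped ENNReal ComplexOrder Matrix ComplexConjugate Manifold ContDiff

set_option linter.all false

noncomputable section

namespace Vale.Agent.P301.H949

open Vale.Agent.P272.K Vale.Agent.P272.K.C2 Vale.Agent.P299.IX Vale.Agent.P299.IX.Fock
open Vale.Agent.P301.H85 Vale.Agent.P301.H599 Vale.Agent.P301.H862 Vale.Agent.P299.H954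
open Vale.Agent.P301.H897 (LamF)
open Vale.Agent.P301.H724 (Nz Homog mnr wedge LinInd)
open Vale.Agent.P301.H951

variable {d : ℕ}

/-- more than `d - q` forms of degree `q + 1` annihilated by `q` covectors are dependent -/
theorem mnr_of_ann {q r : ℕ} {v : Fin r → FI d → ℂ} (h : q ≤ Module.finrank ℂ (ann v))
    (hdeg : ∀ b I, I.card ≠ q + 1 → v b I = 0) (hr : d < r + q) (c : Fin r → FI d) :
    mnr v c = 0 := by
  classical
  have hqd : q ≤ d := by
    have := Submodule.finrank_le (ann v)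
    rw [Module.finrank_fintype_fun_eq_card, Fintype.card_fin] at this
    omega
  obtain ⟨T, U, hUT, hTU, hT, hU⟩ := exists_frame_ann h
  set y : Fin r → Fin d → ℂ := fun b => coef q (lam U *ᵥ v b) with hy
  have hv : ∀ b, v b = epsV (T *ᵥ y b) *ᵥ (lam T *ᵥ ev (Hq d q)) := fun b =>
    eq_epsV_beta hTU hqd (hU b) (hdeg b)
  -- the vectors `y b` are dependent
  have hy0 : ∀ b l, l ∈ Hq d q → y b l = 0 := fun b l hl => by
    rw [hy]; simp only [coef, if_pos hl]
  obtain ⟨t, ht, b₀, hb₀⟩ : ∃ t : Fin r → ℂ, (∀ l, ∑ b, t b * y b l = 0) ∧ ∃ b, t b ≠ 0 := by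
    set z : Fin r → ({l // l ∉ Hq d q} → ℂ) := fun b l => y b l with hz
    have hli : ¬ LinearIndependent ℂ z := by
      intro hli
      have h1 := hli.fintype_card_le_finrank
      rw [Fintype.card_fin, Module.finrank_fintype_fun_eq_card, Fintype.card_subtype_compl,
        Fintype.card_fin, Fintype.card_coe, card_Hq hqd] at h1
      omega
    rw [Fintype.not_linearIndependent_iff] at hli
    obtain ⟨t, ht, hb⟩ := hli
    refine ⟨t, fun l => ?_, hb⟩
    by_cases hl : l ∈ Hq d q
    · exact Finset.sum_eq_zero fun b _ => by rw [hy0 b l hl, mul_zero]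
    · have h2 := congrFun ht ⟨l, hl⟩
      simpa [hz] using h2
  have hsum : ∀ I, ∑ b, t b * v b I = 0 := by
    intro I
    have h1 : ∑ b, t b • v b = epsV (T *ᵥ fun l => ∑ b, t b * y b l) *ᵥ
        (lam T *ᵥ ev (Hq d q)) := by
      have e1 : (T *ᵥ fun l => ∑ b, t b * y b l) = ∑ b, t b • (T *ᵥ y b) := by
        have e0 : (fun l => ∑ b, t b * y b l) = ∑ b, t b • y b := by
          funext l; simp
        rw [e0, Matrix.mulVec_sum]
        exact Finset.sum_congr rfl fun b _ => Matrix.mulVec_smul _ _ _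
      have e2 : ∀ a : Fin r → Fin d → ℂ, epsV (∑ b, t b • a b) = ∑ b, t b • epsV (a b) := by
        intro a
        unfold epsV
        simp only [Finset.sum_apply, Pi.smul_apply, smul_eq_mul, Finset.sum_smul, Finset.smul_sum,
          smul_smul]
        exact Finset.sum_comm
      rw [e1, e2, Matrix.sum_mulVec]
      refine Finset.sum_congr rfl fun b _ => ?_
      rw [Matrix.smul_mulVec, ← hv b]
    have h2 : (fun l => ∑ b, t b * y b l) = 0 := funext ht
    rw [h2, Matrix.mulVec_zero] at h1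
    have h3 : epsV (0 : Fin d → ℂ) = 0 := by
      unfold epsV
      simp
    rw [h3, Matrix.zero_mulVec] at h1
    have h4 := congrFun h1 I
    simpa using h4
  unfold mnr
  refine Matrix.exists_mulVec_eq_zero_iff.1 ⟨t, fun h0 => hb₀ (by rw [h0]; rfl), ?_⟩
  funext a
  have := hsum (c a)
  simp only [Matrix.mulVec, dotProduct, Matrix.of_apply, Pi.zero_apply]
  rw [← this]
  exact Finset.sum_congr rfl fun b _ => mul_comm _ _

variable {X : Type} [TopologicalSpace X] [ChartedSpace (Cm d) X]
variable {ι : Type} {L : LineBundle d X ι}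

/-- A family extended by one section which is not in the span. -/
theorem linInd_cons {A : Type} {r : ℕ} {u : Fin r → ι → Chart d X → Cm d → A → ℂ}
    {v : ι → Chart d X → Cm d → A → ℂ} (hu : LinInd L u)
    (hv : ¬ ∃ c : Fin r → ℂ, ∀ i e x, At e x → x ∈ L.U i →
      v i e (e x) = ∑ b, c b • u b i e (e x)) :
    LinInd L (Fin.cons v u : Fin (r + 1) → ι → Chart d X → Cm d → A → ℂ) := by
  intro t ht
  have h0 : t 0 = 0 := by
    by_contra h0
    refine hv ⟨fun b => -(t b.succ / t 0), fun i e x hx hi => ?_⟩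
    have h1 := ht i e x hx hi
    rw [Fin.sum_univ_succ] at h1
    simp only [Fin.cons_zero, Fin.cons_succ] at h1
    have h2 : v i e (e x) = -((t 0)⁻¹ • ∑ b : Fin r, t b.succ • u b i e (e x)) := by
      rw [← smul_neg, eq_inv_smul_iff₀ h0]
      exact eq_neg_of_add_eq_zero_left h1
    rw [h2, Finset.smul_sum, ← Finset.sum_neg_distrib]
    refine Finset.sum_congr rfl fun b _ => ?_
    rw [smul_smul, neg_smul, div_eq_inv_mul]
  have h1 : (fun b => t (Fin.succ b)) = 0 := hu _ fun i e x hx hi => by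
    have h1 := ht i e x hx hi
    rw [Fin.sum_univ_succ] at h1
    simpa only [Fin.cons_zero, Fin.cons_succ, h0, zero_smul, zero_add] using h1
  funext b
  refine Fin.cases h0 (fun b => congrFun h1 b) b

/-- **The span.** If `u' 1, ..., u' r` are independent sections of `Λ^{q+1} ⊗ L^m` and `v` is one
more, all killed by `q` common covectors at every point, `d - q ≤ r`, then `v` is a combination of
the `u' b` with constant coefficients, unless a pencil exists. -/
theorem span_of_noDep {M R m q r : ℕ} (hnd : NoDep L M R) (hm : 1 ≤ m) (hmM : m ≤ M)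
    (hrR : r + 1 ≤ R) (hdr : d ≤ r + q) {u : Fin r → Fam d X ι} {v : Fam d X ι}
    (hu : ∀ b, H724.IsSec L LamF m (u b)) (huh : ∀ b, Homog L (q + 1) (u b)) (hui : LinInd L u)
    (hv : H724.IsSec L LamF m v) (hvh : Homog L (q + 1) v)
    (hann : ∀ i e x, At e x → x ∈ L.U i → q ≤ Module.finrank ℂ
      (ann (Fin.cons (v i e (e x)) (fun b => u b i e (e x)) : Fin (r + 1) → FI d → ℂ))) :
    ∃ c : Fin r → ℂ, ∀ i e x, At e x → x ∈ L.U i → v i e (e x) = ∑ b, c b • u b i e (e x) := by
  by_contra hcon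
  have hli := linInd_cons hui hcon
  refine hnd m hm hmM (q + 1) (r + 1) hrR (Fin.cons v u) ?_ ?_ hli ?_
  · exact Fin.cases hv hu
  · exact Fin.cases hvh huh
  · intro i e x hx hi
    funext c
    have e1 : (fun b => (Fin.cons v u : Fin (r + 1) → Fam d X ι) b i e (e x)) =
        (Fin.cons (v i e (e x)) (fun b => u b i e (e x)) : Fin (r + 1) → FI d → ℂ) := by
      funext b
      refine Fin.cases rfl (fun b => rfl) b
    show mnr (fun b => (Fin.cons v u : Fin (r + 1) → Fam d X ι) b i e (e x)) c = 0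
    rw [e1]
    refine mnr_of_ann (hann i e x hx hi) (fun b => ?_) (by omega) c
    refine Fin.cases (fun I hI => hvh i e x hx hi I hI) (fun b I hI => huh b i e x hx hi I hI) b

/-- comparison of annihilators -/
theorem finrank_ann_le {A B : Type*} {u : A → FI d → ℂ} {v : B → FI d → ℂ}
    (h : ∀ b, ∃ (a : A) (c : ℂ), v b = c • u a) :
    Module.finrank ℂ (ann u) ≤ Module.finrank ℂ (ann v) := by
  refine Submodule.finrank_mono fun t ht => ?_
  rw [mem_ann] at ht ⊢
  intro b
  obtain ⟨a, c, hc⟩ := h b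
  rw [hc, Matrix.mulVec_smul, ht a, smul_zero]

/-- the annihilator condition, from the output of `H951.cy_limits` -/
theorem ann_cons {κ : Type*} {r : κ → ℕ} {n : ℕ} {u : ∀ c, Fin (r c) → Fam d X ι}
    (hA : ∀ (e : Chart d X) x, At e x → n ≤ Module.finrank ℂ
      (ann fun y : {y : (Σ c, Fin (r c)) × ι // x ∈ L.U y.2} =>
        u y.1.1.1 y.1.1.2 y.1.2 e (e x))) (c₁ c₂ : κ) (a : Fin (r c₁)) (G : ι → X → ℂ)
    (i : ι) (e : Chart d X) (x : X) (hx : At e x) (hi : x ∈ L.U i) :
    n ≤ Module.finrank ℂ (ann (Fin.cons (G i (e.symm (e x)) • u c₁ a i e (e x))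
      (fun b => u c₂ b i e (e x)) : Fin (r c₂ + 1) → FI d → ℂ)) := by
  refine (hA e x hx).trans (finrank_ann_le fun b => ?_)
  refine Fin.cases ?_ (fun b => ?_) b
  · exact ⟨⟨(⟨c₁, a⟩, i), hi⟩, G i (e.symm (e x)), rfl⟩
  · exact ⟨⟨(⟨c₂, b⟩, i), hi⟩, 1, by rw [one_smul]; rfl⟩

end Vale.Agent.P301.H949
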