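import Vale.Agent.P301.H949.NoDep
import Vale.Agent.P301.H395.Out

/-!
# P301, N3: the step (H)
-/

open Filter Metric Set MeasureTheory Topology
open scoped ENNReal ComplexOrder Matrix ComplexConjugate Manifold ContDiff

set_option linter.all false

noncomputable section

namespace Vale.Agent.P301.H949

open Vale.Agent.P272.K Vale.Agent.P272.K.C2 Vale.Agent.P299.IX Vale.Agent.P299.IX.Fock
open Vale.Agent.P301.H85 Vale.Agent.P301.H599 Vale.Agent.P301.H862 Vale.Agent.P299.H954
open Vale.Agent.P301.H395 (IntSec IntForm)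
open Vale.Agent.P301.H897 (LamF)
open Vale.Agent.P301.H724 (Nz Homog)

variable {d : ℕ} {X : Type} [TopologicalSpace X] [ChartedSpace (Cm d) X]
variable {ι : Type} {L : LineBundle d X ι} {k l : ℤ} {f g : ι → X → ℂ}
  {β : ι → Chart d X → Cm d → FI d → ℂ}

/-! ### products -/

theorem intSec_mul (hf : IntSec L k f) (hg : IntSec L l g) :
    IntSec L (k + l) fun i x => f i x * g i x where
  holo i e x hx hi := (hf.holo i e x hx hi).mul (hg.holo i e x hx hi)
  ch i j x hi hj := by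
    rw [hf.ch i j x hi hj, hg.ch i j x hi hj, zpow_add₀ (L.ne_zero i j x hi hj)]
    ring

theorem intSec_one (L : LineBundle d X ι) : IntSec L 0 fun _ _ => 1 where
  holo i e x hx hi := analyticAt_const
  ch i j x hi hj := by simp

theorem intSec_pow (hf : IntSec L k f) (n : ℕ) : IntSec L (n * k) fun i x => f i x ^ n := by
  induction n with
  | zero => simpa using intSec_one L
  | succ n ih =>
    have := intSec_mul ih hf
    rw [show ((n + 1 : ℕ) : ℤ) * k = n * k + k by push_cast; ring]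
    simpa only [pow_succ] using this

theorem intForm_smul (hf : IntSec L k f) (hβ : IntForm L l β) :
    IntForm L (k + l) fun i e z => f i (e.symm z) • β i e z where
  holo i e x hx hi a := (hf.holo i e x hx hi).mul (hβ.holo i e x hx hi a)
  chL i j e x hx hi hj := by
    rw [hx.left_inv, hf.ch i j x hi hj, hβ.chL i j e x hx hi hj, smul_smul, smul_smul,
      zpow_add₀ (L.ne_zero i j x hi hj)]
    congr 1
    ring
  chV i e e' x hx hx' hi := by
    rw [hx.left_inv, hx'.left_inv, hβ.chV i e e' x hx hx' hi, Matrix.mulVec_smul]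

theorem intSec_of_isSecPow {m : ℕ} (hf : H450.IsSecPow L m f) : IntSec L (m : ℤ) f where
  holo i e x hx hi := hf.holo i e x hx hi
  ch i j x hi hj := by rw [zpow_natCast]; exact hf.change i j x hi hj

theorem isSecPow_of_intSec {m : ℕ} (hf : IntSec L (m : ℤ) f) : H450.IsSecPow L m f where
  holo i e x hx hi := hf.holo i e x hx hi
  change i j x hi hj := by rw [← zpow_natCast]; exact hf.ch i j x hi hj

theorem intForm_of_isSec {m : ℕ} (h : H724.IsSec L LamF m β) : IntForm L (m : ℤ) β where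
  holo := h.holo
  chL i j e x hx hi hj := by rw [zpow_natCast]; exact h.chL i j e x hx hi hj
  chV := h.chV

theorem isSec_of_intForm {m : ℕ} (h : IntForm L (m : ℤ) β) : H724.IsSec L LamF m β where
  holo := h.holo
  chL i j e x hx hi hj := by rw [← zpow_natCast]; exact h.chL i j e x hx hi hj
  chV := h.chV

/-- the line bundle `L^k`, `k : ℤ` -/
def powZ (L : LineBundle d X ι) (k : ℤ) : LineBundle d X ι where
  U := L.U
  isOpen := L.isOpen
  cover := L.cover
  g i j x := L.g i j x ^ k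
  holo i j e x hx hi hj := (L.holo i j e x hx hi hj).zpow (by
    rw [hx.left_inv]; exact L.ne_zero i j x hi hj)
  ne_zero i j x hi hj := zpow_ne_zero _ (L.ne_zero i j x hi hj)
  cocycle i j k' x hi hj hk := by rw [← mul_zpow, L.cocycle i j k' x hi hj hk]

theorem isSec_powZ (h : IntForm L k β) : H724.IsSec (powZ L k) LamF 1 β where
  holo := h.holo
  chL i j e x hx hi hj := by rw [pow_one]; exact h.chL i j e x hx hi hj
  chV := h.chV

/-- a section as a family of vectors of length one -/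
def scal (f : ι → X → ℂ) : ι → Chart d X → Cm d → Unit → ℂ :=
  fun i e z _ => f i (e.symm z)

theorem isSec_scal (h : IntSec L k f) :
    H724.IsSec (powZ L k) (fun _ _ _ => (1 : Matrix Unit Unit ℂ)) 1 (scal f) where
  holo i e x hx hi a := h.holo i e x hx hi
  chL i j e x hx hi hj := by
    funext a
    show f i (e.symm (e x)) = ((L.g i j x ^ k) ^ 1 • scal f j e (e x)) a
    rw [pow_one, hx.left_inv, h.ch i j x hi hj]
    show _ = L.g i j x ^ k * f j (e.symm (e x))
    rw [hx.left_inv]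
  chV i e e' x hx hx' hi := by
    rw [Matrix.one_mulVec]
    funext a
    show f i (e.symm (e x)) = f i (e'.symm (e' x))
    rw [hx.left_inv, hx'.left_inv]

section conn

variable [IsManifold 𝓘(ℂ, Cm d) ω X] [T2Space X] [CompactSpace X] [ConnectedSpace X]

theorem dense_sec (hf : IntSec L k f) (hne : ∃ i x, x ∈ L.U i ∧ f i x ≠ 0) :
    Dense {x | ∀ i, x ∈ L.U i → f i x ≠ 0} := by
  obtain ⟨i, x, hi, hx⟩ := hne
  have he := H724.at_chartAt (d := d) x
  have h1 := (isSec_scal hf).dense ⟨x, (isSec_scal hf).nz he hi fun h0 => hx (by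
    have := congrFun h0 ()
    show f i x = 0
    rw [← he.left_inv]
    exact this)⟩
  refine h1.mono fun y hy j hj h0 => ?_
  have hey := H724.at_chartAt (d := d) y
  refine hy j _ hey hj ?_
  funext a
  show f j ((chartAt (Cm d) y).symm (chartAt (Cm d) y y)) = 0
  rw [hey.left_inv, h0]

theorem isOpen_sec (hf : IntSec L k f) : IsOpen {x | ∀ i, x ∈ L.U i → f i x ≠ 0} := by
  rw [isOpen_iff_mem_nhds]
  intro x hx
  obtain ⟨i, hi⟩ := L.cover x
  have he := H724.at_chartAt (d := d) x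
  have h1 : ContinuousAt (fun y => f i y) x := by
    have h2 : ContinuousAt (fun y => (fun z => f i ((chartAt (Cm d) x).symm z))
        (chartAt (Cm d) x y)) x :=
      ContinuousAt.comp (g := fun z => f i ((chartAt (Cm d) x).symm z))
        (hf.holo i _ x he hi).continuousAt ((chartAt (Cm d) x).continuousAt he.2)
    refine h2.congr ?_
    filter_upwards [(chartAt (Cm d) x).open_source.mem_nhds he.2] with z hz
    rw [(chartAt (Cm d) x).left_inv hz]
  filter_upwards [h1.eventually_ne (hx i hi), (L.isOpen i).mem_nhds hi] with y hy hyi j hj h0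
  apply hy
  rw [hf.ch i j y hyi hj, h0, mul_zero]

/-- the product of nonzero sections is nonzero -/
theorem ne_zero_mul (hf : IntSec L k f) (hfn : ∃ i x, x ∈ L.U i ∧ f i x ≠ 0)
    (hg : IntSec L l g) (hgn : ∃ i x, x ∈ L.U i ∧ g i x ≠ 0) :
    ∃ i x, x ∈ L.U i ∧ f i x * g i x ≠ 0 := by
  obtain ⟨x, h1, h2⟩ := ((dense_sec hf hfn).inter_of_isOpen_left (dense_sec hg hgn)
    (isOpen_sec hf)).nonempty
  obtain ⟨i, hi⟩ := L.cover x
  exact ⟨i, x, hi, mul_ne_zero (h1 i hi) (h2 i hi)⟩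

theorem ne_zero_smul (hf : IntSec L k f) (hfn : ∃ i x, x ∈ L.U i ∧ f i x ≠ 0)
    (hβ : IntForm L l β) (hβn : ∃ i e x, At e x ∧ x ∈ L.U i ∧ β i e (e x) ≠ 0) :
    ∃ i e x, At e x ∧ x ∈ L.U i ∧ f i (e.symm (e x)) • β i e (e x) ≠ 0 := by
  obtain ⟨i, e, x, he, hi, hne⟩ := hβn
  have h0 := (isSec_powZ hβ).dense ⟨x, (isSec_powZ hβ).nz he hi hne⟩
  obtain ⟨y, h1, h2⟩ := ((dense_sec hf hfn).inter_of_isOpen_left h0 (isOpen_sec hf)).nonempty
  obtain ⟨j, hj⟩ := L.cover y
  have hey := H724.at_chartAt (d := d) y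
  refine ⟨j, _, y, hey, hj, smul_ne_zero ?_ (h2 j _ hey hj)⟩
  rw [hey.left_inv]
  exact h1 j hj

/-! ### sections of the trivial bundle -/

/-- a form with values in the trivial bundle -/
theorem exists_isHolF {p : ℕ} (hβ : IntForm L 0 β)
    (hdeg : ∀ i e x, At e x → x ∈ L.U i → ∀ I : FI d, I.card ≠ p → β i e (e x) I = 0) :
    ∃ g : Frm d X, IsHolF p g ∧ ∀ i e x, At e x → x ∈ L.U i → g e (e x) = β i e (e x) := by
  choose c hc using L.cover
  have key : ∀ i e x, At e x → x ∈ L.U i → β (c (e.symm (e x))) e (e x) = β i e (e x) := by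
    intro i e x hx hi
    rw [hx.left_inv, hβ.chL (c x) i e x hx (hc x) hi, zpow_zero, one_smul]
  refine ⟨fun e z => β (c (e.symm z)) e z, ⟨fun e x hx I => ?_, fun e e' x hx hx' => ?_,
    fun e x hx I hI => ?_⟩, fun i e x hx hi => key i e x hx hi⟩
  · refine (hβ.holo (c x) e x hx (hc x) I).congr ?_
    filter_upwards [H450.eventually_at' (L := L) hx (hc x)] with z hz
    have h1 := key (c x) e (e.symm z) hz.1 hz.2.2
    rw [hz.2.1] at h1
    exact (congrFun h1 I).symm
  · show β (c (e.symm (e x))) e (e x) = _ *ᵥ β (c (e'.symm (e' x))) e' (e' x)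
    rw [hx.left_inv, hx'.left_inv]
    exact hβ.chV (c x) e e' x hx hx' (hc x)
  · show β (c (e.symm (e x))) e (e x) I = 0
    rw [hx.left_inv]
    exact hdeg (c x) e x hx (hc x) I hI

/-- sections of the trivial bundle are constant -/
theorem intSec_zero (hf : IntSec L 0 f) : ∃ a : ℂ, ∀ i x, x ∈ L.U i → f i x = a := by
  choose c hc using L.cover
  have key : ∀ i x, x ∈ L.U i → f (c x) x = f i x := by
    intro i x hi
    rw [hf.ch (c x) i x (hc x) hi, zpow_zero, one_mul]
  obtain ⟨a, ha⟩ := exists_const (f := fun e z => f (c (e.symm z)) (e.symm z))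
    (fun e x hx => by
      refine (hf.holo (c x) e x hx (hc x)).congr ?_
      filter_upwards [H450.eventually_at' (L := L) hx (hc x)] with z hz
      exact (key (c x) _ hz.2.2).symm)
    (fun e e' x hx hx' => by rw [hx.left_inv, hx'.left_inv])
  refine ⟨a, fun i x hi => ?_⟩
  have he := H724.at_chartAt (d := d) x
  rw [← key i x hi, ← ha _ x he, he.left_inv]

/-- a line bundle with a nowhere vanishing section has an exact curvature form -/
theorem exact_of_ne_zero {ρ : ι → X → ℝ} (hρ : IsMetric L ρ) (hf : IntSec L 1 f)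
    (h0 : ∀ i x, x ∈ L.U i → f i x ≠ 0) : H450.IsExact (curvature L ρ) := by
  choose c hc using L.cover
  have key : ∀ i x, x ∈ L.U i → ρ (c x) x - Real.log (‖f (c x) x‖ ^ 2) =
      ρ i x - Real.log (‖f i x‖ ^ 2) := by
    intro i x hi
    have h1 := L.ne_zero (c x) i x (hc x) hi
    have h2 := h0 i x hi
    rw [hρ.change (c x) i x (hc x) hi, hf.ch (c x) i x (hc x) hi, zpow_one, norm_mul, mul_pow,
      Real.log_mul (pow_ne_zero 2 (norm_ne_zero_iff.2 h1)) (pow_ne_zero 2 (norm_ne_zero_iff.2 h2))]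
    ring
  have hev : ∀ (e : Chart d X) x, At e x → (fun z => ρ (c (e.symm z)) (e.symm z) -
      Real.log (‖f (c (e.symm z)) (e.symm z)‖ ^ 2)) =ᶠ[𝓝 (e x)]
      fun z => ρ (c x) (e.symm z) - Real.log (‖f (c x) (e.symm z)‖ ^ 2) := by
    intro e x hx
    filter_upwards [H450.eventually_at' (L := L) hx (hc x)] with z hz
    exact key (c x) _ hz.2.2
  have hF : ∀ (e : Chart d X) x, At e x → ContDiffAt ℂ ω (fun z => f (c x) (e.symm z)) (e x) :=
    fun e x hx => (hf.holo (c x) e x hx (hc x)).contDiffAt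
  have hF0 : ∀ (e : Chart d X) x, At e x → f (c x) (e.symm (e x)) ≠ 0 := fun e x hx => by
    rw [hx.left_inv]; exact h0 _ _ (hc x)
  have hlog : ∀ (e : Chart d X) x, At e x →
      ContDiffAt ℝ ∞ (fun z => Real.log (‖f (c x) (e.symm z)‖ ^ 2)) (e x) := fun e x hx => by
    have h4 : ContDiffAt ℝ ∞ (fun z => f (c x) (e.symm z)) (e x) :=
      ((hF e x hx).restrict_scalars ℝ).of_le (by exact le_top)
    exact (h4.norm_sq ℝ).log (pow_ne_zero 2 (norm_ne_zero_iff.2 (hF0 e x hx)))
  refine ⟨fun x => ρ (c x) x - Real.log (‖f (c x) x‖ ^ 2), fun e x hx => ?_, fun e x hx => ?_⟩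
  · exact ((hρ.smooth (c x) e x hx (hc x)).sub (hlog e x hx)).congr_of_eventuallyEq (hev e x hx)
  · rw [curvature_eq hρ hx (hc x)]
    show cHess (fun z => ρ (c x) (e.symm z)) (e x) = cHess (fun z => ρ (c (e.symm z)) (e.symm z) -
      Real.log (‖f (c (e.symm z)) (e.symm z)‖ ^ 2)) (e x)
    rw [P272.K.cHess_congr (hev e x hx), C2.cHess_sub
      ((hρ.smooth (c x) e x hx (hc x)).of_le (by norm_cast)) ((hlog e x hx).of_le (by norm_cast)),
      cHess_log_norm_sq (hF e x hx) (hF0 e x hx), sub_zero]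

/-- If `L` has a nonzero section and `L^{-n}`, `n > 0`, too, then `L` is trivial. -/
theorem exact_of_neg {ρ : ι → X → ℝ} (hρ : IsMetric L ρ) (hf : IntSec L 1 f)
    (hfn : ∃ i x, x ∈ L.U i ∧ f i x ≠ 0) {n : ℕ} (hn : 0 < n) (hg : IntSec L (-(n : ℤ)) g)
    (hgn : ∃ i x, x ∈ L.U i ∧ g i x ≠ 0) : H450.IsExact (curvature L ρ) := by
  have h1 := intSec_pow hf n
  have hfn' : ∃ i x, x ∈ L.U i ∧ f i x ^ n ≠ 0 := by
    obtain ⟨i, x, hi, hx⟩ := hfn
    exact ⟨i, x, hi, pow_ne_zero n hx⟩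
  have h2 := intSec_mul h1 hg
  have h3 := ne_zero_mul h1 hfn' hg hgn
  rw [show (n : ℤ) * 1 + -(n : ℤ) = 0 by ring] at h2
  obtain ⟨a, ha⟩ := intSec_zero h2
  refine exact_of_ne_zero hρ hf fun i x hi h0 => ?_
  obtain ⟨j, y, hj, hy⟩ := h3
  have e1 := ha i x hi
  simp only [h0, zero_pow hn.ne', zero_mul] at e1
  exact hy ((ha j y hj).trans e1.symm)

/-! ### sections of `K_X ⊗ L^k` -/

/-- sections of `Λ^d ⊗ L^k` are sections of `L^k` times the volume form -/
theorem exists_top {n : ℕ} (hd : d = 2 * n) {s : Chart d X → Cm d → Matrix (Fin d) (Fin d) ℂ}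
    (hs : IsHolTwoForm s) (hnd : ∀ e x, At e x → (s e (e x)).det ≠ 0) (hβ : IntForm L k β)
    (hdeg : ∀ i e x, At e x → x ∈ L.U i → ∀ I : FI d, I.card ≠ d → β i e (e x) I = 0) :
    ∃ f, IntSec L k f ∧ ∀ i e x, At e x → x ∈ L.U i →
      β i e (e x) = f i x • sPow (s e (e x)) n := by
  have h0 : ∀ e x, At e x → pfc n (s e (e x)) ≠ 0 := fun e x hx =>
    pfc_ne_zero hd (hs.alt e x hx) (hnd e x hx)
  set f : ι → X → ℂ := fun i x => β i (chartAt (Cm d) x) (chartAt (Cm d) x x) Finset.univ *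
    (pfc n (s (chartAt (Cm d) x) (chartAt (Cm d) x x)))⁻¹ with hf
  have key : ∀ i e x, At e x → x ∈ L.U i →
      f i x = β i e (e x) Finset.univ * (pfc n (s e (e x)))⁻¹ := by
    intro i e x hx hi
    have hx' := H724.at_chartAt (d := d) x
    have hJ : (jacM (chartAt (Cm d) x) e x)ᵀ.det ≠ 0 := by
      rw [Matrix.det_transpose]
      exact jacM_det_ne_zero hx' hx
    have h1 : pfc n (s (chartAt (Cm d) x) (chartAt (Cm d) x x)) =
        (jacM (chartAt (Cm d) x) e x)ᵀ.det * pfc n (s e (e x)) := by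
      rw [← pfc_change, hs.change _ e x hx' hx, Matrix.transpose_transpose]
    have h2 : β i (chartAt (Cm d) x) (chartAt (Cm d) x x) Finset.univ =
        (jacM (chartAt (Cm d) x) e x)ᵀ.det * β i e (e x) Finset.univ := by
      rw [hβ.chV i _ e x hx' hx hi, LamF, lam_univ]
    rw [hf]
    simp only
    rw [h1, h2, mul_inv]
    have := mul_inv_cancel₀ hJ
    linear_combination (β i e (e x) Finset.univ * (pfc n (s e (e x)))⁻¹) * this
  refine ⟨f, ⟨fun i e x hx hi => ?_, fun i j x hi hj => ?_⟩, fun i e x hx hi => ?_⟩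
  · refine AnalyticAt.congr ((hβ.holo i e x hx hi Finset.univ).mul
      ((an_sPow (hs.holo e x hx) n _).inv (h0 e x hx))) ?_
    filter_upwards [H450.eventually_at' (L := L) hx hi] with z hz
    have h1 := key i e (e.symm z) hz.1 hz.2.2
    rw [hz.2.1] at h1
    exact h1.symm
  · have hx := H724.at_chartAt (d := d) x
    rw [key i _ x hx hi, key j _ x hx hj, hβ.chL i j _ x hx hi hj, Pi.smul_apply, smul_eq_mul,
      mul_assoc]
  · rw [key i e x hx hi, sPow_top hd, smul_smul]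
    ext I
    rw [Pi.smul_apply, smul_eq_mul, ev, Pi.single_apply]
    by_cases hI : I = Finset.univ
    · rw [hI, if_pos rfl, mul_one, mul_assoc, inv_mul_cancel₀ (h0 e x hx), mul_one]
    · rw [if_neg hI, mul_zero, hdeg i e x hx hi I]
      intro h1
      exact hI ((Finset.card_eq_iff_eq_univ I).1 (by rw [h1, Fintype.card_fin]))

/-- the same for a nonzero section -/
theorem exists_top_ne {n : ℕ} (hd : d = 2 * n) {s : Chart d X → Cm d → Matrix (Fin d) (Fin d) ℂ}
    (hs : IsHolTwoForm s) (hnd : ∀ e x, At e x → (s e (e x)).det ≠ 0) (hβ : IntForm L k β)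
    (hdeg : ∀ i e x, At e x → x ∈ L.U i → ∀ I : FI d, I.card ≠ d → β i e (e x) I = 0)
    (hne : ∃ i e x, At e x ∧ x ∈ L.U i ∧ β i e (e x) ≠ 0) :
    ∃ f, IntSec L k f ∧ (∃ i x, x ∈ L.U i ∧ f i x ≠ 0) ∧ ∀ i e x, At e x → x ∈ L.U i →
      β i e (e x) = f i x • sPow (s e (e x)) n := by
  obtain ⟨f, hf, h1⟩ := exists_top hd hs hnd hβ hdeg
  obtain ⟨i, e, x, hx, hi, h2⟩ := hne
  refine ⟨f, hf, ⟨i, x, hi, fun h0 => h2 ?_⟩, h1⟩
  rw [h1 i e x hx hi, h0, zero_smul]

/-! ### the step (H) -/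

/-- no holomorphic forms of odd degree -/
theorem no_odd [SimplyConnectedSpace X] (hd : 0 < d)
    {w s : Chart d X → Cm d → Matrix (Fin d) (Fin d) ℂ} {ρ : ι → X → ℝ}
    (hs : IsSymplectic d X w s) (hρ : IsMetric L ρ) (hn : H450.IsNef w (curvature L ρ))
    (hq : H450.q s (curvature L ρ) (curvature L ρ) = 0) (hne : ¬ H450.IsExact (curvature L ρ))
    {p : ℕ} (hp : Odd p) {g : Frm d X} (hg : IsHolF p g) {e : Chart d X} {x : X} (hx : At e x) :
    g e (e x) = 0 := by
  obtain ⟨v, κ, hv, hk⟩ := H450.exists_rf hs hs.kahler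
  have h2 := H450.q_nef_pos hd hs hk hs.kahler (isReal11_curvature hρ) hn hne
  rw [H450.q_symm (H450.SData.of hs hk)] at h2
  exact BE.odd_zero hs hk.kahler (isReal11_curvature hρ) hq h2.ne' hp hg hx

/-- **The step (H)**: the exponent is `-1`. -/
theorem exponent_eq [SimplyConnectedSpace X] (hd : 0 < d)
    {w s : Chart d X → Cm d → Matrix (Fin d) (Fin d) ℂ} {ρ : ι → X → ℝ}
    (hs : IsSymplectic d X w s) (hρ : IsMetric L ρ) (hn : H450.IsNef w (curvature L ρ))
    (hq : H450.q s (curvature L ρ) (curvature L ρ) = 0) (hne : ¬ H450.IsExact (curvature L ρ))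
    (hf : IntSec L 1 f) (hfn : ∃ i x, x ∈ L.U i ∧ f i x ≠ 0) {p : ℕ} (hp : Odd p)
    (hβ : IntForm L (-k) β)
    (hdeg : ∀ i e x, At e x → x ∈ L.U i → ∀ I : FI d, I.card ≠ p → β i e (e x) I = 0)
    (hβn : ∃ i e x, At e x ∧ x ∈ L.U i ∧ β i e (e x) ≠ 0)
    (hg : IntSec L (3 + 2 * k) g) (hgn : ∃ i x, x ∈ L.U i ∧ g i x ≠ 0) : k = -1 := by
  rcases lt_trichotomy k (-1) with h | h | h
  · -- `L^{3 + 2k}` has negative degree
    exfalso
    obtain ⟨n, hn'⟩ : ∃ n : ℕ, 3 + 2 * k = -(n : ℤ) := ⟨(-(3 + 2 * k)).toNat, by omega⟩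
    have hn0 : 0 < n := by omega
    rw [hn'] at hg
    exact hne (exact_of_neg hρ hf hfn hn0 hg hgn)
  · exact h
  · -- a holomorphic form of odd degree
    exfalso
    obtain ⟨n, rfl⟩ : ∃ n : ℕ, k = n := ⟨k.toNat, by omega⟩
    have h1 := intSec_pow hf n
    have hfn' : ∃ i x, x ∈ L.U i ∧ f i x ^ n ≠ 0 := by
      obtain ⟨i, x, hi, hx⟩ := hfn
      exact ⟨i, x, hi, pow_ne_zero n hx⟩
    have h2 := intForm_smul h1 hβ
    have h3 := ne_zero_smul h1 hfn' hβ hβn
    rw [show (n : ℤ) * 1 + -(n : ℤ) = 0 by ring] at h2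
    obtain ⟨G, hG, hGe⟩ := exists_isHolF (p := p) h2 fun i e x hx hi I hI => by
      show f i (e.symm (e x)) ^ n • β i e (e x) I = 0
      rw [hdeg i e x hx hi I hI, smul_zero]
    obtain ⟨i, e, x, hx, hi, hne'⟩ := h3
    apply hne'
    have h4 := hGe i e x hx hi
    rw [no_odd hd hs hρ hn hq hne hp hG hx] at h4
    exact h4.symm

end conn

end Vale.Agent.P301.H949
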