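import Vale.Agent.P272.K.INT.Global

/-! P301, H949: Stokes theorem for exact forms `∂γ ∧ b ^ (n - 1)`, `γ` of type `(0,1)`. -/

open scoped Manifold ContDiff ComplexOrder ComplexConjugate Topology
open MeasureTheory Set Filter

set_option linter.all false

noncomputable section

namespace Vale.Agent.P301.H949

open Vale.Agent.P272.K Vale.Agent.P272.K.INT

variable {n : ℕ} {X : Type*} [TopologicalSpace X] [ChartedSpace (Cm n) X]

/-- the mixed determinant: derivative of `det (B + s N)` -/
def mix (B N : Matrix (Fin n) (Fin n) ℂ) : ℂ := ∑ r, (B.updateRow r (N r)).det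

lemma mix_add (B N N' : Matrix (Fin n) (Fin n) ℂ) : mix B (N + N') = mix B N + mix B N' := by
  unfold mix
  rw [← Finset.sum_add_distrib]
  refine Finset.sum_congr rfl fun r _ => ?_
  rw [← Matrix.det_updateRow_add]
  rfl

lemma mix_smul (B N : Matrix (Fin n) (Fin n) ℂ) (c : ℂ) : mix B (c • N) = c * mix B N := by
  unfold mix
  rw [Finset.mul_sum]
  refine Finset.sum_congr rfl fun r _ => ?_
  rw [← Matrix.det_updateRow_smul]
  rfl

lemma mix_zero (B : Matrix (Fin n) (Fin n) ℂ) : mix B 0 = 0 := by
  have := mix_smul B 0 0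
  simpa using this

lemma mix_sum {κ : Type*} (s : Finset κ) (B : Matrix (Fin n) (Fin n) ℂ)
    (N : κ → Matrix (Fin n) (Fin n) ℂ) : mix B (∑ k ∈ s, N k) = ∑ k ∈ s, mix B (N k) := by
  classical
  induction s using Finset.induction_on with
  | empty => simp [mix_zero]
  | insert a s ha ih => rw [Finset.sum_insert ha, Finset.sum_insert ha, mix_add, ih]

lemma hasDerivAt_det (A B : Matrix (Fin n) (Fin n) ℂ) (s : ℂ) :
    HasDerivAt (fun t : ℂ => (A + t • B).det) (mix (A + s • B) B) s := by
  have h0 : ∀ i j, HasDerivAt (fun t : ℂ => (A + t • B) i j) (B i j) s := by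
    intro i j
    have : (fun t : ℂ => (A + t • B) i j) = fun t : ℂ => A i j + t * B i j := by
      ext t; simp
    rw [this]
    simpa using ((hasDerivAt_id s).mul_const (B i j)).const_add (A i j)
  have h1 : HasDerivAt (fun t : ℂ => (fun i j => (A + t • B) i j : Fin n → Fin n → ℂ))
      (fun i j => B i j) s :=
    hasDerivAt_pi.2 fun i => hasDerivAt_pi.2 fun j => h0 i j
  have h2 : HasFDerivAt (detC n) ((detC n).linearDeriv (fun i j => (A + s • B) i j))
      (fun i j => (A + s • B) i j) :=
    (detC n).hasFDerivAt _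
  have h3 := HasFDerivAt.comp_hasDerivAt (f := fun t : ℂ => (fun i j => (A + t • B) i j :
    Fin n → Fin n → ℂ)) s h2 h1
  have h4 : (detC n).linearDeriv (fun i j => (A + s • B) i j) (fun i j => B i j) =
      mix (A + s • B) B := by
    rw [ContinuousMultilinearMap.linearDeriv_apply]
    rfl
  rw [h4] at h3
  exact h3

/-- two polynomials in `s` with a common factor -/
lemma mix_eq_of_det {A B A' B' : Matrix (Fin n) (Fin n) ℂ} {c : ℂ}
    (h : ∀ s : ℂ, (A + s • B).det = c * (A' + s • B').det) : mix A B = c * mix A' B' := by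
  have h1 := hasDerivAt_det A B 0
  have h2 := (hasDerivAt_det A' B' 0).const_mul c
  have h3 : (fun t : ℂ => (A + t • B).det) = fun t => c * (A' + t • B').det := funext h
  rw [h3] at h1
  have := h1.unique h2
  simpa using this

/-- the mixed determinant of two forms is a density -/
lemma mix_form [IsManifold 𝓘(ℂ, Cm n) ω X] {b c : Chart n X → Cm n → Matrix (Fin n) (Fin n) ℂ}
    (hb : IsForm b) (hc : IsForm c) {e e' : Chart n X} {x : X} (h : At e x) (h' : At e' x) :
    mix (b e (e x)) (c e (e x)) =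
      ((‖(jacM e e' x).det‖ ^ 2 : ℝ) : ℂ) * mix (b e' (e' x)) (c e' (e' x)) := by
  refine mix_eq_of_det fun s => ?_
  exact det_form (hb.add (hc.smul s)) h h'

lemma mix_conj (B N : Matrix (Fin n) (Fin n) ℂ) :
    mix B.conjTranspose N.conjTranspose = (starRingEnd ℂ) (mix B N) := by
  have h1 : HasDerivAt (fun t : ℝ => (B + (t : ℂ) • N).det) (mix B N) 0 := by
    have := (hasDerivAt_det B N ((0 : ℝ) : ℂ)).comp_ofReal
    simpa using this
  have h2 : HasDerivAt (fun t : ℝ => (B.conjTranspose + (t : ℂ) • N.conjTranspose).det)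
      (mix B.conjTranspose N.conjTranspose) 0 := by
    have := (hasDerivAt_det B.conjTranspose N.conjTranspose ((0 : ℝ) : ℂ)).comp_ofReal
    simpa using this
  have h3 : (fun t : ℝ => (B.conjTranspose + (t : ℂ) • N.conjTranspose).det) =
      fun t : ℝ => (starRingEnd ℂ) ((B + (t : ℂ) • N).det) := by
    funext t
    have : B.conjTranspose + (t : ℂ) • N.conjTranspose = (B + (t : ℂ) • N).conjTranspose := by
      rw [Matrix.conjTranspose_add, Matrix.conjTranspose_smul]
      simp
    rw [this, Matrix.det_conjTranspose]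
    rfl
  rw [h3] at h2
  have h4 : HasDerivAt (fun t : ℝ => (starRingEnd ℂ) ((B + (t : ℂ) • N).det))
      ((starRingEnd ℂ) (mix B N)) 0 := by
    have := (Complex.conjCLE.toContinuousLinearMap.hasFDerivAt
      (x := (B + ((0 : ℝ) : ℂ) • N).det)).comp_hasDerivAt (0 : ℝ) h1
    exact this
  exact h2.unique h4

lemma contDiffAt_mix {b c : Cm n → Matrix (Fin n) (Fin n) ℂ} {z : Cm n} {k : WithTop ℕ∞}
    (hb : ∀ i j, ContDiffAt ℝ k (fun y => b y i j) z)
    (hc : ∀ i j, ContDiffAt ℝ k (fun y => c y i j) z) :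
    ContDiffAt ℝ k (fun y => mix (b y) (c y)) z := by
  unfold mix
  refine ContDiffAt.sum fun r _ => contDiffAt_det fun i j => ?_
  by_cases h : i = r
  · subst h
    simp only [Matrix.updateRow_self]
    exact hc i j
  · simp only [Matrix.updateRow_ne h]
    exact hb i j

/-- the density of `c ∧ b ^ (n - 1)` -/
lemma isDensity_mix [IsManifold 𝓘(ℂ, Cm n) ω X]
    {b c : Chart n X → Cm n → Matrix (Fin n) (Fin n) ℂ} (hb : IsForm b) (hc : IsForm c)
    (hbs : ∀ e x, At e x → ∀ i j, ContDiffAt ℝ ∞ (fun z => b e z i j) (e x))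
    (hcs : ∀ e x, At e x → ∀ i j, ContDiffAt ℝ ∞ (fun z => c e z i j) (e x)) :
    IsDensity fun e z => (mix (b e z) (c e z)).re where
  cont e x h := Complex.continuous_re.continuousAt.comp
    (contDiffAt_mix (k := ∞) (hbs e x h) (hcs e x h)).continuousAt
  change e e' x h h' := by
    show (mix (b e (e x)) (c e (e x))).re = (mix (b e' (e' x)) (c e' (e' x))).re * _
    rw [mix_form hb hc h h', Complex.re_ofReal_mul, mul_comm]

/-- a smooth form of type `(0,1)` -/
structure Is01 (γ : Chart n X → Cm n → Fin n → ℂ) : Prop where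
  smooth : ∀ e x, At e x → ∀ l, ContDiffAt ℝ ∞ (fun z => γ e z l) (e x)
  change : ∀ e e' x, At e x → At e' x → ∀ l,
    γ e (e x) l = ∑ q, γ e' (e' x) q * (starRingEnd ℂ) (jacM e e' x q l)

/-- `∂γ` -/
def del (γ : Chart n X → Cm n → Fin n → ℂ) : Chart n X → Cm n → Matrix (Fin n) (Fin n) ℂ :=
  fun e z => Matrix.of fun k l => dz k (fun y => γ e y l) z

lemma del_smooth {γ : Chart n X → Cm n → Fin n → ℂ} (hγ : Is01 γ) :
    ∀ e x, At e x → ∀ i j, ContDiffAt ℝ ∞ (fun z => del γ e z i j) (e x) :=
  fun e x h i j => smooth_dz (hγ.smooth e x h j)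

lemma del_form [IsManifold 𝓘(ℂ, Cm n) ω X] {γ : Chart n X → Cm n → Fin n → ℂ} (hγ : Is01 γ) :
    IsForm (del γ) := by
  intro e e' x h h'
  set τ : Cm n → Cm n := fun z => e' (e.symm z) with hτ
  have h2 : τ (e x) = e' x := by rw [hτ]; simp only [h.left_inv]
  have hT := Vale.Agent.P272.K.transition h h'
  have hTd : DifferentiableAt ℂ τ (e x) := hT.differentiableAt (by simp)
  have hev : ∀ l, (fun y => γ e y l) =ᶠ[𝓝 (e x)]
      fun y => ∑ q, γ e' (τ y) q * (starRingEnd ℂ) (jmat τ y q l) := by
    intro l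
    filter_upwards [h.nhds_at h', jacM_eventually h h'] with z hz hz2
    have := hγ.change e e' (e.symm z) hz.2.1 hz.2.2 l
    rw [e.right_inv hz.1] at this
    rw [this, hz2]
  ext k l
  show dz k (fun y => γ e y l) (e x) = _
  rw [Vale.Agent.P272.K.INT.dz_congr (hev l)]
  have hg : ∀ q, DifferentiableAt ℝ (fun y => γ e' y q) (τ (e x)) := fun q => by
    rw [h2]; exact (hγ.smooth e' x h' q).differentiableAt (by simp)
  have hd1 : ∀ q, DifferentiableAt ℝ (fun y => γ e' (τ y) q) (e x) := fun q =>
    (hg q).comp (e x) (hTd.restrictScalars ℝ)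
  have hjd : ∀ q, DifferentiableAt ℂ (fun y => jmat τ y q l) (e x) := fun q =>
    (jmat_holo hT q l).differentiableAt (by simp)
  have hd2 : ∀ q, DifferentiableAt ℝ (fun y => (starRingEnd ℂ) (jmat τ y q l)) (e x) := fun q =>
    Complex.conjCLE.differentiableAt.comp (e x) ((hjd q).restrictScalars ℝ)
  rw [Vale.Agent.P272.K.INT.dz_sum (F := fun q y => γ e' (τ y) q * (starRingEnd ℂ) (jmat τ y q l))
    Finset.univ fun q _ => (hd1 q).mul (hd2 q)]
  have h3 : ∀ q, dz k (fun y => γ e' (τ y) q * (starRingEnd ℂ) (jmat τ y q l)) (e x) =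
      ∑ p, jacM e e' x p k * del γ e' (e' x) p q * (starRingEnd ℂ) (jacM e e' x q l) := by
    intro q
    rw [Vale.Agent.P272.K.INT.dz_mul (hd1 q) (hd2 q), Vale.Agent.P272.K.INT.dz_conj,
      Vale.Agent.P272.K.dzb_of_holo (hjd q), dz_comp_holo (hg q) hTd, h2, map_zero, mul_zero, add_zero,
      Finset.sum_mul]
    refine Finset.sum_congr rfl fun p _ => ?_
    show dz p (fun y => γ e' y q) (e' x) * jacM e e' x p k * (starRingEnd ℂ) (jacM e e' x q l) =
      jacM e e' x p k * dz p (fun y => γ e' y q) (e' x) * (starRingEnd ℂ) (jacM e e' x q l)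
    ring
  rw [Finset.sum_congr rfl fun q _ => h3 q]
  simp only [Matrix.mul_apply, Matrix.transpose_apply, Matrix.map_apply, Finset.sum_mul]

lemma Is01.smul {γ : Chart n X → Cm n → Fin n → ℂ} (hγ : Is01 γ) {u : X → ℝ}
    (hu : SmoothFn (n := n) u) : Is01 fun (e : Chart n X) z l => (u (e.symm z) : ℂ) * γ e z l where
  smooth e x h l := (INT.ofReal_contDiffAt (hu e x h)).mul (hγ.smooth e x h l)
  change e e' x h h' l := by
    simp only [h.left_inv, h'.left_inv]
    rw [hγ.change e e' x h h' l, Finset.mul_sum]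
    exact Finset.sum_congr rfl fun q _ => by ring

variable [IsManifold 𝓘(ℂ, Cm n) ω X] [T2Space X] [CompactSpace X]

/-- the piece supported in a chart -/
theorem intX_mix_piece {b : Chart n X → Cm n → Matrix (Fin n) (Fin n) ℂ} (hb : IsClosedForm b)
    {γ : Chart n X → Cm n → Fin n → ℂ} (hγ : Is01 γ) {e : Chart n X} (he : e ∈ atlas (Cm n) X)
    {K : Set X} (hK : IsClosed K) (hKe : K ⊆ e.source)
    (h0 : ∀ e' x, At e' x → x ∉ K → γ e' (e' x) = 0) :
    intX (fun e z => (mix (b e z) (del γ e z)).re) = 0 := by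
  have hD := isDensity_mix hb.form (del_form hγ) hb.smooth (del_smooth hγ)
  have hev0 : ∀ (e' : Chart n X) x, At e' x → x ∉ K → γ e' =ᶠ[𝓝 (e' x)] fun _ => 0 := by
    intro e' x hx hxK
    have h1 : ∀ᶠ y in 𝓝 (e' x), e'.symm y ∈ Kᶜ := by
      apply (e'.continuousAt_symm (e'.map_source hx.2)).eventually_mem
      rw [e'.left_inv hx.2]
      exact hK.isOpen_compl.mem_nhds hxK
    filter_upwards [h1, hx.nhds_target] with y hy hy2
    have := h0 e' (e'.symm y) (At.of_target hx.1 hy2) hy
    rwa [e'.right_inv hy2] at this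
  have hdel0 : ∀ (e' : Chart n X) x, At e' x → x ∉ K → del γ e' (e' x) = 0 := by
    intro e' x hx hxK
    ext k l
    show dz k (fun y => γ e' y l) (e' x) = 0
    have h1 : (fun y => γ e' y l) =ᶠ[𝓝 (e' x)] fun _ => (0 : ℂ) := by
      filter_upwards [hev0 e' x hx hxK] with y hy
      rw [hy]; rfl
    rw [INT.dz_congr h1]; simp
  rw [intX_of_support hD he hK hKe (fun e' x hx hxK => by
    simp only [hdel0 e' x hx hxK, mix_zero, Complex.zero_re])]
  -- the vector field
  set V : Fin n → Cm n → ℂ := fun r z => ((b e z).updateRow r (γ e z)).det with hV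
  have hat : ∀ z ∈ e.target, At e (e.symm z) := fun z hz => At.of_target he hz
  have hbs : ∀ z ∈ e.target, ∀ i j, ContDiffAt ℝ ∞ (fun y => b e y i j) z := by
    intro z hz i j
    have := hb.smooth e (e.symm z) (hat z hz) i j
    rwa [e.right_inv hz] at this
  have hγs : ∀ z ∈ e.target, ∀ l, ContDiffAt ℝ ∞ (fun y => γ e y l) z := by
    intro z hz l
    have := hγ.smooth e (e.symm z) (hat z hz) l
    rwa [e.right_inv hz] at this
  have hcl : ∀ z ∈ e.target, ∀ i k l,
      dz i (fun y => b e y k l) z = dz k (fun y => b e y i l) z := by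
    intro z hz i k l
    have := hb.closed e (e.symm z) (hat z hz) i k l
    rwa [e.right_inv hz] at this
  have key : ∀ z ∈ e.target, mix (b e z) (del γ e z) = ∑ r, dz r (V r) z := by
    intro z hz
    have := piola (M := b e) (a := γ e) (z := z)
      (fun i j => (hbs z hz i j).differentiableAt (by simp))
      (fun l => (hγs z hz l).differentiableAt (by simp)) (hcl z hz)
    rw [this]
    rfl
  have hc : IsCompact (e '' K) :=
    hK.isCompact.image_of_continuousOn (e.continuousOn.mono hKe)
  have hsub : e '' K ⊆ e.target := by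
    rintro _ ⟨x, hx, rfl⟩; exact e.map_source (hKe hx)
  set W : Fin n → Cm n → ℂ := fun r => e.target.indicator (V r) with hW
  have hVs : ∀ r, ∀ z ∈ e.target, ContDiffAt ℝ 1 (V r) z := by
    intro r z hz
    refine (contDiffAt_det (k := ∞) fun i j => ?_).of_le (by exact_mod_cast le_top)
    by_cases h : i = r
    · subst h
      simp only [Matrix.updateRow_self]
      exact hγs z hz j
    · simp only [Matrix.updateRow_ne h]
      exact hbs z hz i j
  have hsupp : ∀ r, Function.support (W r) ⊆ e '' K := by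
    intro r z hz
    rw [Function.mem_support] at hz
    have hzt : z ∈ e.target := by
      by_contra h; exact hz (indicator_of_notMem h _)
    rw [hW] at hz
    simp only at hz
    rw [indicator_of_mem hzt] at hz
    by_contra hne
    apply hz
    have hzK : e.symm z ∉ K := fun h => hne ⟨_, h, e.right_inv hzt⟩
    have h1 := h0 e (e.symm z) (hat z hzt) hzK
    rw [e.right_inv hzt] at h1
    refine Matrix.det_eq_zero_of_row_eq_zero r fun l => ?_
    rw [Matrix.updateRow_self, h1]
    rfl
  have hts : ∀ r, tsupport (W r) ⊆ e '' K := fun r => closure_minimal (hsupp r) hc.isClosed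
  have hWc : ∀ r, HasCompactSupport (W r) := fun r =>
    hc.of_isClosed_subset (isClosed_tsupport _) (hts r)
  have hWev : ∀ r, ∀ z ∈ e.target, W r =ᶠ[𝓝 z] V r := by
    intro r z hz
    filter_upwards [e.open_target.mem_nhds hz] with y hy
    exact indicator_of_mem hy _
  have hWs : ∀ r, ContDiff ℝ 1 (W r) := by
    intro r
    rw [contDiff_iff_contDiffAt]
    intro z
    by_cases hz : z ∈ e.target
    · exact (hVs r z hz).congr_of_eventuallyEq (hWev r z hz)
    · exact contDiffAt_const.congr_of_eventuallyEq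
        (notMem_tsupport_iff_eventuallyEq.1 fun h => hz (hsub (hts r h)))
  have hint : ∀ r, Integrable (fun z => dz r (W r) z) := by
    intro r
    have h1 : Continuous (dz r (W r)) := by
      rw [dz_fun_eq]
      have := (hWs r).continuous_fderiv (by norm_num)
      exact continuous_const.mul ((this.clm_apply continuous_const).sub
        (continuous_const.mul (this.clm_apply continuous_const)))
    refine h1.integrable_of_hasCompactSupport (HasCompactSupport.intro hc fun z hz => ?_)
    have h2 : W r =ᶠ[𝓝 z] fun _ => 0 :=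
      notMem_tsupport_iff_eventuallyEq.1 fun h => hz (hts r h)
    rw [INT.dz_congr h2]; simp
  have e1 : ∫ z in e.target, (mix (b e z) (del γ e z)).re = ∫ z, (∑ r, dz r (W r) z).re := by
    rw [← integral_indicator e.open_target.measurableSet]
    congr 1
    funext z
    by_cases hz : z ∈ e.target
    · rw [indicator_of_mem hz, key z hz]
      congr 1
      exact Finset.sum_congr rfl fun r _ => (INT.dz_congr (hWev r z hz)).symm
    · rw [indicator_of_notMem hz]
      have : ∑ r, dz r (W r) z = 0 := by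
        refine Finset.sum_eq_zero fun r _ => ?_
        have h2 : W r =ᶠ[𝓝 z] fun _ => 0 :=
          notMem_tsupport_iff_eventuallyEq.1 fun h => hz (hsub (hts r h))
        rw [INT.dz_congr h2]; simp
      rw [this, Complex.zero_re]
  have e3 : ∫ z, (∑ r, dz r (W r) z).re = (∫ z, ∑ r, dz r (W r) z).re :=
    Complex.reCLM.integral_comp_comm (integrable_finsetSum _ fun r _ => hint r)
  rw [e1, e3, integral_finsetSum _ fun r _ => hint r]
  simp [fun r => integral_dz_eq_zero (hWs r) (hWc r) r]

/-- **Stokes theorem**: `∫ ∂γ ∧ b ^ (n - 1) = 0` for a closed form `b`. -/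
theorem intX_mix_del {b : Chart n X → Cm n → Matrix (Fin n) (Fin n) ℂ} (hb : IsClosedForm b)
    {γ : Chart n X → Cm n → Fin n → ℂ} (hγ : Is01 γ) :
    intX (fun e z => (mix (b e z) (del γ e z)).re) = 0 := by
  classical
  set P := part n X with hP
  have hp : ∀ i, Is01 fun (e : Chart n X) z l => (P.ρ i (e.symm z) : ℂ) * γ e z l := fun i =>
    hγ.smul (P.smooth i)
  have hD := fun i => isDensity_mix hb.form (del_form (hp i)) hb.smooth (del_smooth (hp i))
  have h1 : intX (fun e z => (mix (b e z) (del γ e z)).re) = intX fun e z => ∑ i,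
      (mix (b e z) (del (fun (e : Chart n X) z l => (P.ρ i (e.symm z) : ℂ) * γ e z l) e z)).re := by
    refine intX_congr fun e x hx => ?_
    have h2 : del γ e (e x) = ∑ i,
        del (fun (e : Chart n X) z l => (P.ρ i (e.symm z) : ℂ) * γ e z l) e (e x) := by
      ext k l
      rw [Matrix.sum_apply]
      show dz k (fun y => γ e y l) (e x) = ∑ i, dz k (fun y => (P.ρ i (e.symm y) : ℂ) * γ e y l) (e x)
      rw [← INT.dz_sum (F := fun i y => (P.ρ i (e.symm y) : ℂ) * γ e y l) Finset.univ fun i _ =>
        ((hp i).smooth e x hx l).differentiableAt (by simp)]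
      congr 1
      funext y
      rw [← Finset.sum_mul]
      have := P.sum (e.symm y)
      have h3 : ∑ i, (P.ρ i (e.symm y) : ℂ) = 1 := by exact_mod_cast this
      rw [h3, one_mul]
    rw [h2, mix_sum, Complex.re_sum]
  rw [h1, intX_sum Finset.univ fun i _ => hD i]
  refine Finset.sum_eq_zero fun i _ => ?_
  refine intX_mix_piece hb (hp i) (P.mem i) (isClosed_tsupport (P.ρ i)) (P.supp i) ?_
  intro e' x hx hxK
  funext l
  simp only [hx.left_inv, image_eq_zero_of_notMem_tsupport hxK]
  simp

/-- Stokes theorem for the conjugate form -/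
theorem intX_mix_del_conj {b : Chart n X → Cm n → Matrix (Fin n) (Fin n) ℂ} (hb : IsClosedForm b)
    (hh : ∀ e x, At e x → (b e (e x)).IsHermitian)
    {γ : Chart n X → Cm n → Fin n → ℂ} (hγ : Is01 γ) :
    intX (fun e z => (mix (b e z) (del γ e z).conjTranspose).re) = 0 := by
  rw [← intX_mix_del hb hγ]
  refine intX_congr fun e x hx => ?_
  have h1 := mix_conj (b e (e x)) (del γ e (e x))
  rw [(hh e x hx).eq] at h1
  rw [h1, Complex.conj_re]

end Vale.Agent.P301.H949
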