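import Vale.Agent.P301.H949.LimOne
import Vale.Agent.P301.H450.PullIdx
import Vale.Agent.P301.H450.ConstOne
import Vale.Agent.P301.H599.NSL
import Vale.Agent.P301.H599.CY5

/-!
# P301: the numbers of independent sections of `L` (Picard rank two)
-/

open Filter Metric Set MeasureTheory Topology
open scoped ENNReal ComplexOrder Matrix ComplexConjugate Manifold ContDiff

set_option linter.all false

noncomputable section

namespace Vale.Agent.P301.H949

open Vale.Agent.P272.K Vale.Agent.P272.K.C2 Vale.Agent.P299.IX Vale.Agent.P299.IX.Fock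
open Vale.Agent.P301.H85 Vale.Agent.P301.H599 Vale.Agent.P301.H862 Vale.Agent.P299.H954
open Vale.Agent.P301.H103
open Vale.Agent.P301.H395 (IntSec IntForm)
open Vale.Agent.P301.H897 (LamF)
open Vale.Agent.P301.H724 (Nz Homog LinInd)
open Vale.Agent.P301.H951 Vale.Agent.P301.H794

variable {d : ℕ} {X : Type} [TopologicalSpace X] [ChartedSpace (Cm d) X]
variable {ι κ : Type} {L : LineBundle d X ι} {V : LineBundle d X κ}
variable {w s : Fm d X} {ρ : ι → X → ℝ} {ρV : κ → X → ℝ} {F : Auto d X} {c : ℝ} {a : ℤ}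

/-- The data of `H99.IsPairV`. -/
structure ParV (L : LineBundle d X ι) (ρ : ι → X → ℝ) (w s : Fm d X) (F : Auto d X) (c : ℝ)
    (V : LineBundle d X κ) (ρV : κ → X → ℝ) (a : ℤ) : Prop where
  symp : IsSymplectic d X w s
  met : IsMetric L ρ
  metV : IsMetric V ρV
  cpos : 0 < c
  ane : a ≠ 0
  pull_L : SameClass (pull F (curvature L ρ)) (curvature L ρ)
  pull_w : SameClass (fun e z => pull F (pull F w) e z - (2 : ℂ) • pull F w e z + w e z)
      (fun e z => (c : ℂ) • curvature L ρ e z)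
  pull_V : SameClass (pull F (curvature V ρV))
      (fun e z => curvature V ρV e z + (a : ℂ) • curvature L ρ e z)
  ne : ¬ H450.IsExact (curvature L ρ)
  ns : H99.NS L ρ V ρV

variable [IsManifold 𝓘(ℂ, Cm d) ω X] [T2Space X] [CompactSpace X]

theorem ParV.nsl [SimplyConnectedSpace X] (h : ParV L ρ w s F c V ρV a) : NSLProp L :=
  fun κ' M p β hβ hh hne => H599.nsl h.symp h.met F h.cpos h.pull_L h.pull_w h.ne h.metV h.ane
    h.pull_V h.ns hβ hh hne

theorem ParV.nef [SimplyConnectedSpace X] (h : ParV L ρ w s F c V ρV a) :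
    H450.IsNef w (curvature L ρ) := H450.nef_par h.symp h.met F h.cpos h.pull_L h.pull_w

theorem ParV.q_zero [SimplyConnectedSpace X] (h : ParV L ρ w s F c V ρV a) :
    H450.q s (curvature L ρ) (curvature L ρ) = 0 :=
  H450.q_par h.symp h.met F h.cpos h.pull_L h.pull_w

theorem ParV.cy [SimplyConnectedSpace X] (h : ParV L ρ w s F c V ρV a) {n : ℕ} (hd : d = 2 * n)
    (hn : 0 < n) (p : ℝ) (hp : 0 ≤ p) : CYStatement F L ρ w n 1 p := by
  obtain ⟨u, g, D⟩ := H450.exists_dat h.symp h.met F h.cpos h.pull_L h.pull_w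
  exact exists_cy_symplectic h.symp D hd hn h.ne le_rfl hp

/-- independence of the index of the Kähler form -/
def WInd (d : ℕ) (X : Type) [TopologicalSpace X] [ChartedSpace (Cm d) X]
    [IsManifold 𝓘(ℂ, Cm d) ω X] [T2Space X] [CompactSpace X] : Prop :=
  ∀ (ν : Type) (B : HB d X ν) (w : Chart d X → Cm d → Matrix (Fin d) (Fin d) ℂ)
    (hw : IsKahler w), (H450.withW B w hw).ell.P = B.ell.P

theorem ParV.index [SimplyConnectedSpace X] (h : ParV L ρ w s F c V ρV a) (hW : WInd d X)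
    (m : ℕ) : ((⟨L, ρ, w, h.met, h.symp.kahler⟩ : HB d X ι).pow m).ell.P = HB.chi0 d X :=
  H450.index_const F (fun ν B => H450.index_pull F B) hW ⟨L, ρ, w, h.met, h.symp.kahler⟩ h.metV
    h.ane h.pull_L h.pull_V m

/-- the alternating sum of the ranks -/
theorem ParV.sum_rk [SimplyConnectedSpace X] (h : ParV L ρ w s F c V ρV a) {n : ℕ}
    (hd : d = 2 * n) (hn : 0 < n) (hW : WInd d X) :
    (n : ℤ) + 1 ≤ ∑ p ∈ Finset.range (d + 1), (-1 : ℤ) ^ p *
      (rk (⟨L, ρ, w, h.met, h.symp.kahler⟩ : HB d X ι) p : ℤ) := by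
  have h1 := h.index hW 1
  rw [index_eq_sum _ 1 (finite_sk_pow _ 1)] at h1
  have h2 : ∑ p ∈ Finset.range (d + 1), (-1 : ℤ) ^ p *
      (rk (⟨L, ρ, w, h.met, h.symp.kahler⟩ : HB d X ι) p : ℤ) = HB.chi0 d X := by
    rw [← h1]
    refine Finset.sum_congr rfl fun p hp => ?_
    rw [rk, if_pos hp]
  rw [h2]
  exact le_chi0 h.symp h.met hd hn h.nef h.q_zero h.ne

omit [IsManifold 𝓘(ℂ, Cm d) ω X] [T2Space X] [CompactSpace X] in
/-- a subfamily of independent sections -/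
theorem indSec_comp {r r' : ℕ} {f : Fin r → ι → X → ℂ} (hf : H99.IndSec L f) (hr : r' ≤ r) :
    H99.IndSec L fun b : Fin r' => f (Fin.castLE hr b) := by
  classical
  intro t ht
  have h1 := hf (fun b => if hb : (b : ℕ) < r' then t ⟨b, hb⟩ else 0) fun i x hi => by
    refine Eq.trans ?_ (ht i x hi)
    have h3 : ∑ b : Fin r, (if hb : (b : ℕ) < r' then t ⟨b, hb⟩ else 0) * f b i x =
        ∑ b ∈ (Finset.univ : Finset (Fin r')).map (Fin.castLEEmb hr),
          (if hb : (b : ℕ) < r' then t ⟨b, hb⟩ else 0) * f b i x := by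
      symm
      refine Finset.sum_subset (Finset.subset_univ _) fun b _ hb => ?_
      have hb' : ¬ (b : ℕ) < r' := fun hlt => hb (Finset.mem_map.2
        ⟨⟨b, hlt⟩, Finset.mem_univ _, Fin.ext rfl⟩)
      rw [dif_neg hb', zero_mul]
    rw [h3, Finset.sum_map]
    refine Finset.sum_congr rfl fun b _ => ?_
    have hb : ((Fin.castLEEmb hr b : Fin r) : ℕ) < r' := b.2
    rw [dif_pos hb]
    rfl
  funext b
  have h2 := congrFun h1 (Fin.castLE hr b)
  simp only [Pi.zero_apply] at h2 ⊢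
  rw [dif_pos (show ((Fin.castLE hr b : Fin r) : ℕ) < r' from b.2)] at h2
  exact h2

/-- `h⁰(L)` is at least the rank in the top degree -/
theorem Lim1.indSec [SimplyConnectedSpace X] {F : X → X} (hs : IsSymplectic d X w s) {n Q : ℕ}
    (hd : d = 2 * n) {r : ℕ → ℕ} {φN : ℕ → X → ℝ} {φ : X → ℝ} {ε : ℕ → ℝ}
    {u : ∀ p, Fin (r p) → Fam d X ι} (h : Lim1 F L ρ w n Q r φN φ ε u) {k : ℕ} (hk : k ≤ r d) :
    ∃ f : Fin k → ι → X → ℂ, (∀ b, IntSec L 1 (f b)) ∧ H99.IndSec L f := by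
  obtain ⟨f, hf, hi⟩ := exists_indSec hs hd (h.sec d) (h.hom d) (h.lin d)
  exact ⟨_, fun b => hf (Fin.castLE hk b), indSec_comp hi hk⟩

end Vale.Agent.P301.H949

namespace Vale.Agent.P301.H949

open Vale.Agent.P272.K Vale.Agent.P272.K.C2 Vale.Agent.P299.IX Vale.Agent.P299.IX.Fock
open Vale.Agent.P301.H85 Vale.Agent.P301.H599 Vale.Agent.P301.H862 Vale.Agent.P299.H954
open Vale.Agent.P301.H103
open Vale.Agent.P301.H395 (IntSec IntForm)
open Vale.Agent.P301.H897 (LamF)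
open Vale.Agent.P301.H724 (Nz Homog LinInd)
open Vale.Agent.P301.H951 Vale.Agent.P301.H794

variable {ι κ : Type} {c : ℝ} {a : ℤ}

/-- **T2**: two independent sections of `L` in dimension four. -/
theorem two_sec_four {X : Type} [TopologicalSpace X] [ChartedSpace (Cm 4) X]
    [IsManifold 𝓘(ℂ, Cm 4) ω X] [T2Space X] [CompactSpace X] [SimplyConnectedSpace X]
    {L : LineBundle 4 X ι} {V : LineBundle 4 X κ} {w s : Fm 4 X} {ρ : ι → X → ℝ}
    {ρV : κ → X → ℝ} {F : Auto 4 X} (h : ParV L ρ w s F c V ρV a) (hW : WInd 4 X)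
    (hR : RankInd (powL L 1)) :
    ∃ f : Fin 2 → ι → X → ℂ, (∀ b, IntSec L 1 (f b)) ∧ H99.IndSec L f := by
  obtain ⟨φN, φ, ε, u, hu⟩ := exists_lim1 (n := 2) h.symp h.met (by norm_num) (by norm_num)
    (h.cy (by norm_num) (by norm_num)) hR 0
  refine hu.indSec h.symp (by norm_num) ?_
  refine num_four (h.sum_rk (by norm_num) (by norm_num) hW) (fun p hp => ?_) ?_
  · exact count_eq_zero hp (hu.hom p) (hu.lin p) fun i e x hx hi => hu.ann_deg p i e x hx hi
  · exact count_le_one h.symp h.met h.ne h.nsl (by norm_num) (by norm_num) (hu.sec 2) (hu.hom 2)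
      (hu.lin 2) fun i e x hx hi => hu.ann_deg 2 i e x hx hi

/-- **T1**: three independent sections of `L` in dimension six, given the bound for the ranks in the
degrees four and five. -/
theorem three_sec_six_of {X : Type} [TopologicalSpace X] [ChartedSpace (Cm 6) X]
    [IsManifold 𝓘(ℂ, Cm 6) ω X] [T2Space X] [CompactSpace X] [SimplyConnectedSpace X]
    {L : LineBundle 6 X ι} {V : LineBundle 6 X κ} {w s : Fm 6 X} {ρ : ι → X → ℝ}
    {ρV : κ → X → ℝ} {F : Auto 6 X} (h : ParV L ρ w s F c V ρV a) (hW : WInd 6 X)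
    (hR : RankInd (powL L 1)) {Q : ℕ}
    (hcount : ∀ (φN : ℕ → X → ℝ) (φ : X → ℝ) (ε : ℕ → ℝ)
      (u : ∀ p, Fin (rk (⟨L, ρ, w, h.met, h.symp.kahler⟩ : HB 6 X ι) p) → Fam 6 X ι),
      Lim1 F L ρ w 3 Q (rk (⟨L, ρ, w, h.met, h.symp.kahler⟩ : HB 6 X ι)) φN φ ε u →
      2 ≤ rk (⟨L, ρ, w, h.met, h.symp.kahler⟩ : HB 6 X ι) 4 →
      rk (⟨L, ρ, w, h.met, h.symp.kahler⟩ : HB 6 X ι) 4 ≤
        rk (⟨L, ρ, w, h.met, h.symp.kahler⟩ : HB 6 X ι) 5 + 1) :
    ∃ f : Fin 3 → ι → X → ℂ, (∀ b, IntSec L 1 (f b)) ∧ H99.IndSec L f := by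
  obtain ⟨φN, φ, ε, u, hu⟩ := exists_lim1 (n := 3) h.symp h.met (by norm_num) (by norm_num)
    (h.cy (by norm_num) (by norm_num)) hR Q
  refine hu.indSec h.symp (by norm_num) ?_
  refine num_six (h.sum_rk (by norm_num) (by norm_num) hW) (fun p hp => ?_)
    (hcount φN φ ε u hu)
  exact count_eq_zero hp (hu.hom p) (hu.lin p) fun i e x hx hi => hu.ann_deg p i e x hx hi

end Vale.Agent.P301.H949
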