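import Vale.Agent.P301.H949.T12
import Vale.Agent.P301.H450.WInd
import Vale.Agent.P301.H599.Count

/-!
# P301: two independent sections of `L` in dimension four, three in dimension six
-/

open Filter Metric Set MeasureTheory Topology
open scoped ENNReal ComplexOrder Matrix ComplexConjugate Manifold ContDiff

set_option linter.all false

noncomputable section

namespace Vale.Agent.P301.H949

open Vale.Agent.P272.K Vale.Agent.P272.K.C2 Vale.Agent.P299.IX Vale.Agent.P299.IX.Fock
open Vale.Agent.P301.H85 Vale.Agent.P301.H599 Vale.Agent.P301.H862 Vale.Agent.P299.H954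
open Vale.Agent.P301.H103
open Vale.Agent.P301.H395 (IntSec IntForm)
open Vale.Agent.P301.H897 (LamF)
open Vale.Agent.P301.H724 (Nz Homog LinInd)
open Vale.Agent.P301.H951 Vale.Agent.P301.H794

section gen

variable {d : ℕ} {X : Type} [TopologicalSpace X] [ChartedSpace (Cm d) X]
variable {ι κ : Type} {L : LineBundle d X ι}

theorem not_isExact {ρ : ι → X → ℝ} (h : ¬ SameClass (curvature L ρ) (fun _ _ => 0)) :
    ¬ H450.IsExact (curvature L ρ) := fun ⟨u, hu, hue⟩ =>
  h ⟨u, hu, fun e x hx => by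
    rw [zero_add]
    exact hue e x hx⟩

theorem exists_parV (h : H99.IsPairV L) : ∃ (w s : Fm d X) (ρ : ι → X → ℝ) (F : Auto d X) (c : ℝ)
    (κ : Type) (V : LineBundle d X κ) (ρV : κ → X → ℝ) (a : ℤ), ParV L ρ w s F c V ρV a := by
  obtain ⟨w, s, ρ, F, c, κ, V, ρV, a, h1, h2, h3, h4, h5, h6, h7, h8, h9, h10⟩ := h
  exact ⟨w, s, ρ, F, c, κ, V, ρV, a, h1, h2, h3, h4, h5, h6, h7, h8, not_isExact h9, h10⟩

variable [IsManifold 𝓘(ℂ, Cm d) ω X] [T2Space X] [CompactSpace X] [SimplyConnectedSpace X]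

theorem wInd : WInd d X := fun ν B w hw => H450.index_withW B w hw

theorem rankInd (L : LineBundle d X ι) : RankInd L := fun B B' h h' p hp =>
  H450.finrank_skd_indep (h'.trans h.symm) hp

end gen

variable {ι : Type}

/-- **T2.** Two independent sections of `L` on fourfolds. -/
theorem two_sections_four {X : Type} [TopologicalSpace X] [ChartedSpace (Cm 4) X]
    [IsManifold 𝓘(ℂ, Cm 4) ω X] [T2Space X] [CompactSpace X] [SimplyConnectedSpace X]
    {L : LineBundle 4 X ι} (h : H99.IsPairV L) :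
    ∃ f : Fin 2 → ι → X → ℂ, (∀ b, IntSec L 1 (f b)) ∧ H99.IndSec L f := by
  obtain ⟨w, s, ρ, F, c, κ, V, ρV, a, h⟩ := exists_parV h
  exact two_sec_four h wInd (rankInd _)

/-- **T1.** Three independent sections of `L` on sixfolds. -/
theorem three_sections_six {X : Type} [TopologicalSpace X] [ChartedSpace (Cm 6) X]
    [IsManifold 𝓘(ℂ, Cm 6) ω X] [T2Space X] [CompactSpace X] [SimplyConnectedSpace X]
    {L : LineBundle 6 X ι} (h : H99.IsPairV L) :
    ∃ f : Fin 3 → ι → X → ℂ, (∀ b, IntSec L 1 (f b)) ∧ H99.IndSec L f := by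
  obtain ⟨w, s, ρ, F, c, κ, V, ρV, a, h⟩ := exists_parV h
  refine three_sec_six_of h wInd (rankInd _) (Q := 4 * (1 + (H450.Mb 6).factorial)) ?_
  intro φN φ ε u hu _
  obtain ⟨δ, C, C₁, c₀, K, τ, hδ, hC, hc₀, hA⟩ := hu.cy
  choose G hG using hu.lim
  have hm : IsMetric L fun i x => ρ i x + φN 0 x := isMetric_add h.met (hA 0).smooth
  have hf : FiniteDimensional ℂ (skd ((cyB L ρ w (φN 0) hm h.symp.kahler).pow 1).grading 5) :=
    finite_skd_pow _ 1 (by decide)
  have h1 := count_four_five h.symp h.met F h.cpos h.pull_L h.pull_w h.ne h.metV h.ane h.pull_V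
    h.ns hu.eps hu.eps0 hδ hC hA le_rfl hu.wlim (hG 4) (hu.sec 4) (hu.hom 4) (hu.lin 4)
    (fun i e x hx hi => hu.ann_deg 4 i e x hx hi) (hA 0).smooth hm
  refine h1.trans (le_of_eq ?_)
  congr 1
  rw [rk, if_pos (by decide)]
  exact rankInd (powL L 1) _ ((cyB L ρ w (φN 0) hm h.symp.kahler).pow 1) rfl rfl 5 (by decide)

end Vale.Agent.P301.H949
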